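import Vale.Agent.P012F.Parts

/-!
# P012F: final assembly of the expansion.
-/

namespace Vale.Agent.P012F

open Finset

/-- The final assembly: from the two rough numerators to the expansion of `u₀ / v₀`.
`W = 2^? * p^7 * π * W₀`; the split is `v * n₁ + n₂ = u * W`, `v = v₀ * m`, `u + v₀ = u₀ * m`. -/
theorem final_assembly {S₁ S₂ G : Finset ℕ} {u₀ v₀ m u W W₀ n₁ n₂ p r π₀ K c₁ c₂ : ℕ}
    (hv₀ : 0 < v₀) (hu₀ : 0 < u₀) (hm2 : 2 ≤ m) (hπm : ¬ π₀ ∣ m)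
    (hu : u + v₀ = u₀ * m) (hsplit : v₀ * m * n₁ + n₂ = u * W)
    (hG : ∀ n ∈ G, n * u₀ < v₀ ∧ ¬ π₀ ∣ n) (hW0 : 0 < W)
    (hS₁ : S₁.Nonempty) (hS₂ : S₂.Nonempty)
    (hp : p.Prime) (hr : r.Prime) (hr2 : r ≠ 2) (hrne : r ≠ p) (hrp : r ∣ p ^ 3 + 1)
    (hpW₀ : ¬ p ∣ W₀) (hpm : ¬ p ∣ m) (hW₀ : 0 < W₀)
    (hS₁rep : ∀ x ∈ S₁, Rep W₀ K x ∧ x % r = c₁) (hc₁ : c₁ < r)
    (hS₂rep : ∀ x ∈ S₂, Rep (m * W₀) (2 * K) x ∧ 1 ≤ x ∧ x % r = c₂)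
    (hn₁ : 1 ≤ n₁) (hn₁p : Nat.Coprime p n₁) (hV₁ : VV S₁ n₁ < 1)
    (hn₂ : 1 ≤ n₂) (hn₂p : Nat.Coprime p n₂) (hn₂r : ¬ r ∣ n₂) (hV₂ : VV S₂ n₂ < 1)
    (hW : p ^ 7 * W₀ ∣ W) (hrW : ¬ r ∣ W) (hπ : π₀.Prime) (hπW : π₀ ∣ W) (hπp : π₀ ≠ p)
    (hπW₀ : ¬ π₀ ∣ W₀) :
    ∃ F : Finset ℕ, (∀ n ∈ F, 2 ≤ n) ∧ (∑ n ∈ F, (1 : ℚ) / n) = (u₀ : ℚ) / v₀ ∧
      F.card ≤ 6 * K + 3 ∧ Disjoint F G := by
  classical
  have hm0 : 0 < m := by omega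
  obtain ⟨A₁, hA₁s, hA₁c, hA₁⟩ := part1 hS₁ hp hr hr2 hrne hrp hpW₀ hW₀ hS₁rep hc₁ hn₁ hn₁p hV₁ hW hW0
    hrW hπ hπW hπp hπW₀
  have hpW' : ¬ p ∣ m * W₀ := by
    intro h
    rcases hp.dvd_mul.mp h with h | h
    · exact hpm h
    · exact hpW₀ h
  have hπW' : ¬ π₀ ∣ m * W₀ := by
    intro h
    rcases hπ.dvd_mul.mp h with h | h
    · exact hπm h
    · exact hπW₀ h
  have hZ : p ^ 3 * (m * W₀) ∣ v₀ * m * W := by
    have h1 : p ^ 3 * W₀ ∣ W := by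
      refine Dvd.dvd.trans ?_ hW
      exact Nat.mul_dvd_mul_right (pow_dvd_pow p (by norm_num)) W₀
    have h2 : p ^ 3 * (m * W₀) = m * (p ^ 3 * W₀) := by ring
    rw [h2]
    exact Nat.mul_dvd_mul (dvd_mul_left m v₀) h1
  have hZ0 : 0 < v₀ * m * W := by positivity
  obtain ⟨A₂, hA₂s, hA₂c, hA₂⟩ := part2 hS₂ hp hr hrp hpW' (Nat.mul_pos hm0 hW₀) hS₂rep hn₂ hn₂p hn₂r hV₂
    hZ hZ0 hπ (hπW.mul_left _) hπp hπW'
  have hmA₁ : m ∉ A₁ := fun h => hπm (hA₁ m h).2.2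
  have hmA₂ : m ∉ A₂ := fun h => hπm (hA₂ m h).2.2
  have h12 : Disjoint A₁ A₂ := by
    rw [disjoint_left]
    intro d hd1 hd2
    exact (hA₁ d hd1).2.1 (hA₂ d hd2).2.1
  have hmG : ∀ n ∈ G, n ≠ m := by
    intro n hn hnm
    have h1 := (hG n hn).1
    rw [hnm] at h1
    have h2 : m * u₀ = u + v₀ := by rw [hu]; ring
    have hu_pos : 0 < u := by
      rcases Nat.eq_zero_or_pos u with h0 | h0
      · -- `u = 0` contradicts `m * u₀ < v₀`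
        omega
      · exact h0
    omega
  refine ⟨insert m (A₁ ∪ A₂), ?_, ?_, ?_, ?_⟩
  · intro n hn
    rcases mem_insert.mp hn with rfl | hn
    · exact hm2
    · rcases mem_union.mp hn with hn | hn
      · have := hA₁ n hn
        exact (hπ.two_le).trans (Nat.le_of_dvd this.1 this.2.2)
      · have := hA₂ n hn
        exact (hπ.two_le).trans (Nat.le_of_dvd this.1 this.2.2)
  · have hnot : m ∉ A₁ ∪ A₂ := fun h => by
      rcases mem_union.mp h with h | h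
      · exact hmA₁ h
      · exact hmA₂ h
    rw [sum_insert hnot, sum_union h12, hA₁s, hA₂s]
    have hW' : (W : ℚ) ≠ 0 := by positivity
    have hvq : (v₀ : ℚ) ≠ 0 := by positivity
    have hmq : (m : ℚ) ≠ 0 := by positivity
    have e1 : (v₀ : ℚ) * m * n₁ + n₂ = u * W := by exact_mod_cast hsplit
    have e2 : (u : ℚ) + v₀ = u₀ * m := by exact_mod_cast hu
    push_cast
    field_simp
    have e3 : (u : ℚ) = u₀ * m - v₀ := by linarith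
    rw [e3] at e1
    linear_combination e1
  · have h1 := card_insert_le m (A₁ ∪ A₂)
    have h2 := card_union_le A₁ A₂
    omega
  · rw [disjoint_left]
    intro n hn hnG
    rcases mem_insert.mp hn with rfl | hn
    · exact hmG n hnG rfl
    · rcases mem_union.mp hn with hn | hn
      · exact (hG n hnG).2 (hA₁ n hn).2.2
      · exact (hG n hnG).2 (hA₂ n hn).2.2

end Vale.Agent.P012F
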