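import Mathlib

/-!
# P012F: shared definitions for the proof of Erdős' conjecture `N(b) ≪ log log b`.

Blueprint: team database, table `notes`, id 94.
Everything in this folder lives in the namespace `Vale.Agent.P012F`.
-/

namespace Vale.Agent.P012F

open Finset

/-- The additive character `e(x) = exp(2 π i x)`. -/
noncomputable def ee (x : ℝ) : ℂ := Complex.exp (2 * Real.pi * Complex.I * x)

/-- The exponential sum `Ŝ(x) = ∑_{s ∈ S} e(s x)` of a finite set of naturals. -/
noncomputable def hat (S : Finset ℕ) (x : ℝ) : ℂ := ∑ s ∈ S, ee ((s : ℝ) * x)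

/-- The number of ordered pairs `(s, s') ∈ S × S` with `s ≡ s' (mod n)`. -/
def coll (S : Finset ℕ) (n : ℕ) : ℕ := ((S ×ˢ S).filter (fun p => p.1 ≡ p.2 [MOD n])).card

/-- The normalised excess `V_S(n) = n coll(S, n) / |S|² - 1`, nonnegative by Cauchy-Schwarz. -/
noncomputable def VV (S : Finset ℕ) (n : ℕ) : ℝ := (n : ℝ) * coll S n / (S.card : ℝ) ^ 2 - 1

/-- `n` is `z`-rough: no prime `p ≤ z` divides it. -/
def Rough (z n : ℕ) : Prop := ∀ p : ℕ, p.Prime → p ≤ z → ¬ p ∣ n

noncomputable instance (z n : ℕ) : Decidable (Rough z n) := Classical.dec _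

end Vale.Agent.P012F
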