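import Vale.Agent.P012F.Rep
import Vale.Agent.Lib.P012.Params
import Vale.Agent.Lib.P012.Image

/-!
# P012F M4: digit sets.

Simplified construction: a fixed digit set `D` (products of `h` primes of a pool of `2 h` primes)
and primes `q` with `2 ^ h < q ≤ 2 ^ (h + c)`; the set `S` consists of the numbers
`e₁ + q₁ (e₂ + q₂ (⋯ (e_R + q_R · 1)))`, the digit `e_j` running over representatives of `D` mod `q_j`.
-/

namespace Vale.Agent.P012F

open Finset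

lemma two_pow_le_primeCounting (n : ℕ) (hn : 1 ≤ n) :
    2 ^ n ≤ n * Nat.primeCounting (2 ^ n) + (n + 1) := by
  have hpi := Chebyshev.pi_ge (2 ^ n)
  have hl2 : 0 < Real.log 2 := Real.log_pos (by norm_num)
  have hlogn : Real.log (((2 ^ n : ℕ) : ℝ)) = (n : ℝ) * Real.log 2 := by
    push_cast
    rw [Real.log_pow]
  have hn1 : Real.log (((2 ^ n : ℕ) : ℝ) + 1) ≤ ((n : ℝ) + 1) * Real.log 2 := by
    have h1 : ((2 ^ n : ℕ) : ℝ) + 1 ≤ ((2 ^ (n + 1) : ℕ) : ℝ) := by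
      have : 1 ≤ 2 ^ n := Nat.one_le_two_pow
      have h2 : 2 ^ n + 1 ≤ 2 ^ (n + 1) := by
        rw [pow_succ]; omega
      exact_mod_cast h2
    calc _ ≤ Real.log ((2 ^ (n + 1) : ℕ) : ℝ) :=
          Real.log_le_log (by positivity) h1
      _ = _ := by
          push_cast
          rw [Real.log_pow]
          push_cast; ring
  have hnR : (0 : ℝ) < n := by exact_mod_cast hn
  rw [hlogn, div_le_iff₀ (by positivity)] at hpi
  have h3 : (((2 ^ n : ℕ) : ℝ)) * Real.log 2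
      ≤ ((n : ℝ) * (Nat.primeCounting (2 ^ n) : ℝ) + ((n : ℝ) + 1)) * Real.log 2 := by
    nlinarith
  have h4 := le_of_mul_le_mul_right h3 hl2
  exact_mod_cast h4

lemma prime_family (h c : ℕ) (hc : 2 * (h + c) ≤ 2 ^ c) (hn : 1 ≤ h + c) :
    ∃ 𝒬 : Finset ℕ, (∀ q ∈ 𝒬, q.Prime ∧ 2 ^ h < q ∧ q ≤ 2 ^ (h + c)) ∧ 2 ^ h ≤ 𝒬.card + 2 := by
  classical
  refine ⟨(Ioc (2 ^ h) (2 ^ (h + c))).filter Nat.Prime, ?_, ?_⟩
  · intro q hq
    obtain ⟨h1, h2⟩ := mem_filter.mp hq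
    exact ⟨h2, (mem_Ioc.mp h1).1, (mem_Ioc.mp h1).2⟩
  · set n := h + c with hnn
    have h1 := two_pow_le_primeCounting n hn
    set π := Nat.primeCounting (2 ^ n) with hπ
    have h2 : 2 ^ n = 2 ^ h * 2 ^ c := by rw [hnn, pow_add]
    have h3 : n * (2 * 2 ^ h) ≤ n * (π + 2) := by
      calc n * (2 * 2 ^ h) = 2 ^ h * (2 * n) := by ring
        _ ≤ 2 ^ h * 2 ^ c := Nat.mul_le_mul_left _ hc
        _ = 2 ^ n := h2.symm
        _ ≤ n * π + (n + 1) := h1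
        _ ≤ n * (π + 2) := by nlinarith
    have h4 : 2 * 2 ^ h ≤ π + 2 := Nat.le_of_mul_le_mul_left h3 (by omega)
    have h5 : Nat.primesLE (2 ^ n) ⊆ (range (2 ^ h + 1)).filter (fun p => p ≠ 0)
        ∪ (Ioc (2 ^ h) (2 ^ n)).filter Nat.Prime := by
      intro p hp
      have hp' := Nat.mem_primesLE.mp hp
      by_cases hle : p ≤ 2 ^ h
      · exact mem_union_left _ (mem_filter.mpr ⟨mem_range.mpr (by omega), hp'.2.ne_zero⟩)
      · exact mem_union_right _ (mem_filter.mpr ⟨mem_Ioc.mpr ⟨by omega, hp'.1⟩, hp'.2⟩)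
    have h6 := (card_le_card h5).trans (card_union_le _ _)
    rw [Nat.primesLE_card_eq_primeCounting] at h6
    have h7 : ((range (2 ^ h + 1)).filter (fun p => p ≠ 0)).card ≤ 2 ^ h := by
      have : (range (2 ^ h + 1)).filter (fun p => p ≠ 0) ⊆ Ioc 0 (2 ^ h) := by
        intro p hp
        obtain ⟨h8, h9⟩ := mem_filter.mp hp
        have := mem_range.mp h8
        exact mem_Ioc.mpr ⟨by omega, by omega⟩
      have h10 := card_le_card this
      simpa using h10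
    omega

/-- Representatives of the classes of `D` in `ZMod q`. -/
lemma exists_reps (D : Finset ℕ) (q : ℕ) : ∃ D' ⊆ D,
    Set.InjOn (fun n : ℕ => (n : ZMod q)) (D' : Set ℕ) ∧
    D'.card = (D.image (fun n : ℕ => (n : ZMod q))).card := by
  classical
  set I := D.image (fun n : ℕ => (n : ZMod q)) with hI
  have hex : ∀ c ∈ I, ∃ s, s ∈ D ∧ (s : ZMod q) = c := by
    intro c hc
    obtain ⟨s, hs, rfl⟩ := mem_image.mp hc
    exact ⟨s, hs, rfl⟩
  choose! rep hrep1 hrep2 using hex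
  have hinjrep : Set.InjOn rep (I : Set (ZMod q)) := by
    intro a ha b hb hab
    rw [← hrep2 a ha, ← hrep2 b hb, hab]
  refine ⟨I.image rep, ?_, ?_, ?_⟩
  · intro s hs
    obtain ⟨c, hc, rfl⟩ := mem_image.mp hs
    exact hrep1 c hc
  · intro a ha b hb hab
    obtain ⟨c, hc, rfl⟩ := mem_image.mp (Finset.mem_coe.mp ha)
    obtain ⟨c', hc', rfl⟩ := mem_image.mp (Finset.mem_coe.mp hb)
    simp only at hab
    rw [hrep2 c hc, hrep2 c' hc'] at hab
    rw [hab]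
  · exact Finset.card_image_of_injOn hinjrep

/-- One step of the construction. -/
lemma digit_step {S D' : Finset ℕ} {W K B ℓ b q : ℕ} (hq : q.Prime) (hqb : q ≤ 2 ^ b)
    (hqW : ¬ q ∣ W)
    (hS : ∀ s ∈ S, (1 ≤ s ∧ s ≤ 2 ^ B) ∧ Rep W K s)
    (hD : ∀ e ∈ D', 0 < e ∧ e ≤ 2 ^ ℓ ∧ e ∣ W) (hℓB : ℓ ≤ B)
    (hinj : Set.InjOn (fun n : ℕ => (n : ZMod q)) (D' : Set ℕ)) :
    ∃ S' : Finset ℕ, S'.card = D'.card * S.card ∧
      ∀ x ∈ S', (1 ≤ x ∧ x ≤ 2 ^ (B + b + 1)) ∧ Rep (q * W) (1 + K) x := by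
  classical
  set f : ℕ × ℕ → ℕ := fun p => p.1 + q * p.2 with hf
  have hfinj : Set.InjOn f ((D' ×ˢ S : Finset (ℕ × ℕ)) : Set (ℕ × ℕ)) := by
    rintro ⟨e, s⟩ h1 ⟨e', s'⟩ h2 h
    rw [Finset.mem_coe, mem_product] at h1 h2
    simp only [hf] at h
    have h3 : ((e : ℕ) : ZMod q) = ((e' : ℕ) : ZMod q) := by
      have := congrArg (fun n : ℕ => (n : ZMod q)) h
      simpa using this
    have h4 : e = e' := hinj (Finset.mem_coe.mpr h1.1) (Finset.mem_coe.mpr h2.1) h3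
    subst h4
    have h5 : q * s = q * s' := Nat.add_left_cancel h
    rw [Nat.eq_of_mul_eq_mul_left hq.pos h5]
  refine ⟨(D' ×ˢ S).image f, ?_, ?_⟩
  · rw [Finset.card_image_of_injOn hfinj, card_product]
  · intro x hx
    obtain ⟨⟨e, s⟩, hp, rfl⟩ := mem_image.mp hx
    obtain ⟨he, hs⟩ := mem_product.mp hp
    have he' := hD e he
    have hs' := hS s hs
    simp only [hf]
    refine ⟨⟨?_, ?_⟩, ?_⟩
    · have := he'.1
      omega
    · have h1 : e ≤ 2 ^ B := he'.2.1.trans (Nat.pow_le_pow_right (by norm_num) hℓB)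
      have h2 : q * s ≤ 2 ^ b * 2 ^ B := Nat.mul_le_mul hqb hs'.1.2
      have h3 : 1 ≤ 2 ^ b := Nat.one_le_two_pow
      have h4 : 2 ^ B ≤ 2 ^ b * 2 ^ B := Nat.le_mul_of_pos_left _ (by omega)
      have e1 : 2 ^ (B + b + 1) = 2 * (2 ^ b * 2 ^ B) := by
        rw [pow_succ, pow_add]; ring
      omega
    · have h1 : Rep W 1 e :=
        ⟨{e}, by simpa using he'.2.2, by simp, by simp⟩
      exact Rep.add_mul h1 hs'.2 hqW hq.pos

/-- The iteration. -/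
lemma digit_iter {P ℓ b g R : ℕ} {D 𝒬 : Finset ℕ} (hℓ : 1 ≤ ℓ)
    (h𝒬 : ∀ q ∈ 𝒬, q.Prime ∧ q ≤ 2 ^ b ∧ ¬ q ∣ P)
    (hD : ∀ e ∈ D, 0 < e ∧ e ≤ 2 ^ ℓ ∧ e ∣ P)
    (hDne : D.Nonempty)
    (hbig : 𝒬.card ≤ D.card * ℓ)
    (hsize : 2 * ℓ * 2 ^ g + R ≤ 𝒬.card) :
    ∀ r, r ≤ R → ∃ U S : Finset ℕ, U ⊆ 𝒬 ∧ U.card = r ∧
      (∀ s ∈ S, (1 ≤ s ∧ s ≤ 2 ^ (ℓ + r * (b + 1))) ∧ Rep (P * ∏ q ∈ U, q) (r + 1) s) ∧
      2 ^ (r * g) ≤ S.card := by
  classical
  intro r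
  induction r with
  | zero =>
    intro _
    refine ⟨∅, {1}, by simp, by simp, ?_, by simp⟩
    intro s hs
    rw [mem_singleton] at hs
    subst hs
    refine ⟨⟨le_rfl, ?_⟩, ?_⟩
    · simpa using Nat.one_le_two_pow
    · exact Rep.one _
  | succ r ih =>
    intro hr
    obtain ⟨U, S, hU, hUc, hS, hSc⟩ := ih (by omega)
    set 𝒬' := 𝒬 \ U with h𝒬'
    have hc' : 𝒬.card ≤ 𝒬'.card + U.card := by
      have := Finset.card_le_card_sdiff_add_card (s := 𝒬) (t := U)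
      exact this
    have hc'' : 𝒬'.card ≤ 𝒬.card := card_le_card sdiff_subset
    have hg1 : 1 ≤ 2 * ℓ * 2 ^ g := by
      have : 1 ≤ 2 ^ g := Nat.one_le_two_pow
      nlinarith
    have hne : 𝒬'.Nonempty := by
      rw [← Finset.card_pos]
      omega
    obtain ⟨q, hq, hcov⟩ := Vale.Agent.P012.exists_large_image D 𝒬' ℓ
      (fun q hq => (h𝒬 q (sdiff_subset hq)).1)
      (fun n hn => ⟨(hD n hn).1, (hD n hn).2.1⟩) hne
    obtain ⟨hq𝒬, hqU⟩ := mem_sdiff.mp hq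
    obtain ⟨hqp, hqb, hqP⟩ := h𝒬 q hq𝒬
    set im := (D.image (fun n : ℕ => (n : ZMod q))).card with him
    have hDpos : 0 < D.card := hDne.card_pos
    have hlarge : 2 ^ g ≤ im := by
      have h1 : D.card * 𝒬'.card ≤ D.card * (im * (2 * ℓ)) := by
        calc D.card * 𝒬'.card ≤ im * (𝒬'.card + D.card * ℓ) := by
              simpa [mul_comm] using hcov
          _ ≤ im * (D.card * ℓ + D.card * ℓ) := by
              apply Nat.mul_le_mul_left
              omega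
          _ = D.card * (im * (2 * ℓ)) := by ring
      have h2 : 𝒬'.card ≤ im * (2 * ℓ) := Nat.le_of_mul_le_mul_left h1 hDpos
      have h3 : 2 * ℓ * 2 ^ g ≤ 2 * ℓ * im := by
        calc 2 * ℓ * 2 ^ g ≤ 𝒬'.card := by omega
          _ ≤ im * (2 * ℓ) := h2
          _ = 2 * ℓ * im := by ring
      exact Nat.le_of_mul_le_mul_left h3 (by omega)
    obtain ⟨D', hD'sub, hD'inj, hD'c⟩ := exists_reps D q
    set W := P * ∏ q ∈ U, q with hW
    have hqW : ¬ q ∣ W := by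
      intro hd
      rcases (Nat.Prime.dvd_mul hqp).mp hd with h1 | h1
      · exact hqP h1
      · obtain ⟨q', hq', hqq'⟩ := (hqp.prime.dvd_finsetProd_iff _).mp h1
        have := (Nat.prime_dvd_prime_iff_eq hqp (h𝒬 q' (hU hq')).1).mp hqq'
        exact hqU (this ▸ hq')
    obtain ⟨S', hS'c, hS'⟩ := digit_step (S := S) (D' := D') (W := W) (K := r + 1)
      (B := ℓ + r * (b + 1)) (ℓ := ℓ) (b := b) hqp hqb hqW hS
      (fun e he => ⟨(hD e (hD'sub he)).1, (hD e (hD'sub he)).2.1,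
        (hD e (hD'sub he)).2.2.trans (Nat.dvd_mul_right _ _)⟩) (by omega) hD'inj
    refine ⟨insert q U, S', ?_, ?_, ?_, ?_⟩
    · intro x hx
      rcases mem_insert.mp hx with rfl | hx
      · exact hq𝒬
      · exact hU hx
    · rw [Finset.card_insert_of_notMem hqU, hUc]
    · intro s hs
      obtain ⟨h1, h2⟩ := hS' s hs
      refine ⟨⟨h1.1, ?_⟩, ?_⟩
      · have e : ℓ + (r + 1) * (b + 1) = ℓ + r * (b + 1) + b + 1 := by ring
        rw [e]; exact h1.2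
      · rw [Finset.prod_insert hqU]
        have e : P * (q * ∏ q ∈ U, q) = q * W := by rw [hW]; ring
        rw [e]
        have e2 : r + 1 + 1 = 1 + (r + 1) := by ring
        rw [e2]
        exact h2
    · rw [hS'c, hD'c]
      have e : 2 ^ ((r + 1) * g) = 2 ^ g * 2 ^ (r * g) := by
        rw [← pow_add]; congr 1; ring
      rw [e]
      exact Nat.mul_le_mul hlarge hSc

/-- Numerics of the construction. -/
lemma digit_numeric (D a y c h Rm T : ℕ) (hD : 1 ≤ D) (ha : 6 ≤ a) (hy : y = 2 * a + 6)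
    (hc : c = a + 2) (hG : y ≤ h)
    (hA : h * (64 * D * y) ≤ T) (hB : T < (h + 1) * (64 * D * y))
    (hC : 100 * D * (64 * D) * y ^ 2 ≤ T) (hE : 8 * h * Rm ≤ 7 * T) (hF : 7 * T < 8 * h * (Rm + 1)) :
    (Rm + 1 ≤ 2 * (64 * D * y)) ∧ 2 * h * y + (Rm + 1) * (h + c) ≤ T ∧
      y * h + (Rm + 1) * (h + c + 1) ≤ 2 * T ∧ D * (y * h + (Rm + 1) * y) ≤ T ∧
      D * (y + 1) ≤ T ∧ D * (h + c + 1) ≤ T ∧ Rm + 1 + 2 ≤ 2 * T := by
  have hy6 : 6 ≤ y := by omega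
  have hcy : c + 1 ≤ y := by omega
  have hh6 : 6 ≤ h := by omega
  -- `h y` is small
  have hX : 64 * D * (h * y) ≤ T := by
    calc 64 * D * (h * y) = h * (64 * D * y) := by ring
      _ ≤ T := hA
  have hX1 : 64 * (h * y) ≤ T := by
    calc 64 * (h * y) = 64 * 1 * (h * y) := by ring
      _ ≤ 64 * D * (h * y) := by
          apply Nat.mul_le_mul_right
          omega
      _ ≤ T := hX
  have hhy : 6 * h ≤ h * y := by
    calc 6 * h = h * 6 := by ring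
      _ ≤ h * y := Nat.mul_le_mul_left _ hy6
  -- `R`
  have hR : Rm + 1 ≤ 2 * (64 * D * y) := by
    set N := 64 * D * y with hN
    have h1 : 7 * T < 7 * ((h + 1) * N) := by omega
    have h2 : (h + 1) * N ≤ 2 * h * N := by
      apply Nat.mul_le_mul_right
      omega
    have h3 : 8 * h * Rm < 8 * h * (2 * N) := by
      calc 8 * h * Rm ≤ 7 * T := hE
        _ < 7 * ((h + 1) * N) := h1
        _ ≤ 7 * (2 * h * N) := Nat.mul_le_mul_left _ h2
        _ ≤ 8 * h * (2 * N) := by nlinarith [Nat.zero_le (h * N)]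
    have h4 : Rm < 2 * N := Nat.lt_of_mul_lt_mul_left h3
    omega
  -- `y²` terms
  have hY : 100 * D * (64 * D) * (y * y) ≤ T := by
    calc 100 * D * (64 * D) * (y * y) = 100 * D * (64 * D) * y ^ 2 := by ring
      _ ≤ T := hC
  have hDD : 1 ≤ D * D := Nat.mul_pos hD hD
  have hY0 : 6400 * (y * y) ≤ T := by
    calc 6400 * (y * y) = 6400 * 1 * (y * y) := by ring
      _ ≤ 6400 * (D * D) * (y * y) := by
          apply Nat.mul_le_mul_right
          exact Nat.mul_le_mul_left _ hDD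
      _ = 100 * D * (64 * D) * (y * y) := by ring
      _ ≤ T := hY
  obtain ⟨Z, hZdef⟩ : ∃ Z, Z = (64 * D * y) * y := ⟨_, rfl⟩
  have hY1 : 100 * Z ≤ T := by
    rw [hZdef]
    calc 100 * ((64 * D * y) * y) = 100 * (64 * D) * 1 * (y * y) := by ring
      _ ≤ 100 * (64 * D) * D * (y * y) := by
          apply Nat.mul_le_mul_right
          exact Nat.mul_le_mul_left _ hD
      _ = 100 * D * (64 * D) * (y * y) := by ring
      _ ≤ T := hY
  have hRy : (Rm + 1) * y ≤ 2 * Z := by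
    rw [hZdef]
    calc (Rm + 1) * y ≤ 2 * (64 * D * y) * y := Nat.mul_le_mul_right _ hR
      _ = 2 * ((64 * D * y) * y) := by ring
  have hRc : (Rm + 1) * (c + 1) ≤ (Rm + 1) * y := Nat.mul_le_mul_left _ hcy
  have hRh : 8 * ((Rm + 1) * h) ≤ 7 * T + 8 * h := by
    calc 8 * ((Rm + 1) * h) = 8 * h * Rm + 8 * h := by ring
      _ ≤ 7 * T + 8 * h := by omega
  have e1 : (Rm + 1) * (h + c) + (Rm + 1) = (Rm + 1) * h + (Rm + 1) * (c + 1) := by ring
  have hmain : 2 * h * y + (Rm + 1) * (h + c) ≤ T := by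
    have e0 : 2 * h * y = 2 * (h * y) := by ring
    rw [e0]
    omega
  refine ⟨hR, hmain, ?_, ?_, ?_, ?_, ?_⟩
  · have e2 : (Rm + 1) * (h + c + 1) = (Rm + 1) * h + (Rm + 1) * (c + 1) := by ring
    have e3 : y * h = h * y := by ring
    rw [e2, e3]
    omega
  · have e2 : D * (y * h + (Rm + 1) * y) = D * (h * y) + D * ((Rm + 1) * y) := by ring
    rw [e2]
    have h5 : D * ((Rm + 1) * y) ≤ D * (2 * Z) := Nat.mul_le_mul_left _ hRy
    have h6 : D * (2 * Z) = 2 * (D * (64 * D) * (y * y)) := by rw [hZdef]; ring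
    have h7 : 100 * D * (64 * D) * (y * y) = 100 * (D * (64 * D) * (y * y)) := by ring
    have h8 : 64 * D * (h * y) = 64 * (D * (h * y)) := by ring
    omega
  · have h5 : y + 1 ≤ y * y := by nlinarith
    have h6 : D * (y + 1) ≤ D * (y * y) := Nat.mul_le_mul_left _ h5
    have h7 : D * (y * y) ≤ 100 * D * (64 * D) * (y * y) := by
      apply Nat.mul_le_mul_right
      nlinarith
    omega
  · have e2 : D * (h + c + 1) = D * h + D * (c + 1) := by ring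
    rw [e2]
    have h5 : D * h ≤ D * (h * y) := by
      apply Nat.mul_le_mul_left
      nlinarith
    have h8 : 64 * D * (h * y) = 64 * (D * (h * y)) := by ring
    have h6 : D * (c + 1) ≤ D * (y * y) := by
      apply Nat.mul_le_mul_left
      nlinarith
    have h7 : 100 * (D * (y * y)) ≤ 100 * D * (64 * D) * (y * y) := by
      calc 100 * (D * (y * y)) = 100 * D * 1 * (y * y) := by ring
        _ ≤ 100 * D * (64 * D) * (y * y) := by
            apply Nat.mul_le_mul_right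
            apply Nat.mul_le_mul_left
            omega
    omega
  · have h5 : 6 * 6 ≤ y * y := Nat.mul_le_mul hy6 hy6
    have h6 : (Rm + 1) * 1 ≤ (Rm + 1) * y := Nat.mul_le_mul_left _ (by omega)
    omega

/-- A small tail estimate. -/
lemma cube_le_two_pow (a : ℕ) (ha : 10 ≤ a) : a ^ 3 ≤ 2 ^ a := by
  induction a, ha using Nat.le_induction with
  | base => norm_num
  | succ n hn ih =>
    rw [pow_succ 2 n]
    have : (n + 1) ^ 3 ≤ 2 * n ^ 3 := by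
      nlinarith [sq_nonneg n, mul_le_mul hn hn (by omega) (by omega)]
    omega

lemma exists_threshold (K : ℕ) : ∃ a₀, 10 ≤ a₀ ∧ ∀ a, a₀ ≤ a → K * (2 * a + 6) ^ 2 ≤ 2 ^ a := by
  refine ⟨10 + 9 * K, by omega, ?_⟩
  intro a ha
  have h1 : 2 * a + 6 ≤ 3 * a := by omega
  have h2 : (2 * a + 6) ^ 2 ≤ 9 * (a * a) := by
    calc (2 * a + 6) ^ 2 ≤ (3 * a) ^ 2 := Nat.pow_le_pow_left h1 2
      _ = 9 * (a * a) := by ring
  have h3 : 9 * K ≤ a := by omega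
  calc K * (2 * a + 6) ^ 2 ≤ K * (9 * (a * a)) := Nat.mul_le_mul_left _ h2
    _ = (9 * K) * (a * a) := by ring
    _ ≤ a * (a * a) := Nat.mul_le_mul_right _ h3
    _ = a ^ 3 := by ring
    _ ≤ 2 ^ a := cube_le_two_pow a (by omega)

lemma pool_exists (T a h : ℕ) (Forb : Finset ℕ) (hForbC : Forb.card ≤ 2 * T)
    (hTa : T < 2 ^ (a + 1)) (hhT : h ≤ T) (ha : 1 ≤ a) :
    ∃ pool : Finset ℕ, pool.card = 2 * h ∧ ∀ p ∈ pool, p.Prime ∧ p ≤ 2 ^ (2 * a + 6) ∧ p ∉ Forb := by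
  classical
  by_cases hI : 4 ≤ a + 3
  · obtain ⟨pool₀, hp0c, hp0⟩ := Vale.Agent.P012.exists_pool (a + 3) hI
    have hpow3 : 2 ^ (a + 3) = 4 * 2 ^ (a + 1) := by
      rw [show a + 3 = (a + 1) + 2 by omega, pow_add]; ring
    have hsub : 2 * h ≤ (pool₀ \ Forb).card := by
      have h1 := Finset.card_le_card_sdiff_add_card (s := pool₀) (t := Forb)
      omega
    obtain ⟨pool, hpsub, hpc⟩ := Finset.exists_subset_card_eq hsub
    refine ⟨pool, hpc, fun p hp => ?_⟩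
    obtain ⟨h1, h2⟩ := mem_sdiff.mp (hpsub hp)
    obtain ⟨h3, _, h5⟩ := hp0 p h1
    have e : 2 * a + 6 = 2 * (a + 3) := by ring
    rw [e]
    exact ⟨h3, h5, h2⟩
  · omega

lemma family_exists (T a h : ℕ) (Forb : Finset ℕ) (hForbC : Forb.card ≤ 2 * T)
    (hTa : T < 2 ^ (a + 1)) (hhc : h + (a + 2) ≤ T) :
    ∃ 𝒬 : Finset ℕ, (∀ q ∈ 𝒬, q.Prime ∧ 2 ^ h < q ∧ q ≤ 2 ^ (h + (a + 2)) ∧ q ∉ Forb) ∧
      2 ^ h ≤ 𝒬.card + 2 + 2 * T := by
  classical
  have hpowc : 2 ^ (a + 2) = 2 * 2 ^ (a + 1) := by rw [pow_succ 2 (a + 1)]; ring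
  obtain ⟨𝒬₀, h𝒬₀, h𝒬₀c⟩ := prime_family h (a + 2) (by omega) (by omega)
  refine ⟨𝒬₀ \ Forb, ?_, ?_⟩
  · intro q hq
    obtain ⟨h1, h2⟩ := mem_sdiff.mp hq
    obtain ⟨h3, h4, h5⟩ := h𝒬₀ q h1
    exact ⟨h3, h4, h5, h2⟩
  · have h1 := Finset.card_le_card_sdiff_add_card (s := 𝒬₀) (t := Forb)
    omega

/-- The construction with all parameters fixed, conclusions not yet assembled. -/
lemma digit_built (T a y h R : ℕ) (Forb pool 𝒬 : Finset ℕ)
    (hTa : T < 2 ^ (a + 1)) (hy : y = 2 * a + 6) (hyh : y ≤ h)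
    (hR2T : R + 2 ≤ 2 * T) (hyhT : y * h ≤ T)
    (hpc : pool.card = 2 * h) (hpool : ∀ p ∈ pool, p.Prime ∧ p ≤ 2 ^ y ∧ p ∉ Forb)
    (h𝒬 : ∀ q ∈ 𝒬, q.Prime ∧ 2 ^ h < q ∧ q ≤ 2 ^ (h + (a + 2)) ∧ q ∉ Forb)
    (h𝒬c : 2 ^ h ≤ 𝒬.card + 2 + 2 * T) :
    ∃ U S : Finset ℕ, U ⊆ 𝒬 ∧ U.card = R ∧
      (∀ s ∈ S, (1 ≤ s ∧ s ≤ 2 ^ (y * h + R * (h + (a + 2) + 1))) ∧
        Rep ((∏ p ∈ pool, p) * ∏ q ∈ U, q) (R + 1) s) ∧
      2 ^ (R * (h - a - 3)) ≤ S.card := by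
  classical
  set P := ∏ p ∈ pool, p with hP
  set Dg := Vale.Agent.P012.prodSet pool h with hDg
  have hDgcard : Dg.card = Nat.centralBinom h := by
    rw [hDg, Vale.Agent.P012.prodSet_card pool (fun p hp => (hpool p hp).1), hpc,
      Nat.centralBinom_eq_two_mul_choose]
  have hDgprops : ∀ e ∈ Dg, 0 < e ∧ e ≤ 2 ^ (y * h) ∧ e ∣ P := by
    intro e he
    obtain ⟨h1, h2, h3, _⟩ := Vale.Agent.P012.prodSet_props pool (fun p hp => (hpool p hp).1) h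
      (2 ^ y) (fun p hp => (hpool p hp).2.1) he
    refine ⟨h1, ?_, h2⟩
    rw [pow_mul]
    exact h3
  have hh4 : 4 ≤ h := by omega
  have hcb : 4 ^ h < h * Nat.centralBinom h := Nat.four_pow_lt_mul_centralBinom h hh4
  have hDgne : Dg.Nonempty := by
    rw [← Finset.card_pos, hDgcard]
    exact Nat.centralBinom_pos h
  have h𝒬props : ∀ q ∈ 𝒬, q.Prime ∧ q ≤ 2 ^ (h + (a + 2)) ∧ ¬ q ∣ P := by
    intro q hq
    obtain ⟨h2, h3, h4, _⟩ := h𝒬 q hq
    refine ⟨h2, h4, ?_⟩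
    intro hd
    obtain ⟨p, hp, hqp⟩ := (h2.prime.dvd_finsetProd_iff _).mp hd
    have e := (Nat.prime_dvd_prime_iff_eq h2 (hpool p hp).1).mp hqp
    subst e
    have h5 := (hpool q hp).2.1
    have h6 : 2 ^ y ≤ 2 ^ h := Nat.pow_le_pow_right (by norm_num) hyh
    omega
  have h𝒬up : 𝒬.card ≤ 2 ^ (h + (a + 2)) := by
    have h1 : 𝒬 ⊆ Ioc 0 (2 ^ (h + (a + 2))) := by
      intro q hq
      have h2 := h𝒬props q hq
      exact mem_Ioc.mpr ⟨h2.1.pos, h2.2.1⟩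
    simpa using card_le_card h1
  have hbig : 𝒬.card ≤ Dg.card * (y * h) := by
    refine h𝒬up.trans ?_
    have h1 : 2 ^ (h + (a + 2)) ≤ 4 ^ h := by
      have e : (4 : ℕ) ^ h = 2 ^ (h + h) := by
        rw [show (4 : ℕ) = 2 ^ 2 by norm_num, ← pow_mul, two_mul]
      rw [e]
      apply Nat.pow_le_pow_right (by norm_num)
      omega
    have h2 : h * Nat.centralBinom h ≤ Dg.card * (y * h) := by
      rw [hDgcard, mul_comm h]
      apply Nat.mul_le_mul_left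
      exact Nat.le_mul_of_pos_left _ (by omega)
    omega
  set g := h - a - 3 with hg
  have hhg : h = g + a + 3 := by omega
  have hsize : 2 * (y * h) * 2 ^ g + R ≤ 𝒬.card := by
    have h1 : 2 * (y * h) * 2 ^ g ≤ 2 * 2 ^ (a + 1) * 2 ^ g := by
      apply Nat.mul_le_mul_right
      omega
    have h2 : 2 ^ h = 2 * (2 * 2 ^ (a + 1) * 2 ^ g) := by
      rw [hhg, pow_add, pow_add, pow_add]
      ring
    have h3 : 2 * 2 ^ (a + 1) ≤ 2 * 2 ^ (a + 1) * 2 ^ g := Nat.le_mul_of_pos_right _ (by positivity)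
    have hg1 : 1 ≤ g := by omega
    have h4 : 2 * 2 * 2 ^ (a + 1) ≤ 2 * 2 ^ (a + 1) * 2 ^ g := by
      calc 2 * 2 * 2 ^ (a + 1) = 2 * 2 ^ (a + 1) * 2 ^ 1 := by ring
        _ ≤ 2 * 2 ^ (a + 1) * 2 ^ g := Nat.mul_le_mul_left _
            (Nat.pow_le_pow_right (by norm_num) hg1)
    omega
  have hyhpos : 1 ≤ y * h := Nat.mul_pos (by omega) (by omega)
  obtain ⟨U, S, hU, hUc, hS, hSc⟩ := digit_iter (P := P) (ℓ := y * h) (b := h + (a + 2)) (g := g)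
    (R := R) (D := Dg) (𝒬 := 𝒬) hyhpos h𝒬props hDgprops hDgne hbig hsize R le_rfl
  exact ⟨U, S, hU, hUc, hS, hSc⟩

/-- Assembly with all numerics as hypotheses. -/
lemma digit_core (T D a y h R : ℕ) (hD : 1 ≤ D) (Forb : Finset ℕ)
    (hForbP : ∀ p ∈ Forb, p.Prime) (hForbC : Forb.card ≤ 2 * T)
    (hTa : T < 2 ^ (a + 1)) (hy : y = 2 * a + 6) (hyh : y ≤ h) (ha1 : 1 ≤ a)
    (hWexp : 2 * h * y + R * (h + (a + 2)) ≤ T)
    (hLexp : y * h + R * (h + (a + 2) + 1) ≤ 2 * T)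
    (hdef : D * (y * h + R * y) ≤ T) (hyD : D * (y + 1) ≤ T) (hhD : D * (h + (a + 2) + 1) ≤ T)
    (hR2T : R + 2 ≤ 2 * T) (hRh : 7 * T < 8 * (R * h)) (hyhT : y * h ≤ T) :
    ∃ (W₀ L : ℕ) (S : Finset ℕ),
      (∀ p ∈ Forb, ¬ p ∣ W₀) ∧
      (∀ p : ℕ, p.Prime → p ∣ W₀ → p < 2 ^ (T / D)) ∧
      2 ^ (3 * T / 4) ≤ W₀ ∧ W₀ ≤ 2 ^ T ∧
      7 * T ≤ 8 * L ∧ L ≤ 2 * T ∧
      (∀ s ∈ S, 1 ≤ s ∧ s ≤ 2 ^ L) ∧
      2 ^ L ≤ S.card * 2 ^ (T / D) ∧
      (∀ s ∈ S, Rep W₀ (R + 1) s) := by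
  classical
  have hDpos : 0 < D := hD
  have hhT : h ≤ T := by
    have h1 : 1 * (h + (a + 2) + 1) ≤ D * (h + (a + 2) + 1) := Nat.mul_le_mul_right _ hD
    omega
  have hhc : h + (a + 2) ≤ T := by
    have h1 : 1 * (h + (a + 2) + 1) ≤ D * (h + (a + 2) + 1) := Nat.mul_le_mul_right _ hD
    omega
  obtain ⟨pool, hpc, hpool'⟩ := pool_exists T a h Forb hForbC hTa hhT ha1
  have hpool : ∀ p ∈ pool, p.Prime ∧ p ≤ 2 ^ y ∧ p ∉ Forb := by
    rw [hy]; exact hpool'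
  obtain ⟨𝒬, h𝒬, h𝒬c⟩ := family_exists T a h Forb hForbC hTa hhc
  obtain ⟨U, S, hU, hUc, hS, hSc⟩ := digit_built T a y h R Forb pool 𝒬 hTa hy hyh hR2T hyhT hpc hpool
    h𝒬 h𝒬c
  set P := ∏ p ∈ pool, p with hP
  have hPpos : 0 < P := Finset.prod_pos fun p hp => (hpool p hp).1.pos
  have hW : ∀ p : ℕ, p.Prime → p ∣ P * ∏ q ∈ U, q → p ∈ pool ∨ p ∈ U := by
    intro p hp hd
    rcases (Nat.Prime.dvd_mul hp).mp hd with h1 | h1
    · left
      obtain ⟨p', hp', hpp'⟩ := (hp.prime.dvd_finsetProd_iff _).mp h1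
      have := (Nat.prime_dvd_prime_iff_eq hp (hpool p' hp').1).mp hpp'
      exact this ▸ hp'
    · right
      obtain ⟨p', hp', hpp'⟩ := (hp.prime.dvd_finsetProd_iff _).mp h1
      have := (Nat.prime_dvd_prime_iff_eq hp (h𝒬 p' (hU hp')).1).mp hpp'
      exact this ▸ hp'
  have hTD1 : y < T / D := by
    apply (Nat.le_div_iff_mul_le hDpos).mpr
    calc (y + 1) * D = D * (y + 1) := by ring
      _ ≤ T := hyD
  have hTD2 : h + (a + 2) < T / D := by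
    apply (Nat.le_div_iff_mul_le hDpos).mpr
    calc (h + (a + 2) + 1) * D = D * (h + (a + 2) + 1) := by ring
      _ ≤ T := hhD
  have hTD3 : y * h + R * y ≤ T / D := by
    apply (Nat.le_div_iff_mul_le hDpos).mpr
    calc (y * h + R * y) * D = D * (y * h + R * y) := by ring
      _ ≤ T := hdef
  have hUprod_up : ∏ q ∈ U, q ≤ 2 ^ (R * (h + (a + 2))) := by
    calc ∏ q ∈ U, q ≤ (2 ^ (h + (a + 2))) ^ U.card :=
          Finset.prod_le_pow_card _ _ _ fun q hq => (h𝒬 q (hU hq)).2.2.1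
      _ = 2 ^ (R * (h + (a + 2))) := by rw [hUc, ← pow_mul, mul_comm]
  have hUprod_low : 2 ^ (R * h) ≤ ∏ q ∈ U, q := by
    calc 2 ^ (R * h) = (2 ^ h) ^ U.card := by rw [hUc, ← pow_mul, mul_comm]
      _ ≤ ∏ q ∈ U, q := Finset.pow_card_le_prod _ _ _ fun q hq => (h𝒬 q (hU hq)).2.1.le
  have hPup : P ≤ 2 ^ (2 * h * y) := by
    calc P ≤ (2 ^ y) ^ pool.card := Finset.prod_le_pow_card _ _ _ fun p hp => (hpool p hp).2.1
      _ = 2 ^ (2 * h * y) := by rw [hpc, ← pow_mul, mul_comm]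
  set L := y * h + R * (h + (a + 2) + 1) with hL
  have hLge : R * h ≤ L := by
    have e : L = y * h + R * h + R * ((a + 2) + 1) := by rw [hL]; ring
    omega
  refine ⟨P * ∏ q ∈ U, q, L, S, ?_, ?_, ?_, ?_, by omega, hLexp, fun s hs => (hS s hs).1, ?_,
    fun s hs => (hS s hs).2⟩
  · intro p hp hd
    rcases hW p (hForbP p hp) hd with h1 | h1
    · exact (hpool p h1).2.2 hp
    · exact (h𝒬 p (hU h1)).2.2.2 hp
  · intro p hp hd
    rcases hW p hp hd with h1 | h1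
    · calc p ≤ 2 ^ y := (hpool p h1).2.1
        _ < 2 ^ (T / D) := Nat.pow_lt_pow_right (by norm_num) hTD1
    · calc p ≤ 2 ^ (h + (a + 2)) := (h𝒬 p (hU h1)).2.2.1
        _ < 2 ^ (T / D) := Nat.pow_lt_pow_right (by norm_num) hTD2
  · have h1 : 3 * T / 4 ≤ R * h := by
      apply Nat.div_le_of_le_mul
      omega
    calc 2 ^ (3 * T / 4) ≤ 2 ^ (R * h) := Nat.pow_le_pow_right (by norm_num) h1
      _ ≤ ∏ q ∈ U, q := hUprod_low
      _ ≤ P * ∏ q ∈ U, q := Nat.le_mul_of_pos_left _ hPpos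
  · calc P * ∏ q ∈ U, q ≤ 2 ^ (2 * h * y) * 2 ^ (R * (h + (a + 2))) := Nat.mul_le_mul hPup hUprod_up
      _ = 2 ^ (2 * h * y + R * (h + (a + 2))) := by rw [pow_add]
      _ ≤ 2 ^ T := Nat.pow_le_pow_right (by norm_num) hWexp
  · -- density
    have h1 : 2 ^ L ≤ 2 ^ (R * (h - a - 3)) * 2 ^ (T / D) := by
      rw [← pow_add]
      apply Nat.pow_le_pow_right (by norm_num)
      have e : L = y * h + R * y + R * (h - a - 3) := by
        have e1 : h + (a + 2) + 1 = y + (h - a - 3) := by omega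
        rw [hL, e1]; ring
      omega
    exact h1.trans (Nat.mul_le_mul_right _ hSc)

/-- **Digit sets** (Lemma 5 of the blueprint). -/
theorem digit_sets (D : ℕ) (hD : 1 ≤ D) : ∃ Cd T₀ : ℕ, ∀ T, T₀ ≤ T → ∀ Forb : Finset ℕ,
    (∀ p ∈ Forb, p.Prime) → Forb.card ≤ 2 * T →
    ∃ (W₀ L : ℕ) (S : Finset ℕ),
      (∀ p ∈ Forb, ¬ p ∣ W₀) ∧
      (∀ p : ℕ, p.Prime → p ∣ W₀ → p < 2 ^ (T / D)) ∧
      2 ^ (3 * T / 4) ≤ W₀ ∧ W₀ ≤ 2 ^ T ∧
      7 * T ≤ 8 * L ∧ L ≤ 2 * T ∧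
      (∀ s ∈ S, 1 ≤ s ∧ s ≤ 2 ^ L) ∧
      2 ^ L ≤ S.card * 2 ^ (T / D) ∧
      (∀ s ∈ S, Rep W₀ (Cd * Nat.log 2 T) s) := by
  obtain ⟨a₀, ha₀, hthr⟩ := exists_threshold (100 * D * (64 * D))
  refine ⟨10 * (64 * D), 2 ^ a₀, ?_⟩
  intro T hT Forb hForbP hForbC
  have hT0 : T ≠ 0 := by
    have : 1 ≤ 2 ^ a₀ := Nat.one_le_two_pow
    omega
  obtain ⟨a, ha⟩ : ∃ a, a = Nat.log 2 T := ⟨_, rfl⟩
  have haa₀ : a₀ ≤ a := by
    rw [ha]; exact Nat.le_log_of_pow_le (by norm_num) hT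
  have h2a : 2 ^ a ≤ T := by
    rw [ha]; exact Nat.pow_log_le_self 2 hT0
  have hTa : T < 2 ^ (a + 1) := by
    rw [ha]; exact Nat.lt_pow_succ_log_self (by norm_num) T
  obtain ⟨y, hy⟩ : ∃ y, y = 2 * a + 6 := ⟨_, rfl⟩
  have hC : 100 * D * (64 * D) * y ^ 2 ≤ T := by
    rw [hy]; exact (hthr a haa₀).trans h2a
  have hypos : 0 < y := by omega
  obtain ⟨N, hN⟩ : ∃ N, N = 64 * D * y := ⟨_, rfl⟩
  have hNpos : 0 < N := by
    rw [hN]; positivity
  obtain ⟨h, hh⟩ : ∃ h, h = T / N := ⟨_, rfl⟩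
  have hA : h * N ≤ T := by
    rw [hh]; exact Nat.div_mul_le_self T N
  have hB : T < (h + 1) * N := by
    have h1 : N * h + T % N = T := by
      rw [hh]; exact Nat.div_add_mod T N
    have h2 := Nat.mod_lt T hNpos
    have h3 : (h + 1) * N = N * h + N := by ring
    rw [h3]
    omega
  have hyh : y ≤ h := by
    rw [hh]
    apply (Nat.le_div_iff_mul_le hNpos).mpr
    have h1 : y * N ≤ 100 * D * (64 * D) * y ^ 2 := by
      have e : y * N = 1 * (64 * D) * (y * y) := by rw [hN]; ring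
      rw [e]
      have e2 : 100 * D * (64 * D) * y ^ 2 = (100 * D) * (64 * D) * (y * y) := by ring
      rw [e2]
      apply Nat.mul_le_mul_right
      apply Nat.mul_le_mul_right
      omega
    exact h1.trans hC
  have hhpos : 0 < h := by omega
  have ha6 : 6 ≤ a := by omega
  obtain ⟨Rm, hRm⟩ : ∃ Rm, Rm = 7 * T / (8 * h) := ⟨_, rfl⟩
  have h8h : 0 < 8 * h := by omega
  have hE : 8 * h * Rm ≤ 7 * T := by
    rw [hRm, mul_comm]; exact Nat.div_mul_le_self _ _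
  have hF : 7 * T < 8 * h * (Rm + 1) := by
    have h1 : 8 * h * Rm + 7 * T % (8 * h) = 7 * T := by
      rw [hRm]; exact Nat.div_add_mod _ _
    have h2 := Nat.mod_lt (7 * T) h8h
    have h3 : 8 * h * (Rm + 1) = 8 * h * Rm + 8 * h := by ring
    rw [h3]
    omega
  rw [hN] at hA hB
  obtain ⟨hR2N, hWexp, hLexp, hdef, hyD, hhD, hR2T⟩ :=
    digit_numeric D a y (a + 2) h Rm T hD ha6 hy rfl hyh hA hB hC hE hF
  have hRh : 7 * T < 8 * ((Rm + 1) * h) := by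
    calc 7 * T < 8 * h * (Rm + 1) := hF
      _ = 8 * ((Rm + 1) * h) := by ring
  have hyhT : y * h ≤ T := by
    have h1 : y * h * 1 ≤ y * h * (64 * D) := Nat.mul_le_mul_left _ (by omega)
    have e : y * h * (64 * D) = h * (64 * D * y) := by ring
    omega
  obtain ⟨W₀, L, S, h1, h2, h3, h4, h5, h6, h7, h8, h9⟩ := digit_core T D a y h (Rm + 1) hD Forb hForbP
    hForbC hTa hy hyh (by omega) hWexp hLexp hdef hyD hhD hR2T hRh hyhT
  refine ⟨W₀, L, S, h1, h2, h3, h4, h5, h6, h7, h8, fun s hs => (h9 s hs).mono dvd_rfl ?_⟩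
  rw [← ha]
  have hy3 : y ≤ 3 * a := by omega
  have h10 : 64 * D * y ≤ 64 * D * (3 * a) := Nat.mul_le_mul_left _ hy3
  have h11 : 1 ≤ D * a := Nat.mul_pos hD (by omega)
  have e1 : 64 * D * (3 * a) = 192 * (D * a) := by ring
  have e2 : 10 * (64 * D) * a = 640 * (D * a) := by ring
  omega

end Vale.Agent.P012F

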