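import Vale.Agent.P012F.Defs

namespace Vale.Agent.P012F

open Finset

/-- `VV` is nonnegative (Cauchy-Schwarz over residue classes). -/
theorem VV_nonneg' (S : Finset ℕ) (n : ℕ) (hS : S.Nonempty) (hn : 1 ≤ n) : 0 ≤ VV S n := by
  classical
  have hcard : S.card = ∑ r ∈ range n, (S.filter (fun s => s % n = r)).card :=
    Finset.card_eq_sum_card_fiberwise (fun s hs => by
      simpa using Nat.mod_lt s (by omega))
  have hcoll : coll S n = ∑ r ∈ range n, (S.filter (fun s => s % n = r)).card ^ 2 := by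
    unfold coll
    rw [Finset.card_eq_sum_card_fiberwise (f := fun p : ℕ × ℕ => p.1 % n) (t := range n)
      (fun p hp => by simpa using Nat.mod_lt p.1 (by omega))]
    refine Finset.sum_congr rfl fun r _ => ?_
    rw [sq, ← Finset.card_product]
    congr 1
    ext ⟨a, b⟩
    simp only [mem_filter, mem_product]
    constructor
    · rintro ⟨⟨⟨ha, hb⟩, h⟩, h2⟩
      have h' : a % n = b % n := h
      exact ⟨⟨ha, h2⟩, ⟨hb, by omega⟩⟩
    · rintro ⟨⟨ha, h⟩, ⟨hb, h2⟩⟩
      refine ⟨⟨⟨ha, hb⟩, ?_⟩, h⟩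
      show a % n = b % n
      omega
  have hCS : ((S.card : ℝ)) ^ 2 ≤ (n : ℝ) * (coll S n : ℝ) := by
    rw [hcoll, hcard]
    push_cast
    have := sq_sum_le_card_mul_sum_sq (s := range n)
      (f := fun r => ((S.filter (fun s => s % n = r)).card : ℝ))
    simpa using this
  have hcpos : (0 : ℝ) < (S.card : ℝ) := by exact_mod_cast hS.card_pos
  unfold VV
  rw [sub_nonneg, le_div_iff₀ (by positivity)]
  linarith

/-- Injection by the quotient: a set of pairwise congruent numbers in `[1,J]` has at most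
`J / m + 1` elements. -/
lemma card_le_of_modEq (A : Finset ℕ) (J m : ℕ) (hA : ∀ j ∈ A, j ≤ J)
    (hcong : ∀ j ∈ A, ∀ j' ∈ A, j ≡ j' [MOD m]) : A.card ≤ J / m + 1 := by
  have : A.card ≤ (range (J / m + 1)).card := by
    refine Finset.card_le_card_of_injOn (fun j => j / m) ?_ ?_
    · intro j hj
      have := Nat.div_le_div_right (c := m) (hA j hj)
      simp only [coe_range, Set.mem_Iio]
      omega
    · intro j hj j' hj' h
      have h1 := hcong j hj j' hj'
      have h2 := Nat.div_add_mod j m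
      have h3 := Nat.div_add_mod j' m
      simp only at h
      rw [h] at h2
      unfold Nat.ModEq at h1
      omega
  simpa using this

/-- The final counting step. -/
lemma exists_good (R E : Finset ℕ) (V : ℕ → ℝ) (A : ℝ) (hV : ∀ j ∈ R, 0 ≤ V j)
    (hsum : ∑ j ∈ R, V j ≤ A) (hR : A + (E.card : ℝ) + 1 ≤ (R.card : ℝ)) :
    ∃ j ∈ R, j ∉ E ∧ V j < 1 := by
  classical
  by_contra hcon
  push Not at hcon
  have h1 : ((R \ E).card : ℝ) ≤ ∑ j ∈ R \ E, V j := by
    rw [Finset.card_eq_sum_ones]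
    push_cast
    refine Finset.sum_le_sum fun j hj => ?_
    have hj' := Finset.mem_sdiff.mp hj
    exact hcon j hj'.1 hj'.2
  have h2 : ∑ j ∈ R \ E, V j ≤ ∑ j ∈ R, V j :=
    Finset.sum_le_sum_of_subset_of_nonneg Finset.sdiff_subset (fun j hj _ => hV j hj)
  have h3 : (R.card : ℝ) ≤ ((R \ E).card : ℝ) + (E.card : ℝ) := by
    have := Finset.card_le_card_sdiff_add_card (s := R) (t := E)
    exact_mod_cast this
  linarith

lemma one_le_log2 (z : ℕ) (hz : 2 ≤ z) : 1 ≤ Nat.log 2 z := Nat.log_pos (by norm_num) hz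

/-- A lower bound for a set follows from the sieve inequality. -/
lemma real_bound_of_sieve (J L c : ℕ) (hL : 1 ≤ L) (Cs : ℕ) (a : ℝ)
    (hs : J ≤ L ^ Cs * c) (ha : a ≤ (J : ℝ) / ((L : ℝ) ^ Cs)) : a ≤ c := by
  have hL' : (0 : ℝ) < (L : ℝ) ^ Cs := by
    have : (0 : ℝ) < L := by exact_mod_cast hL
    positivity
  refine ha.trans ?_
  rw [div_le_iff₀ hL']
  have : (J : ℝ) ≤ ((L ^ Cs * c : ℕ) : ℝ) := by exact_mod_cast hs
  push_cast at this
  linarith

/-- T3, abstractly in the family bound and the sieve. -/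
theorem choose_m_core {C₂ : ℝ} {s₀ Cs z₀ : ℕ}
    (hfam : ∀ (S : Finset ℕ) (X N z J : ℕ) (n : ℕ → ℕ),
      S.Nonempty → (∀ s ∈ S, s ≤ X) → N ^ 2 ≤ X → 2 ≤ z → 1 ≤ J →
      (∀ j ∈ Icc 1 J, 1 ≤ n j ∧ n j ≤ N) →
      (∀ m, z ≤ m → ((Icc 1 J).filter (fun j => m ∣ n j)).card ≤ J / m + 1) →
      ∑ j ∈ (Icc 1 J).filter (fun j => Rough z (n j)), VV S (n j)
        ≤ C₂ * ((X : ℝ) / (S.card : ℝ)) * ((J : ℝ) / (z : ℝ) + (Nat.log 2 N : ℝ) + 1))
    (hsieve : ∀ z, z₀ ≤ z → ∀ J, z ^ s₀ ≤ J → ∀ C : ℕ → Finset ℕ,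
      (∀ p : ℕ, p.Prime → p ≤ z → C p ⊆ range p ∧ (C p).card ≤ min 2 (p - 1)) →
      J ≤ (Nat.log 2 z) ^ Cs *
        ((Icc 1 J).filter (fun j => ∀ p ∈ (range (z + 1)).filter Nat.Prime, j % p ∉ C p)).card)
    {S : Finset ℕ} {X z J g₀ v₀ N ω : ℕ} (hS : S.Nonempty) (hSX : ∀ s ∈ S, s ≤ X)
    (hNX : N ^ 2 ≤ X) (hz : z₀ ≤ z) (hz2 : 2 ≤ z) (hJ : z ^ s₀ ≤ J) (hg₀ : 1 ≤ g₀) (hg : g₀ + J ≤ N)
    (hv₀ : v₀ ≠ 0) (hω : v₀.primeFactors.card ≤ ω)
    (hnum : C₂ * ((X : ℝ) / (S.card : ℝ)) * ((J : ℝ) / (z : ℝ) + (Nat.log 2 N : ℝ) + 1)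
        + (ω : ℝ) * ((J : ℝ) / (z : ℝ) + 1) + 1 ≤ (J : ℝ) / ((Nat.log 2 z : ℝ) ^ Cs)) :
    ∃ j ∈ Icc 1 J, Rough z (g₀ + j) ∧ Nat.Coprime (g₀ + j) v₀ ∧ VV S (g₀ + j) < 1 := by
  classical
  have hJ1 : 1 ≤ J := (Nat.one_le_pow _ _ (by omega)).trans hJ
  have hzR : (0 : ℝ) < z := by exact_mod_cast (by omega : 0 < z)
  set n : ℕ → ℕ := fun j => g₀ + j with hn
  set R := (Icc 1 J).filter (fun j => Rough z (n j)) with hR
  -- the sieve
  set C : ℕ → Finset ℕ := fun p => {(p - g₀ % p) % p} with hC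
  have hCp : ∀ p : ℕ, p.Prime → p ≤ z → C p ⊆ range p ∧ (C p).card ≤ min 2 (p - 1) := by
    intro p hp _
    have h2 := hp.two_le
    constructor
    · intro x hx
      simp only [hC, mem_singleton] at hx
      rw [hx]
      exact mem_range.mpr (Nat.mod_lt _ hp.pos)
    · simp only [hC, card_singleton]
      omega
  have hsv := hsieve z hz J hJ C hCp
  have hmemC : ∀ (p : ℕ) (j : ℕ), p.Prime → j % p ∉ C p → ¬ p ∣ g₀ + j := by
    intro p j hp h hd
    apply h
    simp only [hC, mem_singleton]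
    have h1 : (g₀ % p + j % p) % p = 0 := by
      rw [← Nat.add_mod]
      exact Nat.mod_eq_zero_of_dvd hd
    have hp0 := hp.pos
    have h3 : g₀ % p < p := Nat.mod_lt _ hp0
    have h4 : j % p < p := Nat.mod_lt _ hp0
    by_cases h5 : g₀ % p = 0
    · rw [h5] at h1 ⊢
      simp only [Nat.sub_zero, Nat.mod_self]
      rwa [Nat.zero_add, Nat.mod_mod] at h1
    · rw [Nat.mod_eq_of_lt (by omega : p - g₀ % p < p)]
      have h6 : g₀ % p + j % p = p ∨ g₀ % p + j % p < p := by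
        by_contra hc
        push Not at hc
        have h7 : p < g₀ % p + j % p := by omega
        have h8 : (g₀ % p + j % p) % p = g₀ % p + j % p - p := by
          rw [Nat.mod_eq_sub_mod (by omega), Nat.mod_eq_of_lt (by omega)]
        omega
      rcases h6 with h6 | h6
      · omega
      · rw [Nat.mod_eq_of_lt h6] at h1
        omega
  have hsub : (Icc 1 J).filter (fun j => ∀ p ∈ (range (z + 1)).filter Nat.Prime, j % p ∉ C p) ⊆ R := by
    intro j hj
    rw [mem_filter] at hj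
    rw [hR, mem_filter]
    refine ⟨hj.1, ?_⟩
    intro p hp hpz
    exact hmemC p j hp (hj.2 p (by simp [hp, hpz]))
  have hRcard : J ≤ (Nat.log 2 z) ^ Cs * R.card :=
    hsv.trans (Nat.mul_le_mul_left _ (Finset.card_le_card hsub))
  -- the family bound
  have hfamB := hfam S X N z J n hS hSX hNX hz2 hJ1 (fun j hj => by
      have := Finset.mem_Icc.mp hj
      simp only [hn]
      omega) (fun m hm => by
      refine card_le_of_modEq _ J m (fun j hj => (Finset.mem_Icc.mp (mem_filter.mp hj).1).2) ?_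
      intro j hj j' hj'
      have h1 := (mem_filter.mp hj).2
      have h2 := (mem_filter.mp hj').2
      simp only [hn] at h1 h2
      have h3 : g₀ + j ≡ g₀ + j' [MOD m] :=
        ((Nat.modEq_zero_iff_dvd).2 h1).trans ((Nat.modEq_zero_iff_dvd).2 h2).symm
      exact Nat.ModEq.add_left_cancel' _ h3)
  -- the bad set
  set E := R.filter (fun j => ¬ Nat.Coprime (n j) v₀) with hE
  have hEcard : (E.card : ℝ) ≤ (ω : ℝ) * ((J : ℝ) / (z : ℝ) + 1) := by
    have hsubE : E ⊆ v₀.primeFactors.biUnion (fun p => R.filter (fun j => p ∣ n j)) := by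
      intro j hj
      rw [hE, mem_filter] at hj
      obtain ⟨hjR, hj2⟩ := hj
      obtain ⟨p, hp, hp1, hp2⟩ := Nat.Prime.not_coprime_iff_dvd.mp hj2
      simp only [mem_biUnion, mem_filter]
      exact ⟨p, Nat.mem_primeFactors.mpr ⟨hp, hp2, hv₀⟩, hjR, hp1⟩
    have h1 : ∀ p ∈ v₀.primeFactors, (((R.filter (fun j => p ∣ n j)).card : ℕ) : ℝ)
        ≤ (J : ℝ) / (z : ℝ) + 1 := by
      intro p hp
      have hpp := Nat.prime_of_mem_primeFactors hp
      by_cases hpz : p ≤ z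
      · have : R.filter (fun j => p ∣ n j) = ∅ := by
          rw [Finset.filter_eq_empty_iff]
          intro j hj hd
          exact (mem_filter.mp hj).2 p hpp hpz hd
        rw [this]
        simp only [card_empty, Nat.cast_zero]
        positivity
      · have hcount : (R.filter (fun j => p ∣ n j)).card ≤ J / p + 1 := by
          refine card_le_of_modEq _ J p (fun j hj => ?_) ?_
          · exact (Finset.mem_Icc.mp (mem_filter.mp (mem_filter.mp hj).1).1).2
          · intro j hj j' hj'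
            have h1 := (mem_filter.mp hj).2
            have h2 := (mem_filter.mp hj').2
            simp only [hn] at h1 h2
            have h3 : g₀ + j ≡ g₀ + j' [MOD p] :=
              ((Nat.modEq_zero_iff_dvd).2 h1).trans ((Nat.modEq_zero_iff_dvd).2 h2).symm
            exact Nat.ModEq.add_left_cancel' _ h3
        have hcount' : (((R.filter (fun j => p ∣ n j)).card : ℕ) : ℝ) ≤ ((J / p : ℕ) : ℝ) + 1 := by
          exact_mod_cast hcount
        have h2 : ((J / p : ℕ) : ℝ) ≤ (J : ℝ) / p := Nat.cast_div_le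
        have h3 : (J : ℝ) / p ≤ (J : ℝ) / z := by
          apply div_le_div_of_nonneg_left (by positivity) hzR
          exact_mod_cast (by omega : z ≤ p)
        linarith
    have h2 : (E.card : ℝ) ≤ ∑ p ∈ v₀.primeFactors, (((R.filter (fun j => p ∣ n j)).card : ℕ) : ℝ) := by
      have := (Finset.card_le_card hsubE).trans Finset.card_biUnion_le
      exact_mod_cast this
    have h3 : ∑ p ∈ v₀.primeFactors, (((R.filter (fun j => p ∣ n j)).card : ℕ) : ℝ)
        ≤ (v₀.primeFactors.card : ℝ) * ((J : ℝ) / (z : ℝ) + 1) := by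
      have := Finset.sum_le_card_nsmul _ _ _ h1
      rwa [nsmul_eq_mul] at this
    have h4 : (v₀.primeFactors.card : ℝ) ≤ ω := by exact_mod_cast hω
    have h5 : (0 : ℝ) ≤ (J : ℝ) / (z : ℝ) + 1 := by positivity
    nlinarith
  -- counting
  have hLog := one_le_log2 z hz2
  have hR2 : C₂ * ((X : ℝ) / (S.card : ℝ)) * ((J : ℝ) / (z : ℝ) + (Nat.log 2 N : ℝ) + 1)
      + (E.card : ℝ) + 1 ≤ (R.card : ℝ) := by
    have h1 := real_bound_of_sieve J (Nat.log 2 z) R.card hLog Cs _ hRcard hnum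
    linarith
  obtain ⟨j, hjR, hjE, hjV⟩ := exists_good R E (fun j => VV S (n j)) _
    (fun j hj => VV_nonneg' S (n j) hS (by
      simp only [hn]; omega)) hfamB hR2
  refine ⟨j, (mem_filter.mp hjR).1, (mem_filter.mp hjR).2, ?_, hjV⟩
  by_contra hc
  exact hjE (mem_filter.mpr ⟨hjR, hc⟩)

/-- T4, abstractly in the family bound and the sieve. -/
theorem choose_j_core {C₂ : ℝ} {s₀ Cs z₀ : ℕ}
    (hfam : ∀ (S : Finset ℕ) (X N z J : ℕ) (n : ℕ → ℕ),
      S.Nonempty → (∀ s ∈ S, s ≤ X) → N ^ 2 ≤ X → 2 ≤ z → 1 ≤ J →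
      (∀ j ∈ Icc 1 J, 1 ≤ n j ∧ n j ≤ N) →
      (∀ m, z ≤ m → ((Icc 1 J).filter (fun j => m ∣ n j)).card ≤ J / m + 1) →
      ∑ j ∈ (Icc 1 J).filter (fun j => Rough z (n j)), VV S (n j)
        ≤ C₂ * ((X : ℝ) / (S.card : ℝ)) * ((J : ℝ) / (z : ℝ) + (Nat.log 2 N : ℝ) + 1))
    (hsieve : ∀ z, z₀ ≤ z → ∀ J, z ^ s₀ ≤ J → ∀ C : ℕ → Finset ℕ,
      (∀ p : ℕ, p.Prime → p ≤ z → C p ⊆ range p ∧ (C p).card ≤ min 2 (p - 1)) →
      J ≤ (Nat.log 2 z) ^ Cs *
        ((Icc 1 J).filter (fun j => ∀ p ∈ (range (z + 1)).filter Nat.Prime, j % p ∉ C p)).card)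
    {S₁ S₂ : Finset ℕ} {X₁ X₂ z J Q r₀ v N₁ N₂ : ℕ} (hS₁ : S₁.Nonempty)
    (hS₂ : S₂.Nonempty) (hS₁X : ∀ s ∈ S₁, s ≤ X₁) (hS₂X : ∀ s ∈ S₂, s ≤ X₂)
    (hN₁ : N₁ ^ 2 ≤ X₁) (hN₂ : N₂ ^ 2 ≤ X₂) (hz : z₀ ≤ z) (hz2 : 2 ≤ z) (hJ : z ^ s₀ ≤ J)
    (hQ : J < Q) (hQN : Q ≤ N₁) (hr₀ : Nat.Coprime r₀ v) (hv : 0 < v)
    (hN₂v : r₀ + J * v ≤ N₂)
    (h2 : 2 ∣ v ∨ (Q + r₀) % 2 = 0)
    (hnum : C₂ * ((X₁ : ℝ) / (S₁.card : ℝ)) * ((J : ℝ) / (z : ℝ) + (Nat.log 2 N₁ : ℝ) + 1)
        + C₂ * ((X₂ : ℝ) / (S₂.card : ℝ)) * ((J : ℝ) / (z : ℝ) + (Nat.log 2 N₂ : ℝ) + 1) + 1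
        ≤ (J : ℝ) / ((Nat.log 2 z : ℝ) ^ Cs)) :
    ∃ j ∈ Icc 1 J, Rough z (Q - j) ∧ Rough z (r₀ + j * v) ∧ VV S₁ (Q - j) < 1 ∧
      VV S₂ (r₀ + j * v) < 1 := by
  classical
  have hJ1 : 1 ≤ J := (Nat.one_le_pow _ _ (by omega)).trans hJ
  set n₁ : ℕ → ℕ := fun j => Q - j with hn₁
  set n₂ : ℕ → ℕ := fun j => r₀ + j * v with hn₂
  set R := (Icc 1 J).filter (fun j => Rough z (n₁ j) ∧ Rough z (n₂ j)) with hR
  set C : ℕ → Finset ℕ := fun p => (range p).filter (fun c => c = Q % p ∨ p ∣ r₀ + c * v) with hC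
  -- sizes of the classes
  have hsol : ∀ p : ℕ, p.Prime → ∀ c ∈ range p, ∀ c' ∈ range p, p ∣ r₀ + c * v → p ∣ r₀ + c' * v →
      c = c' := by
    intro p hp c hc c' hc' h1 h3
    have hpv : ¬ p ∣ v := by
      intro hd
      have : p ∣ r₀ := (Nat.dvd_add_left (hd.mul_left c)).mp h1
      have h4 : p ∣ Nat.gcd r₀ v := Nat.dvd_gcd this hd
      rw [hr₀] at h4
      exact hp.one_lt.ne' (Nat.dvd_one.mp h4)
    have hcop : Nat.Coprime v p := (Nat.Coprime.symm ((Nat.Prime.coprime_iff_not_dvd hp).mpr hpv))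
    have h4 : r₀ + c * v ≡ r₀ + c' * v [MOD p] :=
      ((Nat.modEq_zero_iff_dvd).2 h1).trans ((Nat.modEq_zero_iff_dvd).2 h3).symm
    have h5 : c * v ≡ c' * v [MOD p] := Nat.ModEq.add_left_cancel' _ h4
    have h6 : c ≡ c' [MOD p] := Nat.ModEq.cancel_right_of_coprime (by
      rwa [Nat.coprime_comm] at hcop) h5
    have hc1 := mem_range.mp hc
    have hc2 := mem_range.mp hc'
    unfold Nat.ModEq at h6
    rwa [Nat.mod_eq_of_lt hc1, Nat.mod_eq_of_lt hc2] at h6
  have hCp : ∀ p : ℕ, p.Prime → p ≤ z → C p ⊆ range p ∧ (C p).card ≤ min 2 (p - 1) := by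
    intro p hp _
    refine ⟨Finset.filter_subset _ _, ?_⟩
    have hsplit : C p ⊆ ((range p).filter (fun c => c = Q % p)) ∪
        ((range p).filter (fun c => p ∣ r₀ + c * v)) := by
      intro c hc
      simp only [hC, mem_filter] at hc
      simp only [mem_union, mem_filter]
      tauto
    have hA : ((range p).filter (fun c => c = Q % p)).card ≤ 1 := by
      rw [Finset.card_le_one]
      intro a ha b hb
      rw [(mem_filter.mp ha).2, (mem_filter.mp hb).2]
    have hB : ((range p).filter (fun c => p ∣ r₀ + c * v)).card ≤ 1 := by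
      rw [Finset.card_le_one]
      intro a ha b hb
      exact hsol p hp a (mem_filter.mp ha).1 b (mem_filter.mp hb).1 (mem_filter.mp ha).2
        (mem_filter.mp hb).2
    have hcard2 : (C p).card ≤ 2 :=
      (Finset.card_le_card hsplit).trans ((Finset.card_union_le _ _).trans (by omega))
    by_cases hp2 : p = 2
    · subst hp2
      have : (C 2).card ≤ 1 := by
        rw [Finset.card_le_one]
        intro a ha b hb
        simp only [hC, mem_filter, mem_range] at ha hb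
        have hkey : ∀ c, c < 2 → 2 ∣ r₀ + c * v → c = Q % 2 := by
          intro c hc hd
          rcases h2 with h2 | h2
          · exfalso
            have : 2 ∣ r₀ := (Nat.dvd_add_left (h2.mul_left c)).mp hd
            have h4 : 2 ∣ Nat.gcd r₀ v := Nat.dvd_gcd this h2
            rw [hr₀] at h4
            omega
          · by_cases hv2 : 2 ∣ v
            · exfalso
              have : 2 ∣ r₀ := (Nat.dvd_add_left (hv2.mul_left c)).mp hd
              have h4 : 2 ∣ Nat.gcd r₀ v := Nat.dvd_gcd this hv2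
              rw [hr₀] at h4
              omega
            · have hvodd : v % 2 = 1 := by omega
              have hc01 : c = 0 ∨ c = 1 := by omega
              rcases hc01 with rfl | rfl
              · simp only [zero_mul, add_zero] at hd
                omega
              · simp only [one_mul] at hd
                omega
        have ea : a = Q % 2 := by
          rcases ha.2 with h | h
          · exact h
          · exact hkey a ha.1 h
        have eb : b = Q % 2 := by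
          rcases hb.2 with h | h
          · exact h
          · exact hkey b hb.1 h
        rw [ea, eb]
      simpa using this
    · have h3 := hp.two_le
      have : min 2 (p - 1) = 2 := by omega
      rw [this]
      exact hcard2
  have hsv := hsieve z hz J hJ C hCp
  have hsub : (Icc 1 J).filter (fun j => ∀ p ∈ (range (z + 1)).filter Nat.Prime, j % p ∉ C p) ⊆ R := by
    intro j hj
    rw [mem_filter] at hj
    obtain ⟨hjI, hjp⟩ := hj
    have hjI' := Finset.mem_Icc.mp hjI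
    rw [hR, mem_filter]
    refine ⟨hjI, ?_, ?_⟩
    · intro p hp hpz hd
      have h3 := hjp p (by simp [hp, hpz])
      apply h3
      simp only [hC, mem_filter, mem_range]
      refine ⟨Nat.mod_lt _ hp.pos, Or.inl ?_⟩
      have hle : j ≤ Q := by omega
      have : j ≡ Q [MOD p] := (Nat.modEq_iff_dvd' hle).mpr hd
      exact this
    · intro p hp hpz hd
      have h3 := hjp p (by simp [hp, hpz])
      apply h3
      simp only [hC, mem_filter, mem_range]
      refine ⟨Nat.mod_lt _ hp.pos, Or.inr ?_⟩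
      have h4 : r₀ + j % p * v ≡ r₀ + j * v [MOD p] :=
        Nat.ModEq.add_left _ (Nat.ModEq.mul_right _ (Nat.mod_modEq j p))
      exact (Nat.modEq_zero_iff_dvd).1 (h4.trans ((Nat.modEq_zero_iff_dvd).2 hd))
  have hRcard : J ≤ (Nat.log 2 z) ^ Cs * R.card :=
    hsv.trans (Nat.mul_le_mul_left _ (Finset.card_le_card hsub))
  -- the family bounds
  have hf₁ := hfam S₁ X₁ N₁ z J n₁ hS₁ hS₁X hN₁ hz2 hJ1 (fun j hj => by
      have := Finset.mem_Icc.mp hj
      simp only [hn₁]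
      omega) (fun m hm => by
      refine card_le_of_modEq _ J m (fun j hj => (Finset.mem_Icc.mp (mem_filter.mp hj).1).2) ?_
      intro j hj j' hj'
      have hj1 := Finset.mem_Icc.mp (mem_filter.mp hj).1
      have hj2 := Finset.mem_Icc.mp (mem_filter.mp hj').1
      have h1 := (mem_filter.mp hj).2
      have h3 := (mem_filter.mp hj').2
      simp only [hn₁] at h1 h3
      have h4 : j ≡ Q [MOD m] := (Nat.modEq_iff_dvd' (by omega)).mpr h1
      have h5 : j' ≡ Q [MOD m] := (Nat.modEq_iff_dvd' (by omega)).mpr h3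
      exact h4.trans h5.symm)
  have hf₂ := hfam S₂ X₂ N₂ z J n₂ hS₂ hS₂X hN₂ hz2 hJ1 (fun j hj => by
      have hj' := Finset.mem_Icc.mp hj
      simp only [hn₂]
      have h3 : j * v ≤ J * v := Nat.mul_le_mul_right _ hj'.2
      have h4 : 1 ≤ j * v := Nat.mul_pos (by omega) hv
      omega) (fun m hm => by
      refine card_le_of_modEq _ J m (fun j hj => (Finset.mem_Icc.mp (mem_filter.mp hj).1).2) ?_
      intro j hj j' hj'
      have h1 := (mem_filter.mp hj).2
      have h3 := (mem_filter.mp hj').2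
      simp only [hn₂] at h1 h3
      have hcop : Nat.Coprime v m := by
        have hg1 : Nat.gcd m v ∣ r₀ + j * v := (Nat.gcd_dvd_left m v).trans h1
        have hg2 : Nat.gcd m v ∣ j * v := (Nat.gcd_dvd_right m v).mul_left j
        have hg3 : Nat.gcd m v ∣ r₀ := (Nat.dvd_add_left hg2).mp hg1
        have hg4 : Nat.gcd m v ∣ Nat.gcd r₀ v := Nat.dvd_gcd hg3 (Nat.gcd_dvd_right m v)
        rw [hr₀] at hg4
        rw [Nat.coprime_comm]
        exact Nat.dvd_one.mp hg4
      have h4 : r₀ + j * v ≡ r₀ + j' * v [MOD m] :=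
        ((Nat.modEq_zero_iff_dvd).2 h1).trans ((Nat.modEq_zero_iff_dvd).2 h3).symm
      have h5 : j * v ≡ j' * v [MOD m] := Nat.ModEq.add_left_cancel' _ h4
      exact Nat.ModEq.cancel_right_of_coprime (by rwa [Nat.coprime_comm] at hcop) h5)
  have hVn₁ : ∀ j ∈ R, 0 ≤ VV S₁ (n₁ j) := by
    intro j hj
    have hj' := Finset.mem_Icc.mp (mem_filter.mp hj).1
    exact VV_nonneg' S₁ _ hS₁ (by simp only [hn₁]; omega)
  have hVn₂ : ∀ j ∈ R, 0 ≤ VV S₂ (n₂ j) := by
    intro j hj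
    have hj' := Finset.mem_Icc.mp (mem_filter.mp hj).1
    have h4 : 1 ≤ j * v := Nat.mul_pos (by omega) hv
    exact VV_nonneg' S₂ _ hS₂ (by simp only [hn₂]; omega)
  have hs₁ : ∑ j ∈ R, VV S₁ (n₁ j)
      ≤ ∑ j ∈ (Icc 1 J).filter (fun j => Rough z (n₁ j)), VV S₁ (n₁ j) := by
    refine Finset.sum_le_sum_of_subset_of_nonneg ?_ ?_
    · intro j hj
      have hj' := mem_filter.mp hj
      exact mem_filter.mpr ⟨hj'.1, hj'.2.1⟩
    · intro j hj _
      have hj' := Finset.mem_Icc.mp (mem_filter.mp hj).1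
      exact VV_nonneg' S₁ _ hS₁ (by simp only [hn₁]; omega)
  have hs₂ : ∑ j ∈ R, VV S₂ (n₂ j)
      ≤ ∑ j ∈ (Icc 1 J).filter (fun j => Rough z (n₂ j)), VV S₂ (n₂ j) := by
    refine Finset.sum_le_sum_of_subset_of_nonneg ?_ ?_
    · intro j hj
      have hj' := mem_filter.mp hj
      exact mem_filter.mpr ⟨hj'.1, hj'.2.2⟩
    · intro j hj _
      have hj' := Finset.mem_Icc.mp (mem_filter.mp hj).1
      have h4 : 1 ≤ j * v := Nat.mul_pos (by omega) hv
      exact VV_nonneg' S₂ _ hS₂ (by simp only [hn₂]; omega)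
  have hLog := one_le_log2 z hz2
  have hRb := real_bound_of_sieve J (Nat.log 2 z) R.card hLog Cs _ hRcard hnum
  obtain ⟨j, hjR, _, hjV⟩ := exists_good R ∅ (fun j => VV S₁ (n₁ j) + VV S₂ (n₂ j))
    (C₂ * ((X₁ : ℝ) / (S₁.card : ℝ)) * ((J : ℝ) / (z : ℝ) + (Nat.log 2 N₁ : ℝ) + 1)
        + C₂ * ((X₂ : ℝ) / (S₂.card : ℝ)) * ((J : ℝ) / (z : ℝ) + (Nat.log 2 N₂ : ℝ) + 1))
    (fun j hj => add_nonneg (hVn₁ j hj) (hVn₂ j hj))
    (by rw [Finset.sum_add_distrib]; linarith)
    (by simpa using hRb)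
  have hj' := mem_filter.mp hjR
  have h5 := hVn₁ j hjR
  have h6 := hVn₂ j hjR
  exact ⟨j, hj'.1, hj'.2.1, hj'.2.2, by linarith, by linarith⟩

end Vale.Agent.P012F
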