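import Vale.Agent.P012F.LargeSieve
import Vale.Agent.P012F.StepsMJ
import Vale.Agent.Lib.P012.Image

namespace Vale.Agent.P012F

open Finset
open scoped ComplexConjugate

/-- `ee t = 1` only at integers. -/
lemma ee_eq_one_iff (t : ℝ) : ee t = 1 ↔ ∃ k : ℤ, t = k := by
  unfold ee
  rw [Complex.exp_eq_one_iff]
  have hpi : (2 * (Real.pi : ℂ) * Complex.I) ≠ 0 := by
    simp [Real.pi_ne_zero]
  constructor
  · rintro ⟨k, hk⟩
    refine ⟨k, ?_⟩
    have : (t : ℂ) = (k : ℂ) := by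
      apply mul_left_cancel₀ hpi
      rw [hk]; ring
    exact_mod_cast this
  · rintro ⟨k, rfl⟩
    refine ⟨k, ?_⟩
    push_cast
    ring

/-- Orthogonality of additive characters. -/
lemma sum_ee_ortho (n : ℕ) (hn : 1 ≤ n) (s s' : ℕ) :
    ∑ h ∈ range n, ee ((s : ℝ) * ((h : ℝ) / n) - (s' : ℝ) * ((h : ℝ) / n))
      = if s ≡ s' [MOD n] then (n : ℂ) else 0 := by
  have hnR : (n : ℝ) ≠ 0 := by
    have : 0 < n := hn
    positivity
  set t : ℝ := ((s : ℝ) - (s' : ℝ)) / n with ht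
  have hterm : ∀ h : ℕ, (s : ℝ) * ((h : ℝ) / n) - (s' : ℝ) * ((h : ℝ) / n) = (h : ℝ) * t := by
    intro h; rw [ht]; field_simp
  simp_rw [hterm]
  change GG n t = _
  split_ifs with hmod
  · -- integer `t`
    have hk : ∃ k : ℤ, t = k := by
      have h1 : ((n : ℤ)) ∣ (s : ℤ) - s' := by
        have := (Nat.modEq_iff_dvd.mp hmod.symm)
        exact this
      obtain ⟨k, hk⟩ := h1
      refine ⟨k, ?_⟩
      rw [ht]
      have h2 : (s : ℝ) - s' = (n : ℝ) * k := by exact_mod_cast hk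
      rw [h2]; field_simp
    obtain ⟨k, hk⟩ := hk
    unfold GG
    have : ∀ j ∈ range n, ee ((j : ℝ) * t) = 1 := by
      intro j _
      rw [ee_eq_one_iff]
      refine ⟨j * k, ?_⟩
      rw [hk]; push_cast; ring
    rw [Finset.sum_congr rfl this]
    simp
  · -- noninteger `t`
    have hne : ee t - 1 ≠ 0 := by
      intro h
      have h1 : ee t = 1 := sub_eq_zero.mp h
      obtain ⟨k, hk⟩ := (ee_eq_one_iff t).mp h1
      apply hmod
      have h2 : ((s : ℝ) - s') = (n : ℝ) * k := by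
        rw [ht] at hk
        field_simp at hk
        linarith
      have h3 : (s : ℤ) - s' = (n : ℤ) * k := by exact_mod_cast h2
      have h4 : (n : ℤ) ∣ (s' : ℤ) - s := ⟨-k, by linarith⟩
      exact (Nat.modEq_iff_dvd.mpr h4)
    have h1 := GG_mul n t
    have h2 : ee ((n : ℝ) * t) = 1 := by
      rw [ee_eq_one_iff]
      refine ⟨(s : ℤ) - s', ?_⟩
      rw [ht]; push_cast; field_simp
    rw [h2, sub_self] at h1
    exact (mul_eq_zero.mp h1).resolve_right hne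

/-- Fourier identity for the collision count. -/
theorem coll_fourier (S : Finset ℕ) (n : ℕ) (hn : 1 ≤ n) :
    (n : ℝ) * (coll S n : ℝ) = ∑ h ∈ range n, ‖hat S ((h : ℝ) / (n : ℝ))‖ ^ 2 := by
  have hC : (((n : ℝ) * (coll S n : ℝ) : ℝ) : ℂ)
      = ((∑ h ∈ range n, ‖hat S ((h : ℝ) / (n : ℝ))‖ ^ 2 : ℝ) : ℂ) := by
    push_cast
    have h1 : ∀ h ∈ range n, ((‖hat S ((h : ℝ) / (n : ℝ))‖ : ℂ)) ^ 2
        = ∑ p ∈ S ×ˢ S, ee ((p.1 : ℝ) * ((h : ℝ) / n) - (p.2 : ℝ) * ((h : ℝ) / n)) := by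
      intro h _
      rw [← Complex.mul_conj' (hat S ((h : ℝ) / (n : ℝ)))]
      unfold hat
      rw [map_sum, Finset.sum_mul_sum, Finset.sum_product]
      refine Finset.sum_congr rfl fun s _ => Finset.sum_congr rfl fun s' _ => ?_
      rw [conj_ee, ← ee_add]
      congr 1
    rw [Finset.sum_congr rfl h1, Finset.sum_comm]
    simp_rw [sum_ee_ortho n hn]
    rw [Finset.sum_ite, Finset.sum_const_zero, add_zero, Finset.sum_const, nsmul_eq_mul, coll]
    ring
  exact_mod_cast hC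

lemma hat_zero (S : Finset ℕ) : hat S 0 = (S.card : ℂ) := by
  unfold hat
  simp [ee_zero]

/-- The image of `S` in `ZMod n` is larger than `n / 2`. -/
theorem image_large (S : Finset ℕ) (hS : S.Nonempty) (n : ℕ) (_hn : 1 ≤ n) (hV : VV S n < 1) :
    n < 2 * (S.image (fun s : ℕ => (s : ZMod n))).card := by
  classical
  have hcs := Vale.Agent.P012.card_sq_le_image_mul S (fun s : ℕ => (s : ZMod n))
  have hcoll : ((S ×ˢ S).filter (fun x => ((x.1 : ℕ) : ZMod n) = ((x.2 : ℕ) : ZMod n))).card = coll S n := by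
    unfold coll
    congr 1
    ext ⟨a, b⟩
    simp only [mem_filter]
    rw [ZMod.natCast_eq_natCast_iff]
  rw [hcoll] at hcs
  have hcpos : (0 : ℝ) < (S.card : ℝ) := by exact_mod_cast hS.card_pos
  unfold VV at hV
  have h1 : (n : ℝ) * (coll S n : ℝ) < 2 * (S.card : ℝ) ^ 2 := by
    have h2 : (n : ℝ) * (coll S n : ℝ) / (S.card : ℝ) ^ 2 < 2 := by linarith
    rwa [div_lt_iff₀ (by positivity)] at h2
  have h3 : ((S.card : ℝ)) ^ 2 ≤ ((S.image (fun s : ℕ => (s : ZMod n))).card : ℝ) * (coll S n : ℝ) := by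
    exact_mod_cast hcs
  have hcollpos : (0 : ℝ) < (coll S n : ℝ) := by
    by_contra hc
    have hc0 : (coll S n : ℝ) ≤ 0 := not_lt.mp hc
    have : ((S.image (fun s : ℕ => (s : ZMod n))).card : ℝ) * (coll S n : ℝ) ≤ 0 :=
      mul_nonpos_of_nonneg_of_nonpos (by positivity) hc0
    have h4 : (0 : ℝ) < (S.card : ℝ) ^ 2 := by positivity
    linarith
  have h5 : (n : ℝ) * (coll S n : ℝ)
      < 2 * ((S.image (fun s : ℕ => (s : ZMod n))).card : ℝ) * (coll S n : ℝ) := by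
    nlinarith
  have h6 : (n : ℝ) < 2 * ((S.image (fun s : ℕ => (s : ZMod n))).card : ℝ) :=
    lt_of_mul_lt_mul_right h5 hcollpos.le
  exact_mod_cast h6

/-- The zero-sum step. -/
theorem exists_sum_dvd (S : Finset ℕ) (hS : S.Nonempty) (n c : ℕ) (hn : 1 ≤ n)
    (hc : Nat.Coprime c n) (hV : VV S n < 1) : ∃ s ∈ S, ∃ s' ∈ S, n ∣ s + c * s' := by
  classical
  have : NeZero n := ⟨by omega⟩
  have himg := image_large S hS n hn hV
  set A := S.image (fun s : ℕ => (s : ZMod n)) with hA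
  have hunit : IsUnit (c : ZMod n) := (ZMod.isUnit_iff_coprime c n).mpr hc
  set B := A.image (fun a : ZMod n => -((c : ZMod n) * a)) with hB
  have hBcard : B.card = A.card := by
    apply Finset.card_image_of_injective
    intro a b hab
    simp only [neg_inj] at hab
    exact hunit.mul_left_cancel hab
  have hnd : ¬ Disjoint A B := by
    intro hd
    have h1 := Finset.card_union_of_disjoint hd
    have h2 : (A ∪ B).card ≤ Fintype.card (ZMod n) := Finset.card_le_univ _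
    rw [ZMod.card] at h2
    omega
  rw [Finset.not_disjoint_iff] at hnd
  obtain ⟨x, hxA, hxB⟩ := hnd
  obtain ⟨s, hs, rfl⟩ := mem_image.mp hxA
  obtain ⟨a, ha, hax⟩ := mem_image.mp hxB
  obtain ⟨s', hs', rfl⟩ := mem_image.mp ha
  refine ⟨s, hs, s', hs', ?_⟩
  rw [← ZMod.natCast_eq_zero_iff]
  push_cast
  rw [← hax]
  ring

/-- `V` is nonnegative. -/
theorem VV_nonneg (S : Finset ℕ) (hS : S.Nonempty) (n : ℕ) (hn : 1 ≤ n) : 0 ≤ VV S n :=
  VV_nonneg' S n hS hn

/-- `V` is translation invariant. -/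
theorem VV_translate (S : Finset ℕ) (τ n : ℕ) : VV (S.image (· + τ)) n = VV S n := by
  classical
  have hinj : Function.Injective (fun x : ℕ => x + τ) := fun a b h => by
    simpa using h
  have hcard : (S.image (· + τ)).card = S.card := Finset.card_image_of_injective _ hinj
  have hcoll : coll (S.image (· + τ)) n = coll S n := by
    unfold coll
    have hset : ((S.image (· + τ)) ×ˢ (S.image (· + τ))).filter (fun p => p.1 ≡ p.2 [MOD n])
        = ((S ×ˢ S).filter (fun p => p.1 ≡ p.2 [MOD n])).image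
            (Prod.map (· + τ) (· + τ)) := by
      ext ⟨a, b⟩
      simp only [mem_filter, mem_product, mem_image, Prod.exists, Prod.map_apply, Prod.mk.injEq]
      constructor
      · rintro ⟨⟨⟨a', ha', rfl⟩, ⟨b', hb', rfl⟩⟩, h⟩
        exact ⟨a', b', ⟨⟨ha', hb'⟩, Nat.ModEq.add_right_cancel' τ h⟩, rfl, rfl⟩
      · rintro ⟨a', b', ⟨⟨ha', hb'⟩, h⟩, rfl, rfl⟩
        exact ⟨⟨⟨a', ha', rfl⟩, ⟨b', hb', rfl⟩⟩, Nat.ModEq.add_right τ h⟩
    rw [hset, Finset.card_image_of_injective]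
    exact Function.Injective.prodMap hinj hinj
  unfold VV
  rw [hcard, hcoll]

/-- The primitive part of the sum at denominator `d`. -/
noncomputable def PP (S : Finset ℕ) (d : ℕ) : ℝ :=
  ∑ a ∈ (range d).filter (fun a => Nat.Coprime a d), ‖hat S ((a : ℝ) / (d : ℝ))‖ ^ 2

lemma PP_nonneg (S : Finset ℕ) (d : ℕ) : 0 ≤ PP S d :=
  Finset.sum_nonneg fun _ _ => by positivity

/-- Decomposition according to the reduced denominator (inequality suffices). -/
lemma VV_mul_le (S : Finset ℕ) (hS : S.Nonempty) (n : ℕ) (hn : 1 ≤ n) :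
    VV S n * (S.card : ℝ) ^ 2 ≤ ∑ d ∈ n.divisors.filter (fun d => 1 < d), PP S d := by
  classical
  have hcpos : (0 : ℝ) < (S.card : ℝ) := by exact_mod_cast hS.card_pos
  have hcn0 : (S.card : ℝ) ^ 2 ≠ 0 := by positivity
  have h1 : VV S n * (S.card : ℝ) ^ 2 = (n : ℝ) * coll S n - (S.card : ℝ) ^ 2 := by
    unfold VV
    field_simp
  rw [h1, coll_fourier S n hn]
  -- split off `h = 0`
  have hsplit : ∑ h ∈ range n, ‖hat S ((h : ℝ) / (n : ℝ))‖ ^ 2
      = (S.card : ℝ) ^ 2 + ∑ h ∈ Ico 1 n, ‖hat S ((h : ℝ) / (n : ℝ))‖ ^ 2 := by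
    have h2 : range n = insert 0 (Ico 1 n) := by
      ext x
      simp only [mem_range, mem_insert, mem_Ico]
      omega
    rw [h2, Finset.sum_insert (by simp)]
    congr 1
    simp [hat_zero]
  rw [hsplit, add_sub_cancel_left]
  -- the injection
  set T := (n.divisors.filter (fun d => 1 < d)).sigma
    (fun d => (range d).filter (fun a => Nat.Coprime a d)) with hT
  have hRHS : ∑ d ∈ n.divisors.filter (fun d => 1 < d), PP S d
      = ∑ x ∈ T, ‖hat S ((x.2 : ℝ) / (x.1 : ℝ))‖ ^ 2 := by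
    unfold PP
    rw [Finset.sum_sigma']
  rw [hRHS]
  set φ : ℕ → Σ _ : ℕ, ℕ := fun h => ⟨n / Nat.gcd h n, h / Nat.gcd h n⟩ with hφ
  have hval : ∀ h, h ∈ Ico 1 n → ((φ h).2 : ℝ) / ((φ h).1 : ℝ) = (h : ℝ) / n := by
    intro h hh
    have hg : 0 < Nat.gcd h n := Nat.gcd_pos_of_pos_right _ (by omega)
    obtain ⟨a, ha⟩ : Nat.gcd h n ∣ h := Nat.gcd_dvd_left _ _
    obtain ⟨d, hd⟩ : Nat.gcd h n ∣ n := Nat.gcd_dvd_right _ _
    have e1 : (φ h).2 = a := Nat.div_eq_of_eq_mul_right hg ha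
    have e2 : (φ h).1 = d := Nat.div_eq_of_eq_mul_right hg hd
    rw [e1, e2]
    have hgR : ((Nat.gcd h n : ℕ) : ℝ) ≠ 0 := by positivity
    have e3 : (h : ℝ) = (Nat.gcd h n : ℝ) * a := by exact_mod_cast ha
    have e4 : (n : ℝ) = (Nat.gcd h n : ℝ) * d := by exact_mod_cast hd
    conv_rhs => rw [e3, e4]
    rw [mul_div_mul_left _ _ hgR]
  have hinj : Set.InjOn φ (Ico 1 n : Set ℕ) := by
    intro h hh h' hh' heq
    have e1 := hval h (Finset.mem_coe.mp hh)
    have e2 := hval h' (Finset.mem_coe.mp hh')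
    rw [heq, e2] at e1
    have hnR : (n : ℝ) ≠ 0 := by
      have : 0 < n := hn
      positivity
    have : (h' : ℝ) = h := by
      field_simp at e1
      linarith
    exact_mod_cast this.symm
  have hmaps : (Ico 1 n).image φ ⊆ T := by
    intro x hx
    obtain ⟨h, hh, rfl⟩ := mem_image.mp hx
    have hh' := mem_Ico.mp hh
    have hg : 0 < Nat.gcd h n := Nat.gcd_pos_of_pos_right _ (by omega)
    have hgle : Nat.gcd h n ≤ h := Nat.le_of_dvd (by omega) (Nat.gcd_dvd_left _ _)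
    rw [hT, Finset.mem_sigma]
    constructor
    · simp only [mem_filter, Nat.mem_divisors, hφ]
      refine ⟨⟨Nat.div_dvd_of_dvd (Nat.gcd_dvd_right _ _), by omega⟩, ?_⟩
      rw [Nat.lt_div_iff_mul_lt' (Nat.gcd_dvd_right _ _)]
      omega
    · simp only [mem_filter, mem_range, hφ]
      constructor
      · apply Nat.div_lt_div_of_lt_of_dvd (Nat.gcd_dvd_right _ _)
        omega
      · exact Nat.coprime_div_gcd_div_gcd hg
  have hsum : ∑ h ∈ Ico 1 n, ‖hat S ((h : ℝ) / (n : ℝ))‖ ^ 2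
      = ∑ x ∈ (Ico 1 n).image φ, ‖hat S ((x.2 : ℝ) / (x.1 : ℝ))‖ ^ 2 := by
    rw [Finset.sum_image hinj]
    refine Finset.sum_congr rfl fun h hh => ?_
    rw [hval h hh]
  rw [hsum]
  exact Finset.sum_le_sum_of_subset_of_nonneg hmaps (fun _ _ _ => by positivity)

/-- Geometric tail. -/
lemma geom_tail (a b : ℕ) : ∑ i ∈ Icc a b, (1 : ℝ) / 2 ^ i ≤ 2 / 2 ^ a := by
  have key : ∀ c : ℕ, ∑ i ∈ Ico a (a + c), (1 : ℝ) / 2 ^ i = 2 / 2 ^ a - 2 / 2 ^ (a + c) := by
    intro c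
    induction c with
    | zero => simp
    | succ c ih =>
      rw [← add_assoc, Finset.sum_Ico_succ_top (by omega), ih]
      field_simp
      ring
  by_cases hab : a ≤ b
  · have e : Icc a b = Ico a (a + (b + 1 - a)) := by
      ext x; simp only [mem_Icc, mem_Ico]; omega
    rw [e, key]
    have : (0 : ℝ) ≤ 2 / 2 ^ (a + (b + 1 - a)) := by positivity
    linarith
  · rw [Finset.Icc_eq_empty (by omega)]
    simp only [sum_empty]
    positivity

/-- Lemma 3. -/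
theorem family_bound : ∃ C₂ : ℝ, 0 < C₂ ∧ ∀ (S : Finset ℕ) (X N z J : ℕ) (n : ℕ → ℕ),
    S.Nonempty → (∀ s ∈ S, s ≤ X) → N ^ 2 ≤ X → 2 ≤ z → 1 ≤ J →
    (∀ j ∈ Icc 1 J, 1 ≤ n j ∧ n j ≤ N) →
    (∀ m, z ≤ m → ((Icc 1 J).filter (fun j => m ∣ n j)).card ≤ J / m + 1) →
    ∑ j ∈ (Icc 1 J).filter (fun j => Rough z (n j)), VV S (n j)
      ≤ C₂ * ((X : ℝ) / (S.card : ℝ)) * ((J : ℝ) / (z : ℝ) + (Nat.log 2 N : ℝ) + 1) := by
  classical
  obtain ⟨C₁, hC₁, hLS⟩ := large_sieve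
  refine ⟨4 * C₁, by positivity, ?_⟩
  intro S X N z J n hS hSX hNX hz hJ hnb hcount
  set R := (Icc 1 J).filter (fun j => Rough z (n j)) with hR
  have hcpos : (0 : ℝ) < (S.card : ℝ) := by exact_mod_cast hS.card_pos
  have hzR : (0 : ℝ) < z := by exact_mod_cast (by omega : 0 < z)
  -- Step 1: from `VV` to `PP`.
  have h1 : (∑ j ∈ R, VV S (n j)) * (S.card : ℝ) ^ 2
      ≤ ∑ j ∈ R, ∑ d ∈ (n j).divisors.filter (fun d => 1 < d), PP S d := by
    rw [Finset.sum_mul]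
    refine Finset.sum_le_sum fun j hj => ?_
    exact VV_mul_le S hS (n j) (hnb j (mem_filter.mp hj).1).1
  -- Step 2: swap.
  have h2 : ∑ j ∈ R, ∑ d ∈ (n j).divisors.filter (fun d => 1 < d), PP S d
      ≤ ∑ d ∈ Ioc z N, PP S d * ((J : ℝ) / d + 1) := by
    have hin : ∀ j ∈ R, ∑ d ∈ (n j).divisors.filter (fun d => 1 < d), PP S d
        ≤ ∑ d ∈ Ioc z N, if d ∣ n j then PP S d else 0 := by
      intro j hj
      rw [← Finset.sum_filter]
      refine Finset.sum_le_sum_of_subset_of_nonneg ?_ (fun _ _ _ => PP_nonneg S _)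
      intro d hd
      obtain ⟨hd1, hd2⟩ := mem_filter.mp hd
      obtain ⟨hdvd, hne⟩ := Nat.mem_divisors.mp hd1
      have hj' := mem_filter.mp hj
      have hbd := hnb j hj'.1
      refine mem_filter.mpr ⟨mem_Ioc.mpr ⟨?_, ?_⟩, hdvd⟩
      · by_contra hle
        push Not at hle
        have hp := Nat.minFac_prime (by omega : d ≠ 1)
        have hpd := Nat.minFac_dvd d
        have hple := Nat.le_of_dvd (by omega) hpd
        exact hj'.2 _ hp (hple.trans hle) (hpd.trans hdvd)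
      · exact (Nat.le_of_dvd (by omega) hdvd).trans hbd.2
    refine (Finset.sum_le_sum hin).trans ?_
    rw [Finset.sum_comm]
    refine Finset.sum_le_sum fun d hd => ?_
    have hd' := mem_Ioc.mp hd
    have hdpos : (0 : ℝ) < d := by exact_mod_cast (by omega : 0 < d)
    have hcnt : (R.filter (fun j => d ∣ n j)).card ≤ J / d + 1 := by
      refine le_trans (Finset.card_le_card ?_) (hcount d hd'.1.le)
      intro j hj
      obtain ⟨hj1, hj2⟩ := mem_filter.mp hj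
      exact mem_filter.mpr ⟨(mem_filter.mp hj1).1, hj2⟩
    have hcnt' : ((R.filter (fun j => d ∣ n j)).card : ℝ) ≤ (J : ℝ) / d + 1 := by
      have h3 : (((R.filter (fun j => d ∣ n j)).card : ℕ) : ℝ) ≤ ((J / d : ℕ) : ℝ) + 1 := by
        exact_mod_cast hcnt
      have h4 : ((J / d : ℕ) : ℝ) ≤ (J : ℝ) / d := Nat.cast_div_le
      linarith
    have e : ∑ j ∈ R, (if d ∣ n j then PP S d else 0)
        = PP S d * ((R.filter (fun j => d ∣ n j)).card : ℝ) := by
      rw [← Finset.sum_filter, Finset.sum_const, nsmul_eq_mul, mul_comm]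
    rw [e]
    exact mul_le_mul_of_nonneg_left hcnt' (PP_nonneg S d)
  -- Step 3: dyadic decomposition.
  set i₀ := Nat.log 2 z with hi₀
  set L := Nat.log 2 N with hL
  have h1N : 1 ≤ N := by
    have := hnb 1 (mem_Icc.mpr ⟨le_rfl, hJ⟩)
    omega
  have h3 : ∑ d ∈ Ioc z N, PP S d * ((J : ℝ) / d + 1)
      ≤ ∑ i ∈ Icc i₀ L, ((J : ℝ) / 2 ^ i + 1) * (C₁ * (X : ℝ) * (S.card : ℝ)) := by
    have hmaps : ∀ d ∈ Ioc z N, Nat.log 2 d ∈ Icc i₀ L := by
      intro d hd
      have hd' := mem_Ioc.mp hd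
      exact mem_Icc.mpr ⟨Nat.log_mono_right hd'.1.le, Nat.log_mono_right hd'.2⟩
    rw [← Finset.sum_fiberwise_of_maps_to hmaps]
    refine Finset.sum_le_sum fun i hi => ?_
    have hi' := mem_Icc.mp hi
    have hpow : 2 ^ i ≤ N := by
      have hN0 : N ≠ 0 := by omega
      calc 2 ^ i ≤ 2 ^ L := Nat.pow_le_pow_right (by norm_num) hi'.2
        _ ≤ N := Nat.pow_log_le_self 2 hN0
    have hMX : (2 ^ i) ^ 2 ≤ X := (Nat.pow_le_pow_left hpow 2).trans hNX
    have hls := hLS S X (2 ^ i) hSX (Nat.one_le_two_pow) hMX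
    have hA : ((J : ℝ) / 2 ^ i + 1) * ∑ m ∈ Ico (2 ^ i) (2 * 2 ^ i), PP S m
        ≤ ((J : ℝ) / 2 ^ i + 1) * (C₁ * (X : ℝ) * (S.card : ℝ)) :=
      mul_le_mul_of_nonneg_left hls (by positivity)
    refine le_trans ?_ hA
    rw [Finset.mul_sum]
    have hsub : ∑ d ∈ (Ioc z N).filter (fun d => Nat.log 2 d = i), PP S d * ((J : ℝ) / d + 1)
        ≤ ∑ d ∈ (Ioc z N).filter (fun d => Nat.log 2 d = i), ((J : ℝ) / 2 ^ i + 1) * PP S d := by
      refine Finset.sum_le_sum fun d hd => ?_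
      obtain ⟨hd1, hd2⟩ := mem_filter.mp hd
      have hd1' := mem_Ioc.mp hd1
      have hd0 : d ≠ 0 := by omega
      have hle : 2 ^ i ≤ d := by
        rw [← hd2]
        exact Nat.pow_log_le_self 2 hd0
      have hleR : ((2 : ℝ) ^ i) ≤ d := by exact_mod_cast hle
      have : (J : ℝ) / d ≤ (J : ℝ) / 2 ^ i :=
        div_le_div_of_nonneg_left (by positivity) (by positivity) hleR
      rw [mul_comm]
      exact mul_le_mul_of_nonneg_right (by linarith) (PP_nonneg S d)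
    refine hsub.trans ?_
    refine Finset.sum_le_sum_of_subset_of_nonneg ?_ (fun _ _ _ => mul_nonneg (by positivity) (PP_nonneg S _))
    intro d hd
    obtain ⟨hd1, hd2⟩ := mem_filter.mp hd
    have hd1' := mem_Ioc.mp hd1
    have hd0 : d ≠ 0 := by omega
    refine mem_Ico.mpr ⟨?_, ?_⟩
    · rw [← hd2]
      exact Nat.pow_log_le_self 2 hd0
    · rw [← hd2, ← pow_succ']
      exact Nat.lt_pow_succ_log_self (by norm_num) d
  -- Step 4: the sum over `i`.
  have h4 : ∑ i ∈ Icc i₀ L, ((J : ℝ) / 2 ^ i + 1)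
      ≤ 4 * ((J : ℝ) / z) + (L : ℝ) + 1 := by
    rw [Finset.sum_add_distrib]
    have e1 : ∑ i ∈ Icc i₀ L, (J : ℝ) / 2 ^ i = (J : ℝ) * ∑ i ∈ Icc i₀ L, (1 : ℝ) / 2 ^ i := by
      rw [Finset.mul_sum]
      refine Finset.sum_congr rfl fun i _ => ?_
      ring
    have e2 := geom_tail i₀ L
    have hz2 : (z : ℝ) < 2 ^ (i₀ + 1) := by
      have := Nat.lt_pow_succ_log_self (b := 2) (by norm_num) z
      exact_mod_cast this
    have e3 : (2 : ℝ) / 2 ^ i₀ ≤ 4 / z := by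
      rw [div_le_div_iff₀ (by positivity) hzR]
      rw [pow_succ] at hz2
      nlinarith
    have e4 : (J : ℝ) * ∑ i ∈ Icc i₀ L, (1 : ℝ) / 2 ^ i ≤ 4 * ((J : ℝ) / z) := by
      calc (J : ℝ) * ∑ i ∈ Icc i₀ L, (1 : ℝ) / 2 ^ i ≤ (J : ℝ) * (4 / z) :=
            mul_le_mul_of_nonneg_left (e2.trans e3) (by positivity)
        _ = 4 * ((J : ℝ) / z) := by ring
    have e5 : ∑ _i ∈ Icc i₀ L, (1 : ℝ) ≤ (L : ℝ) + 1 := by
      rw [Finset.sum_const, nsmul_eq_mul, mul_one, Nat.card_Icc]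
      have : L + 1 - i₀ ≤ L + 1 := Nat.sub_le _ _
      exact_mod_cast this
    rw [e1]
    linarith
  -- Conclusion.
  have h5 : (∑ j ∈ R, VV S (n j)) * (S.card : ℝ) ^ 2
      ≤ (4 * ((J : ℝ) / z) + (L : ℝ) + 1) * (C₁ * (X : ℝ) * (S.card : ℝ)) := by
    refine h1.trans (h2.trans (h3.trans ?_))
    rw [← Finset.sum_mul]
    exact mul_le_mul_of_nonneg_right h4 (by positivity)
  have h6 : (∑ j ∈ R, VV S (n j)) * (S.card : ℝ) ^ 2
      ≤ (4 * C₁ * ((X : ℝ) / (S.card : ℝ)) * ((J : ℝ) / (z : ℝ) + (L : ℝ) + 1)) * (S.card : ℝ) ^ 2 := by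
    refine h5.trans ?_
    have e : (4 * C₁ * ((X : ℝ) / (S.card : ℝ)) * ((J : ℝ) / (z : ℝ) + (L : ℝ) + 1)) * (S.card : ℝ) ^ 2
        = (4 * ((J : ℝ) / z) + 4 * (L : ℝ) + 4) * (C₁ * (X : ℝ) * (S.card : ℝ)) := by
      field_simp
    rw [e]
    apply mul_le_mul_of_nonneg_right _ (by positivity)
    have : (0 : ℝ) ≤ (L : ℝ) := by positivity
    linarith
  exact le_of_mul_le_mul_right h6 (by positivity)

end Vale.Agent.P012F

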