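import Vale.Agent.P012F.MainStep

/-!
# P012F: the final theorem `N(b) ≪ log log b`.
-/

namespace Vale.Agent.P012F

open Finset

/-- From the natural-number bound to the real estimate. -/
theorem log_estimate (b B : ℕ) (hb : 16 ≤ b) (hB : B = Nat.clog 2 b) :
    1 ≤ B ∧ (Nat.log 2 B : ℝ) ≤ 4 * Real.log (Real.log b) ∧ 1 ≤ Real.log (Real.log b) := by
  have hb1 : 1 < b := by omega
  have hBpos : 1 ≤ B := by
    rw [hB]
    exact Nat.clog_pos (by norm_num) (by omega)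
  have hbR : (16 : ℝ) ≤ (b : ℝ) := by exact_mod_cast hb
  have hl2 : (0.6931 : ℝ) < Real.log 2 := by
    have := Real.log_two_gt_d9; linarith
  have hl2' : Real.log 2 < 0.6932 := by
    have := Real.log_two_lt_d9; linarith
  have hlogb : 4 * Real.log 2 ≤ Real.log b := by
    have e : (16 : ℝ) = 2 ^ 4 := by norm_num
    calc 4 * Real.log 2 = Real.log ((2 : ℝ) ^ 4) := by rw [Real.log_pow]; norm_num
      _ ≤ Real.log b := Real.log_le_log (by norm_num) (by rw [← e]; exact hbR)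
  have hlogb1 : (2.77 : ℝ) ≤ Real.log b := by linarith
  have hLL : 1 ≤ Real.log (Real.log b) := by
    have h1 : Real.exp 1 ≤ Real.log b := by
      have := Real.exp_one_lt_d9
      linarith
    calc (1 : ℝ) = Real.log (Real.exp 1) := (Real.log_exp 1).symm
      _ ≤ Real.log (Real.log b) := Real.log_le_log (Real.exp_pos 1) h1
  refine ⟨hBpos, ?_, hLL⟩
  -- `2 ^ (B - 1) < b`
  have hpow : 2 ^ (B - 1) < b := by
    rw [hB]
    exact Nat.pow_pred_clog_lt_self (by norm_num) hb1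
  have hpowR : (2 : ℝ) ^ (B - 1) < (b : ℝ) := by exact_mod_cast hpow
  have hlog1 : ((B - 1 : ℕ) : ℝ) * Real.log 2 < Real.log b := by
    have := Real.log_lt_log (by positivity) hpowR
    rwa [Real.log_pow] at this
  have hB' : (B : ℝ) ≤ 3 * Real.log b := by
    have e : ((B - 1 : ℕ) : ℝ) = (B : ℝ) - 1 := by
      rw [Nat.cast_sub hBpos]; simp
    rw [e] at hlog1
    have hBR : (1 : ℝ) ≤ (B : ℝ) := by exact_mod_cast hBpos
    nlinarith
  have hBR : (0 : ℝ) < (B : ℝ) := by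
    have : 0 < B := hBpos
    exact_mod_cast this
  have hlogB : Real.log (B : ℝ) ≤ Real.log 3 + Real.log (Real.log b) := by
    have : Real.log (B : ℝ) ≤ Real.log (3 * Real.log b) := Real.log_le_log hBR hB'
    rwa [Real.log_mul (by norm_num) (by linarith)] at this
  have hlog3 : Real.log 3 ≤ 1.1037 := by
    have h1 : Real.log 3 ≤ 3 / Real.exp 1 := by
      have := Real.log_le_sub_one_of_pos (x := 3 / Real.exp 1) (by positivity)
      rw [Real.log_div (by norm_num) (by positivity), Real.log_exp] at this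
      linarith
    have h2 : (2.7182818283 : ℝ) < Real.exp 1 := Real.exp_one_gt_d9
    have h3 : (3 : ℝ) / Real.exp 1 ≤ 3 / 2.7182818283 :=
      div_le_div_of_nonneg_left (by norm_num) (by norm_num) h2.le
    have h4 : (3 : ℝ) / 2.7182818283 ≤ 1.1037 := by norm_num
    linarith
  -- `Nat.log 2 B ≤ log B / log 2`
  have hNL : (Nat.log 2 B : ℝ) * Real.log 2 ≤ Real.log (B : ℝ) := by
    have h1 : 2 ^ Nat.log 2 B ≤ B := Nat.pow_log_le_self 2 (by omega)
    have h2 : (2 : ℝ) ^ Nat.log 2 B ≤ (B : ℝ) := by exact_mod_cast h1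
    have := Real.log_le_log (by positivity) h2
    rwa [Real.log_pow] at this
  have hNL0 : (0 : ℝ) ≤ (Nat.log 2 B : ℝ) := Nat.cast_nonneg _
  have h6 : (Nat.log 2 B : ℝ) * 0.6931 ≤ (Nat.log 2 B : ℝ) * Real.log 2 :=
    mul_le_mul_of_nonneg_left hl2.le hNL0
  linarith

/-- Erdős' conjecture: `N(b) ≪ log log b`. -/
theorem erdos_loglog : ∃ (C : ℝ) (b₀ : ℕ), ∀ b : ℕ, b₀ ≤ b → ∀ a : ℕ, 1 ≤ a → a < b →
    ∃ s : Finset ℕ, (∀ n ∈ s, 2 ≤ n) ∧
      (∑ n ∈ s, (1 : ℚ) / (n : ℚ)) = (a : ℚ) / (b : ℚ) ∧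
      (s.card : ℝ) ≤ C * Real.log (Real.log (b : ℝ)) := by
  classical
  obtain ⟨C₀, T₀, hmain⟩ := main_step
  refine ⟨(4 * C₀ + 4) + (10 * C₀ + 15), max 16 (2 ^ (T₀ + 1)), ?_⟩
  intro b hb a ha hab
  have hb16 : 16 ≤ b := le_trans (le_max_left _ _) hb
  have hbT : 2 ^ (T₀ + 1) ≤ b := le_trans (le_max_right _ _) hb
  obtain ⟨B, hB⟩ : ∃ B, B = Nat.clog 2 b := ⟨_, rfl⟩
  obtain ⟨hB1, hlogB, hLL⟩ := log_estimate b B hb16 hB
  have hbB : b ≤ 2 ^ B := by rw [hB]; exact Nat.le_pow_clog (by norm_num) b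
  have hTB : T₀ + 1 ≤ B := by
    by_contra hc
    push Not at hc
    have h1 : 2 ^ B ≤ 2 ^ T₀ := Nat.pow_le_pow_right (by norm_num) (by omega)
    have h2 : 2 ^ (T₀ + 1) = 2 * 2 ^ T₀ := by ring
    have h3 : 0 < 2 ^ T₀ := by positivity
    omega
  have hLL0 : (0 : ℝ) < Real.log (Real.log (b : ℝ)) := by linarith
  have hC0 : (0 : ℝ) ≤ (C₀ : ℝ) := Nat.cast_nonneg _
  -- the bound
  have hgoal : ∀ n : ℕ, (n : ℝ) ≤ (C₀ : ℝ) * ((Nat.log 2 B : ℝ) + 10) + (Nat.log 2 B : ℝ) + 15 →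
      (n : ℝ) ≤ ((4 * C₀ + 4) + (10 * C₀ + 15)) * Real.log (Real.log (b : ℝ)) := by
    intro n hn
    have h1 : (C₀ : ℝ) * ((Nat.log 2 B : ℝ) + 10) ≤ (C₀ : ℝ) * (4 * Real.log (Real.log (b : ℝ)) + 10) :=
      mul_le_mul_of_nonneg_left (by linarith) hC0
    have h2 : (10 * (C₀ : ℝ)) ≤ 10 * (C₀ : ℝ) * Real.log (Real.log (b : ℝ)) :=
      le_mul_of_one_le_right (by positivity) hLL
    nlinarith
  rcases greedy_phase a b B (by omega) hab hbB hB1 with ⟨G, h1, h2, h3⟩ | ⟨G, u, v, A, h1, h2, h3, hu, hcop, huB, hlow, hup, hA1, hA2⟩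
  · refine ⟨G, h1, h2, hgoal _ ?_⟩
    have h4 : (G.card : ℝ) ≤ (Nat.log 2 B : ℝ) + 12 := by exact_mod_cast h3
    have h5 : (0 : ℝ) ≤ (C₀ : ℝ) * ((Nat.log 2 B : ℝ) + 10) := by positivity
    linarith
  · obtain ⟨T, hT⟩ : ∃ T, T = (7 * A + 1) / 2 := ⟨_, rfl⟩
    have hT1 : 7 * A ≤ 2 * T := by omega
    have hT2 : 2 * T ≤ 7 * A + 1 := by omega
    have hlogle : Nat.log 2 B + 12 ≤ T := by
      have : Nat.log 2 B ≤ B := (Nat.log_lt_self 2 (by omega)).le
      omega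
    obtain ⟨F, hF1, hF2, hF3, hF4⟩ := hmain T B A u v G (by omega) hT1 hT2 hA1 hu hcop huB hlow hup h1
      (h3.trans hlogle)
    refine ⟨G ∪ F, ?_, ?_, hgoal _ ?_⟩
    · intro n hn
      rcases mem_union.mp hn with hn | hn
      · exact (h1 n hn).1
      · exact hF1 n hn
    · rw [sum_union hF4.symm, hF2, ← h2]
    · have hT3 : T ≤ 2 ^ 10 * B := by
        have h2B : 2 * T ≤ 7 * (201 * B + 3) + 1 := by omega
        omega
      have hlogT : Nat.log 2 T ≤ Nat.log 2 B + 10 := by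
        have h4 : B < 2 ^ (Nat.log 2 B + 1) := Nat.lt_pow_succ_log_self (by norm_num) B
        have h5 : T < 2 ^ (Nat.log 2 B + 11) := by
          have e : 2 ^ (Nat.log 2 B + 11) = 2 ^ 10 * 2 ^ (Nat.log 2 B + 1) := by
            rw [← pow_add]; congr 1; omega
          rw [e]
          exact lt_of_le_of_lt hT3 (Nat.mul_lt_mul_of_pos_left h4 (by norm_num))
        have h6 := Nat.log_lt_of_lt_pow (by omega) h5
        omega
      have hc : (G ∪ F).card ≤ (Nat.log 2 B + 12) + (C₀ * (Nat.log 2 B + 10) + 3) := by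
        have h4 := card_union_le G F
        have h5 : C₀ * Nat.log 2 T ≤ C₀ * (Nat.log 2 B + 10) := Nat.mul_le_mul_left _ hlogT
        omega
      have hc' : ((G ∪ F).card : ℝ) ≤ ((Nat.log 2 B + 12) + (C₀ * (Nat.log 2 B + 10) + 3) : ℕ) := by
        exact_mod_cast hc
      push_cast at hc'
      linarith

end Vale.Agent.P012F
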