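import Mathlib

/-!
# P012F T5: the greedy phase of Sylvester's algorithm with exact bookkeeping.
-/

namespace Vale.Agent.P012F

open Finset

/-- One step of the greedy algorithm with exact bookkeeping. -/
lemma greedy_step_F {u v A B : ℕ} (hu : 0 < u) (huv : u < v) (hndvd : ¬ u ∣ v) (huB : u ≤ 2 ^ B)
    (hA1 : 2 ^ A * u ≤ v) (hA2 : v < 2 ^ (A + 1) * u) :
    ∃ g u' v' A' : ℕ, 2 ≤ g ∧ v ≤ g * u ∧ 0 < u' ∧ u' < u ∧ 0 < v' ∧ Nat.Coprime u' v' ∧
      (u : ℚ) / v = 1 / g + (u' : ℚ) / v' ∧ g * u' < v' ∧ (∀ n, 1 ≤ n → n * u < v → n * u' < v') ∧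
      2 ^ A' * u' ≤ v' ∧ v' < 2 ^ (A' + 1) * u' ∧ A + 1 ≤ A' ∧ 2 * A ≤ A' ∧ A' ≤ 2 * A + B + 1 := by
  have hvpos : 0 < v := by omega
  set q := v / u with hq
  set ρ := v % u with hρ
  have hdiv : u * q + ρ = v := Nat.div_add_mod v u
  have hρpos : 0 < ρ := by
    rw [hρ]
    rcases Nat.eq_zero_or_pos (v % u) with h | h
    · exact absurd (Nat.dvd_of_mod_eq_zero h) hndvd
    · exact h
  have hρlt : ρ < u := Nat.mod_lt _ hu
  set g := q + 1 with hg
  set u₂ := u - ρ with hu₂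
  have hu₂pos : 0 < u₂ := by omega
  have hu₂lt : u₂ < u := by omega
  have hgu : g * u = v + u₂ := by
    have h1 : g * u = u * q + u := by rw [hg]; ring
    omega
  have hvg : v ≤ g * u := by omega
  have hq1 : 1 ≤ q := by
    by_contra h
    have h0 : q = 0 := Nat.lt_one_iff.mp (not_le.mp h)
    rw [h0] at hdiv
    simp only [mul_zero, zero_add] at hdiv
    omega
  have hg2 : 2 ≤ g := by omega
  set v₂ := v * g with hv₂
  have hv₂pos : 0 < v₂ := Nat.mul_pos hvpos (by omega)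
  have hv₂u₂ : u₂ ≤ v₂ := by
    have : v ≤ v * g := Nat.le_mul_of_pos_right _ (by omega)
    omega
  set q₂ := v₂ / u₂ with hq₂
  have hq₂pos : q₂ ≠ 0 := by
    rw [hq₂]
    exact (Nat.div_pos hv₂u₂ hu₂pos).ne'
  set A' := Nat.log 2 q₂ with hA'
  have hp1 : 2 ^ A' ≤ q₂ := Nat.pow_log_le_self 2 hq₂pos
  have hp2 : q₂ < 2 ^ (A' + 1) := Nat.lt_pow_succ_log_self (by norm_num) q₂
  have hd2 : u₂ * q₂ + v₂ % u₂ = v₂ := Nat.div_add_mod v₂ u₂
  have hm2 : v₂ % u₂ < u₂ := Nat.mod_lt _ hu₂pos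
  have hB1 : 2 ^ A' * u₂ ≤ v₂ := by
    calc 2 ^ A' * u₂ ≤ q₂ * u₂ := Nat.mul_le_mul_right _ hp1
      _ = u₂ * q₂ := by ring
      _ ≤ v₂ := by omega
  have hB2 : v₂ < 2 ^ (A' + 1) * u₂ := by
    calc v₂ < u₂ * (q₂ + 1) := by
          rw [mul_add, mul_one]; omega
      _ = (q₂ + 1) * u₂ := by ring
      _ ≤ 2 ^ (A' + 1) * u₂ := Nat.mul_le_mul_right _ hp2
  -- reductions
  set d := Nat.gcd u₂ v₂ with hd
  have hdpos : 0 < d := Nat.gcd_pos_of_pos_left _ hu₂pos
  obtain ⟨u', hu'⟩ : d ∣ u₂ := Nat.gcd_dvd_left _ _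
  obtain ⟨v', hv'⟩ : d ∣ v₂ := Nat.gcd_dvd_right _ _
  have hu'pos : 0 < u' := by
    rcases Nat.eq_zero_or_pos u' with h | h
    · rw [h] at hu'; omega
    · exact h
  have hv'pos : 0 < v' := by
    rcases Nat.eq_zero_or_pos v' with h | h
    · rw [h] at hv'; omega
    · exact h
  have hcop : Nat.Coprime u' v' := by
    have := Nat.coprime_div_gcd_div_gcd (m := u₂) (n := v₂) hdpos
    rw [← hd] at this
    have e1 : u₂ / d = u' := by rw [hu']; exact Nat.mul_div_cancel_left _ hdpos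
    have e2 : v₂ / d = v' := by rw [hv']; exact Nat.mul_div_cancel_left _ hdpos
    rwa [e1, e2] at this
  have hu'le : u' ≤ u₂ := by
    rw [hu']; exact Nat.le_mul_of_pos_left _ hdpos
  -- comparison in the reduced form
  have hlt_iff : ∀ c : ℕ, c * u₂ < v₂ → c * u' < v' := by
    intro c hc
    rw [hu', hv'] at hc
    have : d * (c * u') < d * v' := by
      calc d * (c * u') = c * (d * u') := by ring
        _ < d * v' := hc
    exact Nat.lt_of_mul_lt_mul_left this
  have hle_iff : ∀ c : ℕ, c * u₂ ≤ v₂ → c * u' ≤ v' := by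
    intro c hc
    rw [hu', hv'] at hc
    have : d * (c * u') ≤ d * v' := by
      calc d * (c * u') = c * (d * u') := by ring
        _ ≤ d * v' := hc
    exact Nat.le_of_mul_le_mul_left this hdpos
  have hlt_iff' : ∀ c : ℕ, v₂ < c * u₂ → v' < c * u' := by
    intro c hc
    rw [hu', hv'] at hc
    have : d * v' < d * (c * u') := by
      calc d * v' < c * (d * u') := hc
        _ = d * (c * u') := by ring
    exact Nat.lt_of_mul_lt_mul_left this
  -- exponent bounds
  have hgA : 2 ^ A ≤ g := by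
    have : 2 ^ A * u ≤ g * u := hA1.trans hvg
    exact Nat.le_of_mul_le_mul_right this hu
  have hgA2 : g ≤ 2 ^ (A + 1) := by
    by_contra hc
    push Not at hc
    have h1 : 2 ^ (A + 1) ≤ q := by omega
    have h2 : 2 ^ (A + 1) * u ≤ q * u := Nat.mul_le_mul_right _ h1
    have h3 : q * u ≤ v := by
      calc q * u = u * q := by ring
        _ ≤ v := by omega
    omega
  refine ⟨g, u', v', A', hg2, hvg, hu'pos, by omega, hv'pos, hcop, ?_, ?_, ?_, hle_iff _ hB1, hlt_iff' _ hB2, ?_, ?_, ?_⟩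
  · -- the identity
    have hvq : (v : ℚ) ≠ 0 := by positivity
    have hgq : (g : ℚ) ≠ 0 := by
      have : 0 < g := by omega
      positivity
    have hq : (u₂ : ℚ) + v = g * u := by
      have : u₂ + v = g * u := by omega
      exact_mod_cast this
    have hv'q : (v' : ℚ) ≠ 0 := by positivity
    have hdq : (d : ℚ) ≠ 0 := by positivity
    have e1 : (u₂ : ℚ) = d * u' := by exact_mod_cast hu'
    have e2 : (v : ℚ) * g = d * v' := by
      have : v * g = d * v' := hv'
      exact_mod_cast this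
    have e3 : (u' : ℚ) / v' = (u₂ : ℚ) / ((v : ℚ) * g) := by
      rw [e1, e2, mul_div_mul_left _ _ hdq]
    rw [e3]
    field_simp
    linarith
  · -- `g u' < v'`
    apply hlt_iff
    calc g * u₂ < g * u := Nat.mul_lt_mul_of_pos_left hu₂lt (by omega)
      _ = u * g := by ring
      _ < v * g := Nat.mul_lt_mul_of_pos_right huv (by omega)
  · intro n hn hnu
    apply hlt_iff
    calc n * u₂ < n * u := Nat.mul_lt_mul_of_pos_left hu₂lt (by omega)
      _ < v := hnu
      _ ≤ v₂ := Nat.le_mul_of_pos_right _ (by omega)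
  · -- `A + 1 ≤ A'`
    by_contra hc
    push Not at hc
    have h1 : 2 ^ (A' + 1) ≤ 2 ^ (A + 1) := Nat.pow_le_pow_right (by norm_num) (by omega)
    have h2 : v₂ < 2 ^ (A + 1) * u := by
      calc v₂ < 2 ^ (A' + 1) * u₂ := hB2
        _ ≤ 2 ^ (A + 1) * u₂ := Nat.mul_le_mul_right _ h1
        _ ≤ 2 ^ (A + 1) * u := Nat.mul_le_mul_left _ hu₂lt.le
    have h3 : 2 ^ (A + 1) * u ≤ v₂ := by
      calc 2 ^ (A + 1) * u = 2 * (2 ^ A * u) := by ring
        _ ≤ 2 * v := Nat.mul_le_mul_left _ hA1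
        _ = v * 2 := by ring
        _ ≤ v * g := Nat.mul_le_mul_left _ hg2
    omega
  · -- `2 A ≤ A'`
    by_contra hc
    push Not at hc
    have h1 : 2 ^ (A' + 1) ≤ 2 ^ (2 * A) := Nat.pow_le_pow_right (by norm_num) (by omega)
    have h2 : v₂ < 2 ^ (2 * A) * u := by
      calc v₂ < 2 ^ (A' + 1) * u₂ := hB2
        _ ≤ 2 ^ (2 * A) * u₂ := Nat.mul_le_mul_right _ h1
        _ ≤ 2 ^ (2 * A) * u := Nat.mul_le_mul_left _ hu₂lt.le
    have h3 : 2 ^ (2 * A) * u ≤ v₂ := by
      calc 2 ^ (2 * A) * u = (2 ^ A * u) * 2 ^ A := by rw [two_mul, pow_add]; ring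
        _ ≤ v * g := Nat.mul_le_mul hA1 hgA
    omega
  · -- `A' ≤ 2 A + B + 1`
    by_contra hc
    push Not at hc
    have h1 : 2 ^ (2 * A + B + 2) ≤ 2 ^ A' := Nat.pow_le_pow_right (by norm_num) (by omega)
    have h2 : 2 ^ (2 * A + B + 2) ≤ v₂ := by
      calc 2 ^ (2 * A + B + 2) ≤ 2 ^ A' * 1 := by rw [mul_one]; exact h1
        _ ≤ 2 ^ A' * u₂ := Nat.mul_le_mul_left _ hu₂pos
        _ ≤ v₂ := hB1
    have h3 : v₂ < 2 ^ (2 * A + B + 2) := by
      calc v₂ = v * g := rfl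
        _ < (2 ^ (A + 1) * u) * 2 ^ (A + 1) := by
            calc v * g ≤ v * 2 ^ (A + 1) := Nat.mul_le_mul_left _ hgA2
              _ < (2 ^ (A + 1) * u) * 2 ^ (A + 1) :=
                Nat.mul_lt_mul_of_pos_right hA2 (by positivity)
        _ ≤ (2 ^ (A + 1) * 2 ^ B) * 2 ^ (A + 1) := by
            apply Nat.mul_le_mul_right
            exact Nat.mul_le_mul_left _ huB
        _ = 2 ^ (2 * A + B + 2) := by ring
    omega

/-- The loop of the greedy phase. -/
lemma greedy_loop (a b B L : ℕ) (hL : 100 * B < 2 ^ (L + 8)) :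
    ∀ (fuel : ℕ) (G : Finset ℕ) (u v A k : ℕ), 100 * B ≤ A + fuel → A < 100 * B →
      0 < u → u < v → Nat.Coprime u v → u ≤ 2 ^ B → 2 ^ A * u ≤ v → v < 2 ^ (A + 1) * u →
      (∀ n ∈ G, 2 ≤ n ∧ n * u < v) → (a : ℚ) / b = ∑ n ∈ G, (1 : ℚ) / n + (u : ℚ) / v →
      G.card ≤ k → (k = 0 ∨ 2 ^ (k - 1) ≤ A) →
    (∃ G : Finset ℕ, (∀ n ∈ G, 2 ≤ n) ∧ (∑ n ∈ G, (1 : ℚ) / n) = (a : ℚ) / b ∧
        G.card ≤ L + 12) ∨
    ∃ (G : Finset ℕ) (u v A : ℕ), (∀ n ∈ G, 2 ≤ n ∧ n * u < v) ∧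
      (a : ℚ) / b = ∑ n ∈ G, (1 : ℚ) / n + (u : ℚ) / v ∧ G.card ≤ L + 12 ∧
      0 < u ∧ Nat.Coprime u v ∧ u ≤ 2 ^ B ∧ 2 ^ A * u ≤ v ∧ v < 2 ^ (A + 1) * u ∧
      100 * B ≤ A ∧ A ≤ 201 * B + 3 := by
  intro fuel
  induction fuel with
  | zero =>
    intro G u v A k h1 h2
    omega
  | succ fuel ih =>
    intro G u v A k hfuel hAlt hu huv hcop huB hA1 hA2 hG hsum hcard hkA
    -- the number of steps so far is small
    have hkle : k ≤ L + 8 := by
      rcases hkA with h | h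
      · omega
      · by_contra hc
        push Not at hc
        have h3 : 2 ^ (L + 8) ≤ 2 ^ (k - 1) := Nat.pow_le_pow_right (by norm_num) (by omega)
        omega
    by_cases hdvd : u ∣ v
    · -- exact stop
      left
      have hu1 : u = 1 := by
        have : u ∣ Nat.gcd u v := Nat.dvd_gcd dvd_rfl hdvd
        rw [hcop] at this
        exact Nat.dvd_one.mp this
      subst hu1
      have hnot : v ∉ G := by
        intro hv
        have := (hG v hv).2
        omega
      refine ⟨insert v G, ?_, ?_, ?_⟩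
      · intro n hn
        rcases mem_insert.mp hn with rfl | hn
        · omega
        · exact (hG n hn).1
      · rw [Finset.sum_insert hnot, hsum]
        push_cast
        ring
      · have := Finset.card_insert_le v G
        omega
    · obtain ⟨g, u', v', A', hg2, hvg, hu'pos, hu'lt, hv'pos, hcop', heq, hgu', hmono, hA1', hA2',
        hA3, hA4, hA5⟩ := greedy_step_F hu huv hdvd huB hA1 hA2
      have hnot : g ∉ G := by
        intro hg
        have := (hG g hg).2
        omega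
      have hG' : ∀ n ∈ insert g G, 2 ≤ n ∧ n * u' < v' := by
        intro n hn
        rcases mem_insert.mp hn with rfl | hn
        · exact ⟨hg2, hgu'⟩
        · exact ⟨(hG n hn).1, hmono n (by have := (hG n hn).1; omega) (hG n hn).2⟩
      have hsum' : (a : ℚ) / b = ∑ n ∈ insert g G, (1 : ℚ) / n + (u' : ℚ) / v' := by
        rw [Finset.sum_insert hnot, hsum, heq]
        ring
      have hcard' : (insert g G).card ≤ k + 1 := by
        have := Finset.card_insert_le g G
        omega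
      by_cases hstop : 100 * B ≤ A'
      · right
        refine ⟨insert g G, u', v', A', hG', hsum', by omega, hu'pos, hcop', by omega, hA1', hA2',
          hstop, by omega⟩
      · push Not at hstop
        have hu'v' : u' < v' := by
          have h1 : 2 * u' ≤ g * u' := Nat.mul_le_mul_right _ hg2
          omega
        refine ih (insert g G) u' v' A' (k + 1) (by omega) hstop hu'pos hu'v' hcop' (by omega)
          hA1' hA2' hG' hsum' hcard' (Or.inr ?_)
        rcases Nat.eq_zero_or_pos k with h | hk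
        · subst h
          simp only [zero_add, Nat.sub_self, pow_zero]
          omega
        · have h : 2 ^ (k - 1) ≤ A := hkA.resolve_left (by omega)
          have e : k + 1 - 1 = (k - 1) + 1 := by omega
          rw [e, pow_succ]
          omega

/-- T5: the greedy phase. -/
theorem greedy_phase (a b B : ℕ) (ha : 0 < a) (hab : a < b) (hB : b ≤ 2 ^ B) (hB1 : 1 ≤ B) :
    (∃ G : Finset ℕ, (∀ n ∈ G, 2 ≤ n) ∧ (∑ n ∈ G, (1 : ℚ) / n) = (a : ℚ) / b ∧
        G.card ≤ Nat.log 2 B + 12) ∨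
    ∃ (G : Finset ℕ) (u v A : ℕ), (∀ n ∈ G, 2 ≤ n ∧ n * u < v) ∧
      (a : ℚ) / b = ∑ n ∈ G, (1 : ℚ) / n + (u : ℚ) / v ∧ G.card ≤ Nat.log 2 B + 12 ∧
      0 < u ∧ Nat.Coprime u v ∧ u ≤ 2 ^ B ∧ 2 ^ A * u ≤ v ∧ v < 2 ^ (A + 1) * u ∧
      100 * B ≤ A ∧ A ≤ 201 * B + 3 := by
  set L := Nat.log 2 B with hL
  have hL' : 100 * B < 2 ^ (L + 8) := by
    have h1 : B < 2 ^ (L + 1) := Nat.lt_pow_succ_log_self (by norm_num) B
    have h2 : 2 ^ (L + 8) = 128 * 2 ^ (L + 1) := by
      rw [show L + 8 = (L + 1) + 7 by omega, pow_add]; ring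
    omega
  have hbpos : 0 < b := by omega
  set d := Nat.gcd a b with hd
  have hdpos : 0 < d := Nat.gcd_pos_of_pos_left _ ha
  obtain ⟨u, hu⟩ : d ∣ a := Nat.gcd_dvd_left _ _
  obtain ⟨v, hv⟩ : d ∣ b := Nat.gcd_dvd_right _ _
  have hupos : 0 < u := by
    rcases Nat.eq_zero_or_pos u with h | h
    · rw [h] at hu; omega
    · exact h
  have hvpos : 0 < v := by
    rcases Nat.eq_zero_or_pos v with h | h
    · rw [h] at hv; omega
    · exact h
  have hcop : Nat.Coprime u v := by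
    have := Nat.coprime_div_gcd_div_gcd (m := a) (n := b) hdpos
    rw [← hd] at this
    have e1 : a / d = u := by rw [hu]; exact Nat.mul_div_cancel_left _ hdpos
    have e2 : b / d = v := by rw [hv]; exact Nat.mul_div_cancel_left _ hdpos
    rwa [e1, e2] at this
  have huv : u < v := by
    rw [hu, hv] at hab
    exact Nat.lt_of_mul_lt_mul_left hab
  have hvle : v ≤ b := by
    rw [hv]; exact Nat.le_mul_of_pos_left _ hdpos
  have hule : u ≤ 2 ^ B := by
    have : u ≤ v := huv.le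
    omega
  have hqpos : v / u ≠ 0 := (Nat.div_pos huv.le hupos).ne'
  set A := Nat.log 2 (v / u) with hA
  have hp1 : 2 ^ A ≤ v / u := Nat.pow_log_le_self 2 hqpos
  have hp2 : v / u < 2 ^ (A + 1) := Nat.lt_pow_succ_log_self (by norm_num) _
  have hd2 : u * (v / u) + v % u = v := Nat.div_add_mod v u
  have hm2 : v % u < u := Nat.mod_lt _ hupos
  have hB1' : 2 ^ A * u ≤ v := by
    calc 2 ^ A * u ≤ (v / u) * u := Nat.mul_le_mul_right _ hp1
      _ = u * (v / u) := by ring
      _ ≤ v := by omega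
  have hB2' : v < 2 ^ (A + 1) * u := by
    calc v < u * (v / u + 1) := by
          rw [mul_add, mul_one]; omega
      _ = (v / u + 1) * u := by ring
      _ ≤ 2 ^ (A + 1) * u := Nat.mul_le_mul_right _ hp2
  have hAB : A < 100 * B := by
    by_contra hc
    push Not at hc
    have h1 : 2 ^ (100 * B) ≤ 2 ^ A := Nat.pow_le_pow_right (by norm_num) hc
    have h2 : 2 ^ B < 2 ^ (100 * B) := Nat.pow_lt_pow_right (by norm_num) (by omega)
    have h3 : 2 ^ A * 1 ≤ 2 ^ A * u := Nat.mul_le_mul_left _ hupos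
    omega
  have hsum : (a : ℚ) / b = ∑ n ∈ (∅ : Finset ℕ), (1 : ℚ) / n + (u : ℚ) / v := by
    have hdq : (d : ℚ) ≠ 0 := by positivity
    have e1 : (a : ℚ) = d * u := by exact_mod_cast hu
    have e2 : (b : ℚ) = d * v := by exact_mod_cast hv
    rw [e1, e2, mul_div_mul_left _ _ hdq]
    simp
  exact greedy_loop a b B L hL' (100 * B) ∅ u v A 0 (by omega) hAB hupos huv hcop hule hB1' hB2'
    (by simp) hsum (by simp) (Or.inl rfl)

end Vale.Agent.P012F
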