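import Vale.Agent.P012F.Defs

namespace Vale.Agent.P012F
open Finset
open scoped ComplexConjugate

/-! ### Basic properties of `ee` -/

lemma ee_add (a b : ℝ) : ee (a + b) = ee a * ee b := by
  unfold ee
  rw [← Complex.exp_add]
  congr 1
  push_cast
  ring

lemma ee_zero : ee 0 = 1 := by simp [ee]

lemma norm_ee (a : ℝ) : ‖ee a‖ = 1 := by
  unfold ee
  have : (2 * (Real.pi : ℂ) * Complex.I * (a : ℂ)) = ((2 * Real.pi * a : ℝ) : ℂ) * Complex.I := by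
    push_cast; ring
  rw [this, Complex.norm_exp_ofReal_mul_I]

lemma conj_ee (a : ℝ) : conj (ee a) = ee (-a) := by
  have h1 : ee a * conj (ee a) = 1 := by
    rw [Complex.mul_conj, Complex.normSq_eq_norm_sq, norm_ee]; simp
  have h2 : ee a * ee (-a) = 1 := by rw [← ee_add]; simp [ee_zero]
  have h3 : ee a ≠ 0 := by
    intro h; have := norm_ee a; rw [h] at this; simp at this
  exact mul_left_cancel₀ h3 (h1.trans h2.symm)

lemma ee_int (n : ℤ) : ee (n : ℝ) = 1 := by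
  unfold ee
  have : (2 * (Real.pi : ℂ) * Complex.I * ((n : ℝ) : ℂ)) = (n : ℂ) * (2 * Real.pi * Complex.I) := by
    push_cast; ring
  rw [this, Complex.exp_int_mul_two_pi_mul_I]

/-- The geometric sum `G(t) = ∑_{j<K} e(j t)`. -/
noncomputable def GG (K : ℕ) (t : ℝ) : ℂ := ∑ j ∈ range K, ee ((j : ℝ) * t)

lemma conj_GG (K : ℕ) (t : ℝ) : conj (GG K t) = GG K (-t) := by
  unfold GG
  rw [map_sum]
  refine Finset.sum_congr rfl fun j _ => ?_
  rw [conj_ee]; congr 1; ring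

lemma norm_GG_neg (K : ℕ) (t : ℝ) : ‖GG K (-t)‖ = ‖GG K t‖ := by
  rw [← conj_GG, Complex.norm_conj]

lemma norm_GG_le (K : ℕ) (t : ℝ) : ‖GG K t‖ ≤ K := by
  unfold GG
  refine (norm_sum_le _ _).trans ?_
  simp [norm_ee]

lemma sum4_comm {α β γ δ : Type*} (s : Finset α) (t : Finset β) (u : Finset γ) (v : Finset δ)
    (A : α → β → γ → δ → ℂ) :
    ∑ a ∈ s, ∑ b ∈ t, ∑ c ∈ u, ∑ d ∈ v, A a b c d = ∑ c ∈ u, ∑ d ∈ v, ∑ a ∈ s, ∑ b ∈ t, A a b c d := by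
  calc ∑ a ∈ s, ∑ b ∈ t, ∑ c ∈ u, ∑ d ∈ v, A a b c d
      = ∑ a ∈ s, ∑ c ∈ u, ∑ b ∈ t, ∑ d ∈ v, A a b c d :=
        Finset.sum_congr rfl fun a _ => Finset.sum_comm
    _ = ∑ c ∈ u, ∑ a ∈ s, ∑ b ∈ t, ∑ d ∈ v, A a b c d := Finset.sum_comm
    _ = ∑ c ∈ u, ∑ a ∈ s, ∑ d ∈ v, ∑ b ∈ t, A a b c d :=
        Finset.sum_congr rfl fun c _ => Finset.sum_congr rfl fun a _ => Finset.sum_comm
    _ = ∑ c ∈ u, ∑ d ∈ v, ∑ a ∈ s, ∑ b ∈ t, A a b c d :=
        Finset.sum_congr rfl fun c _ => Finset.sum_comm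

/-- Key expansion of the quadratic form. -/
lemma sum_sq_expand {ι : Type*} (F : Finset ι) (c : ι → ℂ) (x : ι → ℝ) (K : ℕ) :
    (((∑ j ∈ range K, ∑ j' ∈ range K,
        ‖∑ f ∈ F, c f * ee (((j + j' : ℕ) : ℝ) * x f)‖ ^ 2 : ℝ)) : ℂ)
      = ∑ f ∈ F, ∑ g ∈ F, c f * conj (c g) * (GG K (x f - x g)) ^ 2 := by
  have h1 : ∀ n : ℕ, (((‖∑ f ∈ F, c f * ee ((n : ℝ) * x f)‖ ^ 2 : ℝ)) : ℂ)
      = ∑ f ∈ F, ∑ g ∈ F, c f * conj (c g) * ee ((n : ℝ) * (x f - x g)) := by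
    intro n
    have := Complex.mul_conj' (∑ f ∈ F, c f * ee ((n : ℝ) * x f))
    push_cast
    rw [← this, map_sum, Finset.sum_mul_sum]
    refine Finset.sum_congr rfl fun f _ => Finset.sum_congr rfl fun g _ => ?_
    rw [map_mul, conj_ee]
    have : ((n : ℝ) * (x f - x g)) = (n : ℝ) * x f + (-((n : ℝ) * x g)) := by ring
    rw [this, ee_add]
    ring
  have h2 : ∀ (t : ℝ), GG K t ^ 2 = ∑ j ∈ range K, ∑ j' ∈ range K, ee (((j + j' : ℕ) : ℝ) * t) := by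
    intro t
    unfold GG
    rw [sq, Finset.sum_mul_sum]
    refine Finset.sum_congr rfl fun j _ => Finset.sum_congr rfl fun j' _ => ?_
    rw [← ee_add]; congr 1; push_cast; ring
  push_cast
  simp_rw [h2]
  have h1' : ∀ j j' : ℕ, ((‖∑ f ∈ F, c f * ee (((j : ℝ) + (j' : ℝ)) * x f)‖ : ℂ) ^ 2)
      = ∑ f ∈ F, ∑ g ∈ F, c f * conj (c g) * ee (((j + j' : ℕ) : ℝ) * (x f - x g)) := by
    intro j j'
    have := h1 (j + j')
    push_cast at this ⊢
    exact this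
  simp_rw [h1', Finset.mul_sum]
  exact sum4_comm _ _ _ _ _

/-- Schur test for the quadratic form. -/
lemma quad_bound {ι : Type*} (F : Finset ι) (c : ι → ℂ) (x : ι → ℝ) (K : ℕ) (B : ℝ)
    (hB : ∀ f ∈ F, ∑ g ∈ F, ‖GG K (x f - x g)‖ ^ 2 ≤ B) :
    (∑ j ∈ range K, ∑ j' ∈ range K, ‖∑ f ∈ F, c f * ee (((j + j' : ℕ) : ℝ) * x f)‖ ^ 2)
      ≤ (∑ f ∈ F, ‖c f‖ ^ 2) * B := by
  set R : ℝ := ∑ j ∈ range K, ∑ j' ∈ range K, ‖∑ f ∈ F, c f * ee (((j + j' : ℕ) : ℝ) * x f)‖ ^ 2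
    with hR
  have hexp := sum_sq_expand F c x K
  rw [← hR] at hexp
  have h1 : R ≤ ‖((R : ℝ) : ℂ)‖ := by
    rw [Complex.norm_real]; exact le_abs_self R
  have h2 : ‖∑ f ∈ F, ∑ g ∈ F, c f * conj (c g) * (GG K (x f - x g)) ^ 2‖
      ≤ ∑ f ∈ F, ∑ g ∈ F, ‖c f‖ * ‖c g‖ * ‖GG K (x f - x g)‖ ^ 2 := by
    refine (norm_sum_le _ _).trans (Finset.sum_le_sum fun f _ => ?_)
    refine (norm_sum_le _ _).trans (Finset.sum_le_sum fun g _ => ?_)
    rw [norm_mul, norm_mul, Complex.norm_conj, norm_pow]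
  have h3 : ∑ f ∈ F, ∑ g ∈ F, ‖c f‖ * ‖c g‖ * ‖GG K (x f - x g)‖ ^ 2
      ≤ ∑ f ∈ F, ∑ g ∈ F, (1 / 2 * ‖c f‖ ^ 2 * ‖GG K (x f - x g)‖ ^ 2
          + 1 / 2 * ‖c g‖ ^ 2 * ‖GG K (x g - x f)‖ ^ 2) := by
    refine Finset.sum_le_sum fun f _ => Finset.sum_le_sum fun g _ => ?_
    have e : ‖GG K (x g - x f)‖ = ‖GG K (x f - x g)‖ := by
      rw [← neg_sub, norm_GG_neg]
    rw [e]
    have : 0 ≤ ‖GG K (x f - x g)‖ ^ 2 := by positivity
    nlinarith [mul_nonneg this (sq_nonneg (‖c f‖ - ‖c g‖))]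
  have h4 : ∑ f ∈ F, ∑ g ∈ F, (1 / 2 * ‖c f‖ ^ 2 * ‖GG K (x f - x g)‖ ^ 2
          + 1 / 2 * ‖c g‖ ^ 2 * ‖GG K (x g - x f)‖ ^ 2)
      = 1 / 2 * ∑ f ∈ F, ‖c f‖ ^ 2 * ∑ g ∈ F, ‖GG K (x f - x g)‖ ^ 2
        + 1 / 2 * ∑ f ∈ F, ‖c f‖ ^ 2 * ∑ g ∈ F, ‖GG K (x f - x g)‖ ^ 2 := by
    simp_rw [Finset.sum_add_distrib]
    congr 1
    · rw [Finset.mul_sum]
      refine Finset.sum_congr rfl fun f _ => ?_
      rw [Finset.mul_sum, Finset.mul_sum]
      refine Finset.sum_congr rfl fun g _ => ?_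
      ring
    · rw [Finset.sum_comm, Finset.mul_sum]
      refine Finset.sum_congr rfl fun f _ => ?_
      rw [Finset.mul_sum, Finset.mul_sum]
      refine Finset.sum_congr rfl fun g _ => ?_
      ring
  have h5 : ∑ f ∈ F, ‖c f‖ ^ 2 * ∑ g ∈ F, ‖GG K (x f - x g)‖ ^ 2 ≤ (∑ f ∈ F, ‖c f‖ ^ 2) * B := by
    rw [Finset.sum_mul]
    refine Finset.sum_le_sum fun f hf => ?_
    exact mul_le_mul_of_nonneg_left (hB f hf) (by positivity)
  rw [hexp] at h1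
  linarith

/-- The weight of `j + j'` dominates. -/
lemma weight_bound (X : ℕ) (g : ℕ → ℝ) (hg : ∀ n, 0 ≤ g n) :
    ((X : ℝ) + 1) * ∑ s ∈ range (X + 1), g (s + X + 1)
      ≤ ∑ j ∈ range (2 * X + 2), ∑ j' ∈ range (2 * X + 2), g (j + j') := by
  have h1 : ∀ i ∈ range (X + 1), ∑ s ∈ range (X + 1), g (s + X + 1)
      ≤ ∑ j ∈ range (2 * X + 2), g (j + (i + 1)) := by
    intro i hi
    have hi' : i ≤ X := by simpa [Nat.lt_succ_iff] using hi
    have himg : ∑ s ∈ range (X + 1), g (s + X + 1)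
        = ∑ j ∈ (range (X + 1)).image (fun s => s + X - i), g (j + (i + 1)) := by
      rw [Finset.sum_image]
      · refine Finset.sum_congr rfl fun s _ => ?_
        congr 1
        omega
      · intro a _ b _ hab
        simp only at hab
        omega
    rw [himg]
    refine Finset.sum_le_sum_of_subset_of_nonneg ?_ (fun _ _ _ => hg _)
    intro j hj
    simp only [mem_image, mem_range] at hj ⊢
    obtain ⟨s, hs, rfl⟩ := hj
    omega
  have h2 : ∑ i ∈ range (X + 1), ∑ s ∈ range (X + 1), g (s + X + 1)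
      ≤ ∑ i ∈ range (X + 1), ∑ j ∈ range (2 * X + 2), g (j + (i + 1)) :=
    Finset.sum_le_sum h1
  have h3 : ∑ i ∈ range (X + 1), ∑ j ∈ range (2 * X + 2), g (j + (i + 1))
      ≤ ∑ j' ∈ range (2 * X + 2), ∑ j ∈ range (2 * X + 2), g (j + j') := by
    have himg : ∑ i ∈ range (X + 1), ∑ j ∈ range (2 * X + 2), g (j + (i + 1))
        = ∑ j' ∈ (range (X + 1)).image (fun i => i + 1), ∑ j ∈ range (2 * X + 2), g (j + j') := by
      rw [Finset.sum_image]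
      intro a _ b _ hab
      simpa using hab
    rw [himg]
    refine Finset.sum_le_sum_of_subset_of_nonneg ?_
      (fun _ _ _ => Finset.sum_nonneg fun _ _ => hg _)
    intro j hj
    simp only [mem_image, mem_range] at hj ⊢
    obtain ⟨s, hs, rfl⟩ := hj
    omega
  rw [Finset.sum_const, Finset.card_range, nsmul_eq_mul] at h2
  have h4 : ∑ j' ∈ range (2 * X + 2), ∑ j ∈ range (2 * X + 2), g (j + j')
      = ∑ j ∈ range (2 * X + 2), ∑ j' ∈ range (2 * X + 2), g (j + j') := Finset.sum_comm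
  push_cast at h2
  linarith

/-- Abstract dual large sieve: spacing enters only through the kernel bound `B`. -/
theorem abstract_ls {ι : Type*} (F : Finset ι) (x : ι → ℝ) (S : Finset ℕ) (X : ℕ)
    (hS : ∀ s ∈ S, s ≤ X) (B : ℝ) (hB0 : 0 ≤ B)
    (hB : ∀ f ∈ F, ∑ g ∈ F, ‖GG (2 * X + 2) (x f - x g)‖ ^ 2 ≤ B) :
    ((X : ℝ) + 1) * (∑ f ∈ F, ‖hat S (x f)‖ ^ 2) ≤ (S.card : ℝ) * B := by
  set A : ℝ := ∑ f ∈ F, ‖hat S (x f)‖ ^ 2 with hA
  have hA0 : 0 ≤ A := Finset.sum_nonneg fun _ _ => by positivity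
  -- the dual coefficients
  set c : ι → ℂ := fun f => conj (hat S (x f)) * ee (-(((X + 1 : ℕ) : ℝ) * x f)) with hc
  have hcn : ∀ f, ‖c f‖ = ‖hat S (x f)‖ := by
    intro f; simp [hc, norm_ee]
  set D : ℕ → ℂ := fun n => ∑ f ∈ F, c f * ee ((n : ℝ) * x f) with hD
  have hDs : ∀ s : ℕ, D (s + X + 1) = ∑ f ∈ F, conj (hat S (x f)) * ee ((s : ℝ) * x f) := by
    intro s
    simp only [hD, hc]
    refine Finset.sum_congr rfl fun f _ => ?_
    rw [mul_assoc, ← ee_add]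
    congr 2
    push_cast
    ring
  -- duality
  have hdual : ((A : ℝ) : ℂ) = ∑ s ∈ S, D (s + X + 1) := by
    simp_rw [hDs]
    rw [Finset.sum_comm, hA]
    push_cast
    refine Finset.sum_congr rfl fun f _ => ?_
    rw [← Finset.mul_sum]
    have := Complex.mul_conj' (hat S (x f))
    rw [← this, mul_comm]
    rfl
  have hA1 : A ≤ ∑ s ∈ S, ‖D (s + X + 1)‖ := by
    have : A = ‖((A : ℝ) : ℂ)‖ := by rw [Complex.norm_real, Real.norm_of_nonneg hA0]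
    rw [this, hdual]
    exact norm_sum_le _ _
  have hCS : (∑ s ∈ S, ‖D (s + X + 1)‖) ^ 2 ≤ (S.card : ℝ) * ∑ s ∈ S, ‖D (s + X + 1)‖ ^ 2 :=
    sq_sum_le_card_mul_sum_sq
  have hext : ∑ s ∈ S, ‖D (s + X + 1)‖ ^ 2 ≤ ∑ s ∈ range (X + 1), ‖D (s + X + 1)‖ ^ 2 := by
    refine Finset.sum_le_sum_of_subset_of_nonneg ?_ (fun _ _ _ => by positivity)
    intro s hs
    simpa [Nat.lt_succ_iff] using hS s hs
  have hw := weight_bound X (fun n => ‖D n‖ ^ 2) (fun n => by positivity)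
  have hq := quad_bound F c x (2 * X + 2) B hB
  have hcA : ∑ f ∈ F, ‖c f‖ ^ 2 = A := by
    rw [hA]; exact Finset.sum_congr rfl fun f _ => by rw [hcn]
  rw [hcA] at hq
  have hq' : ∑ j ∈ range (2 * X + 2), ∑ j' ∈ range (2 * X + 2), ‖D (j + j')‖ ^ 2 ≤ A * B := hq
  have hX : (0 : ℝ) < (X : ℝ) + 1 := by positivity
  have hcard : (0 : ℝ) ≤ S.card := by positivity
  have hmain : ((X : ℝ) + 1) * A ^ 2 ≤ (S.card : ℝ) * (A * B) := by
    have h1 : A ^ 2 ≤ (S.card : ℝ) * ∑ s ∈ range (X + 1), ‖D (s + X + 1)‖ ^ 2 := by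
      calc A ^ 2 ≤ (∑ s ∈ S, ‖D (s + X + 1)‖) ^ 2 := by gcongr
        _ ≤ (S.card : ℝ) * ∑ s ∈ S, ‖D (s + X + 1)‖ ^ 2 := hCS
        _ ≤ _ := by gcongr
    have h2 : ((X : ℝ) + 1) * ∑ s ∈ range (X + 1), ‖D (s + X + 1)‖ ^ 2 ≤ A * B :=
      hw.trans hq'
    calc ((X : ℝ) + 1) * A ^ 2
        ≤ ((X : ℝ) + 1) * ((S.card : ℝ) * ∑ s ∈ range (X + 1), ‖D (s + X + 1)‖ ^ 2) := by gcongr
      _ = (S.card : ℝ) * (((X : ℝ) + 1) * ∑ s ∈ range (X + 1), ‖D (s + X + 1)‖ ^ 2) := by ring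
      _ ≤ (S.card : ℝ) * (A * B) := by gcongr
  by_cases hA00 : A = 0
  · rw [hA00, mul_zero]
    positivity
  · have hApos : 0 < A := lt_of_le_of_ne hA0 (Ne.symm hA00)
    have : A * (((X : ℝ) + 1) * A) ≤ A * ((S.card : ℝ) * B) := by nlinarith
    exact le_of_mul_le_mul_left this hApos

/-! ### Spacing: the kernel bound -/

lemma norm_ee_sub_one (y : ℝ) : ‖ee y - 1‖ = ‖2 * Real.sin (Real.pi * y)‖ := by
  have := Complex.norm_exp_I_mul_ofReal_sub_one (2 * Real.pi * y)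
  have h2 : (Complex.I * ((2 * Real.pi * y : ℝ) : ℂ)) = 2 * (Real.pi : ℂ) * Complex.I * (y : ℂ) := by
    push_cast; ring
  rw [h2] at this
  unfold ee
  rw [this]
  congr 3
  ring

lemma sin_lower (y : ℝ) (h0 : 0 ≤ y) (h1 : y ≤ 1) : 2 * min y (1 - y) ≤ Real.sin (Real.pi * y) := by
  have hpi := Real.pi_pos
  rcases le_total y (1 / 2) with h | h
  · have := Real.mul_le_sin (x := Real.pi * y) (by positivity) (by nlinarith)
    have e : 2 / Real.pi * (Real.pi * y) = 2 * y := by field_simp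
    rw [e] at this
    exact (mul_le_mul_of_nonneg_left (min_le_left _ _) (by norm_num)).trans this
  · have := Real.mul_le_sin (x := Real.pi * (1 - y)) (by nlinarith [sub_nonneg.mpr h1]) (by nlinarith)
    have e : 2 / Real.pi * (Real.pi * (1 - y)) = 2 * (1 - y) := by field_simp
    rw [e] at this
    have e2 : Real.sin (Real.pi * (1 - y)) = Real.sin (Real.pi * y) := by
      have : Real.pi * (1 - y) = Real.pi - Real.pi * y := by ring
      rw [this, Real.sin_pi_sub]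
    rw [e2] at this
    exact (mul_le_mul_of_nonneg_left (min_le_right _ _) (by norm_num)).trans this

lemma ee_fract (t : ℝ) : ee (Int.fract t) = ee t := by
  have : t = Int.fract t + (⌊t⌋ : ℝ) := (Int.fract_add_floor t).symm
  conv_rhs => rw [this]
  rw [ee_add, ee_int, mul_one]

lemma ee_sub_one_lower (t : ℝ) :
    4 * min (Int.fract t) (1 - Int.fract t) ≤ ‖ee t - 1‖ := by
  rw [← ee_fract, norm_ee_sub_one]
  have h0 := Int.fract_nonneg t
  have h1 := (Int.fract_lt_one t).le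
  have := sin_lower _ h0 h1
  rw [norm_mul, Real.norm_eq_abs, Real.norm_eq_abs]
  have h3 : |(2 : ℝ)| = 2 := by norm_num
  rw [h3]
  have := le_abs_self (Real.sin (Real.pi * Int.fract t))
  linarith

lemma GG_mul (K : ℕ) (t : ℝ) : GG K t * (ee t - 1) = ee ((K : ℝ) * t) - 1 := by
  unfold GG
  have := geom_sum_mul (ee t) K
  have hpow : ∀ j : ℕ, ee t ^ j = ee ((j : ℝ) * t) := by
    intro j
    induction j with
    | zero => simp [ee_zero]
    | succ n ih =>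
      rw [pow_succ, ih, ← ee_add]; congr 1; push_cast; ring
  simp_rw [hpow] at this
  exact this

lemma norm_GG_sq_le (K : ℕ) (t : ℝ) (h : 0 < min (Int.fract t) (1 - Int.fract t)) :
    ‖GG K t‖ ^ 2 ≤ 1 / 4 * (1 / (Int.fract t) ^ 2 + 1 / (1 - Int.fract t) ^ 2) := by
  set y := Int.fract t with hy
  have hy0 : 0 < y := lt_of_lt_of_le h (min_le_left _ _)
  have hy1 : 0 < 1 - y := lt_of_lt_of_le h (min_le_right _ _)
  have h1 := ee_sub_one_lower t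
  have h2 : ‖GG K t‖ * ‖ee t - 1‖ ≤ 2 := by
    rw [← norm_mul, GG_mul]
    refine (norm_sub_le _ _).trans ?_
    simp [norm_ee]; norm_num
  have hmpos := h
  set μ := min y (1 - y) with hμ
  have h3 : ‖GG K t‖ * (4 * μ) ≤ 2 :=
    (mul_le_mul_of_nonneg_left h1 (norm_nonneg _)).trans h2
  have h4 : ‖GG K t‖ ≤ 1 / (2 * μ) := by
    rw [le_div_iff₀ (by positivity)]
    nlinarith
  have h5 : ‖GG K t‖ ^ 2 ≤ (1 / (2 * μ)) ^ 2 := by gcongr
  refine h5.trans ?_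
  have h6 : (1 / (2 * μ)) ^ 2 = 1 / 4 * (1 / μ ^ 2) := by field_simp; norm_num
  rw [h6]
  gcongr ?_ * ?_
  rcases min_choice y (1 - y) with h7 | h7
  · rw [hμ, h7]
    have : 0 ≤ 1 / (1 - y) ^ 2 := by positivity
    linarith
  · rw [hμ, h7]
    have : 0 ≤ 1 / y ^ 2 := by positivity
    linarith

lemma sum_inv_sq_succ_le (n : ℕ) :
    ∑ b ∈ Finset.Icc 1 (n + 1), (1 : ℝ) / (b : ℝ) ^ 2 ≤ 2 - 1 / ((n : ℝ) + 1) := by
  induction n with
  | zero => simp; norm_num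
  | succ n ih =>
    rw [Finset.sum_Icc_succ_top (by omega)]
    have h1 : (0 : ℝ) < (n : ℝ) + 1 := by positivity
    have h2 : (1 : ℝ) / (((n + 1 + 1 : ℕ) : ℝ)) ^ 2 ≤ 1 / ((n : ℝ) + 1) - 1 / ((n : ℝ) + 1 + 1) := by
      push_cast
      rw [div_sub_div _ _ (by positivity) (by positivity), div_le_div_iff₀ (by positivity) (by positivity)]
      nlinarith
    push_cast at ih h2 ⊢
    linarith

lemma sum_inv_sq_le (n : ℕ) : ∑ b ∈ Finset.Icc 1 n, (1 : ℝ) / (b : ℝ) ^ 2 ≤ 2 := by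
  cases n with
  | zero => simp
  | succ n =>
    refine (sum_inv_sq_succ_le n).trans ?_
    have : (0 : ℝ) ≤ 1 / ((n : ℝ) + 1) := by positivity
    linarith

lemma sum_inv_sq_inj {ι : Type*} (A : Finset ι) (φ : ι → ℕ) (n : ℕ)
    (hinj : Set.InjOn φ A) (hmem : ∀ g ∈ A, φ g ∈ Finset.Icc 1 n) :
    ∑ g ∈ A, (1 : ℝ) / (φ g : ℝ) ^ 2 ≤ 2 := by
  classical
  have h1 : ∑ g ∈ A, (1 : ℝ) / (φ g : ℝ) ^ 2 = ∑ b ∈ A.image φ, (1 : ℝ) / (b : ℝ) ^ 2 := by
    rw [Finset.sum_image hinj]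
  rw [h1]
  refine le_trans ?_ (sum_inv_sq_le n)
  refine Finset.sum_le_sum_of_subset_of_nonneg ?_ (fun _ _ _ => by positivity)
  intro b hb
  obtain ⟨g, hg, rfl⟩ := Finset.mem_image.mp hb
  exact hmem g hg

/-- Spacing gives the kernel bound. -/
theorem kernel_bound {ι : Type*} [DecidableEq ι] (F : Finset ι) (x : ι → ℝ) (Q : ℕ) (hQ : 0 < Q)
    (hsp : ∀ f ∈ F, ∀ g ∈ F, f ≠ g → ∀ n : ℤ, (1 : ℝ) / Q < |x f - x g - n|)
    (K : ℕ) (f : ι) (hf : f ∈ F) :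
    ∑ g ∈ F, ‖GG K (x f - x g)‖ ^ 2 ≤ (K : ℝ) ^ 2 + (Q : ℝ) ^ 2 := by
  have hQ' : (0 : ℝ) < Q := by exact_mod_cast hQ
  rw [← Finset.add_sum_erase F _ hf]
  have hfirst : ‖GG K (x f - x f)‖ ^ 2 ≤ (K : ℝ) ^ 2 := by
    have := norm_GG_le K (x f - x f)
    gcongr
  set A := F.erase f with hA
  set y : ι → ℝ := fun g => Int.fract (x f - x g) with hy
  set b : ι → ℕ := fun g => ⌊(Q : ℝ) * y g⌋₊ with hb
  have hy0 : ∀ g, 0 ≤ y g := fun g => Int.fract_nonneg _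
  have hy1 : ∀ g, y g < 1 := fun g => Int.fract_lt_one _
  have hygt : ∀ g ∈ A, 1 / (Q : ℝ) < y g := by
    intro g hg
    have hg' := Finset.mem_erase.mp hg
    have := hsp f hf g hg'.2 (Ne.symm hg'.1) ⌊x f - x g⌋
    have e : x f - x g - (⌊x f - x g⌋ : ℝ) = y g := rfl
    rw [e, abs_of_nonneg (hy0 g)] at this
    exact this
  have hylt : ∀ g ∈ A, 1 / (Q : ℝ) < 1 - y g := by
    intro g hg
    have hg' := Finset.mem_erase.mp hg
    have := hsp f hf g hg'.2 (Ne.symm hg'.1) (⌊x f - x g⌋ + 1)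
    have e : x f - x g - ((⌊x f - x g⌋ + 1 : ℤ) : ℝ) = -(1 - y g) := by
      simp only [hy, Int.fract]
      push_cast
      ring
    rw [e, abs_neg, abs_of_pos (by linarith [hy1 g])] at this
    exact this
  have hQy1 : ∀ g ∈ A, 1 < (Q : ℝ) * y g := by
    intro g hg
    have := hygt g hg
    rw [div_lt_iff₀ hQ'] at this
    linarith
  have hQy2 : ∀ g ∈ A, (Q : ℝ) * y g < (Q : ℝ) - 1 := by
    intro g hg
    have := hylt g hg
    rw [div_lt_iff₀ hQ'] at this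
    linarith
  have hb1 : ∀ g ∈ A, 1 ≤ b g := by
    intro g hg
    exact Nat.le_floor (by simpa using (hQy1 g hg).le)
  have hble : ∀ g, (b g : ℝ) ≤ (Q : ℝ) * y g := fun g =>
    Nat.floor_le (mul_nonneg hQ'.le (hy0 g))
  have hblt : ∀ g, (Q : ℝ) * y g < (b g : ℝ) + 1 := fun g => Nat.lt_floor_add_one _
  have hb2 : ∀ g ∈ A, b g + 2 ≤ Q := by
    intro g hg
    have h1 : (b g : ℝ) + 1 < Q := by
      have := hble g; have := hQy2 g hg; linarith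
    have h2 : b g + 1 < Q := by exact_mod_cast h1
    omega
  -- injectivity
  have hinj : Set.InjOn b A := by
    intro g hg g' hg' hbb
    by_contra hne
    have hg1 := Finset.mem_erase.mp (Finset.mem_coe.mp hg)
    have hg2 := Finset.mem_erase.mp (Finset.mem_coe.mp hg')
    have h := hsp g' hg2.2 g hg1.2 (Ne.symm hne) (⌊x f - x g⌋ - ⌊x f - x g'⌋)
    have e : x g' - x g - ((⌊x f - x g⌋ - ⌊x f - x g'⌋ : ℤ) : ℝ) = y g - y g' := by
      simp only [hy, Int.fract]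
      push_cast
      ring
    rw [e] at h
    have hbb' : (b g : ℝ) = b g' := by exact_mod_cast hbb
    have h1 := hble g; have h2 := hblt g; have h3 := hble g'; have h4 := hblt g'
    have h5 : |(Q : ℝ) * (y g - y g')| < 1 := by
      rw [abs_lt]; constructor <;> nlinarith
    rw [abs_mul, abs_of_pos hQ'] at h5
    rw [div_lt_iff₀ hQ'] at h
    linarith
  have hc1 : ∀ g ∈ A, Q - 1 - b g ∈ Finset.Icc 1 Q := by
    intro g hg
    have := hb2 g hg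
    simp only [Finset.mem_Icc]
    omega
  have hinjc : Set.InjOn (fun g => Q - 1 - b g) A := by
    intro g hg g' hg' hbb
    apply hinj hg hg'
    have h1 := hb2 g hg
    have h2 := hb2 g' hg'
    simp only at hbb
    omega
  have hS1 := sum_inv_sq_inj A b Q hinj (fun g hg => by
    have h1 := hb1 g hg
    have h2 := hb2 g hg
    simp only [Finset.mem_Icc]; omega)
  have hS2 := sum_inv_sq_inj A (fun g => Q - 1 - b g) Q hinjc hc1
  -- termwise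
  have hterm : ∀ g ∈ A, ‖GG K (x f - x g)‖ ^ 2 ≤
      (Q : ℝ) ^ 2 / 4 * ((1 : ℝ) / (b g : ℝ) ^ 2 + (1 : ℝ) / ((Q - 1 - b g : ℕ) : ℝ) ^ 2) := by
    intro g hg
    have h0 : 0 < min (y g) (1 - y g) := by
      have h1 : 0 < y g := lt_trans (by positivity) (hygt g hg)
      have h2 : 0 < 1 - y g := lt_trans (by positivity) (hylt g hg)
      exact lt_min h1 h2
    have h1 := norm_GG_sq_le K (x f - x g) h0
    refine h1.trans ?_
    have hb1' : (0 : ℝ) < b g := by exact_mod_cast hb1 g hg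
    have hb2' := hb2 g hg
    have hc : ((Q - 1 - b g : ℕ) : ℝ) = (Q : ℝ) - 1 - b g := by
      have e0 : Q - 1 - b g + (b g + 1) = Q := by omega
      have e1 : ((Q - 1 - b g : ℕ) : ℝ) + ((b g : ℝ) + 1) = (Q : ℝ) := by exact_mod_cast e0
      linarith
    have hc' : (0 : ℝ) < ((Q - 1 - b g : ℕ) : ℝ) := by
      have : 1 ≤ Q - 1 - b g := by omega
      exact_mod_cast this
    have hy2 : 0 < y g := lt_trans (by positivity) (hygt g hg)
    have hy3 : 0 < 1 - y g := lt_trans (by positivity) (hylt g hg)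
    have h2 : 1 / (y g) ^ 2 ≤ (Q : ℝ) ^ 2 * (1 / (b g : ℝ) ^ 2) := by
      rw [mul_one_div, div_le_div_iff₀ (by positivity) (by positivity)]
      have := hble g
      have h3 : (b g : ℝ) ^ 2 ≤ ((Q : ℝ) * y g) ^ 2 := by gcongr
      nlinarith
    have h3 : 1 / (1 - y g) ^ 2 ≤ (Q : ℝ) ^ 2 * (1 / ((Q - 1 - b g : ℕ) : ℝ) ^ 2) := by
      rw [mul_one_div, div_le_div_iff₀ (by positivity) (by positivity)]
      have h4 : ((Q - 1 - b g : ℕ) : ℝ) ≤ (Q : ℝ) * (1 - y g) := by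
        rw [hc]; have := hblt g; nlinarith
      have h3 : ((Q - 1 - b g : ℕ) : ℝ) ^ 2 ≤ ((Q : ℝ) * (1 - y g)) ^ 2 := by gcongr
      nlinarith
    have e : (Q : ℝ) ^ 2 / 4 * ((1 : ℝ) / (b g : ℝ) ^ 2 + (1 : ℝ) / ((Q - 1 - b g : ℕ) : ℝ) ^ 2)
      = 1 / 4 * ((Q : ℝ) ^ 2 * (1 / (b g : ℝ) ^ 2) + (Q : ℝ) ^ 2 * (1 / ((Q - 1 - b g : ℕ) : ℝ) ^ 2)) := by
      ring
    rw [e]
    linarith
  have hsum : ∑ g ∈ A, ‖GG K (x f - x g)‖ ^ 2 ≤ (Q : ℝ) ^ 2 := by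
    calc ∑ g ∈ A, ‖GG K (x f - x g)‖ ^ 2
        ≤ ∑ g ∈ A, (Q : ℝ) ^ 2 / 4 * ((1 : ℝ) / (b g : ℝ) ^ 2 + (1 : ℝ) / ((Q - 1 - b g : ℕ) : ℝ) ^ 2) :=
          Finset.sum_le_sum hterm
      _ = (Q : ℝ) ^ 2 / 4 * (∑ g ∈ A, (1 : ℝ) / (b g : ℝ) ^ 2
            + ∑ g ∈ A, (1 : ℝ) / ((Q - 1 - b g : ℕ) : ℝ) ^ 2) := by
          rw [← Finset.mul_sum, Finset.sum_add_distrib]
      _ ≤ (Q : ℝ) ^ 2 / 4 * (2 + 2) := by
          gcongr
      _ = (Q : ℝ) ^ 2 := by ring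
  linarith

/-! ### The fractions -/

/-- Distinct reduced fractions are spaced. -/
lemma fractions_spaced (M : ℕ) (m h m' h' : ℕ)
    (hm : m ∈ Ico M (2 * M)) (hh : h ∈ (range m).filter (fun h => Nat.Coprime h m))
    (hm' : m' ∈ Ico M (2 * M)) (hh' : h' ∈ (range m').filter (fun h => Nat.Coprime h m'))
    (hne : ¬ (m = m' ∧ h = h')) (n : ℤ) :
    (1 : ℝ) / ((4 * M ^ 2 : ℕ) : ℝ) < |(h : ℝ) / m - (h' : ℝ) / m' - n| := by
  simp only [mem_Ico, mem_filter, mem_range] at hm hh hm' hh'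
  have hmpos : 0 < m := by omega
  have hmpos' : 0 < m' := by omega
  have hmR : (0 : ℝ) < m := by exact_mod_cast hmpos
  have hmR' : (0 : ℝ) < m' := by exact_mod_cast hmpos'
  -- the integer `h m' - h' m - n m m'` is nonzero
  set N : ℤ := (h : ℤ) * m' - (h' : ℤ) * m - n * m * m' with hN
  have hN0 : N ≠ 0 := by
    intro h0
    -- first `n = 0`
    have hlt1 : (h : ℤ) < m := by exact_mod_cast hh.1
    have hlt2 : (h' : ℤ) < m' := by exact_mod_cast hh'.1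
    have hm1 : (0 : ℤ) < m := by exact_mod_cast hmpos
    have hm2 : (0 : ℤ) < m' := by exact_mod_cast hmpos'
    have hh0 : (0 : ℤ) ≤ h := by positivity
    have hh0' : (0 : ℤ) ≤ h' := by positivity
    have hn0 : n = 0 := by
      by_contra hn
      have hn' : n ≤ -1 ∨ 1 ≤ n := by omega
      rcases hn' with hn' | hn'
      · have : n * m * m' ≤ -1 * m * m' := by
          have : 0 < (m : ℤ) * m' := by positivity
          nlinarith
        nlinarith [mul_pos hm1 hm2, mul_nonneg hh0 hm2.le, mul_lt_mul_of_pos_right hlt2 hm1]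
      · have : 1 * (m : ℤ) * m' ≤ n * m * m' := by
          have : 0 < (m : ℤ) * m' := by positivity
          nlinarith
        nlinarith [mul_pos hm1 hm2, mul_nonneg hh0' hm1.le, mul_lt_mul_of_pos_right hlt1 hm2]
    have heq : (h : ℤ) * m' = (h' : ℤ) * m := by
      rw [hN, hn0] at h0
      linarith
    have heqN : h * m' = h' * m := by exact_mod_cast heq
    have hd1 : m ∣ m' := by
      have : m ∣ h * m' := ⟨h', by rw [heqN]; ring⟩
      exact (Nat.Coprime.dvd_mul_left hh.2.symm).mp this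
    have hd2 : m' ∣ m := by
      have : m' ∣ h' * m := ⟨h, by rw [← heqN]; ring⟩
      exact (Nat.Coprime.dvd_mul_left hh'.2.symm).mp this
    have hmm : m = m' := Nat.dvd_antisymm hd1 hd2
    subst hmm
    have : h = h' := by
      exact Nat.eq_of_mul_eq_mul_right hmpos heqN
    exact hne ⟨rfl, this⟩
  have hNabs : (1 : ℝ) ≤ |(N : ℝ)| := by
    have : 1 ≤ |N| := Int.one_le_abs hN0
    exact_mod_cast this
  have he : (h : ℝ) / m - (h' : ℝ) / m' - n = (N : ℝ) / ((m : ℝ) * m') := by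
    rw [hN]
    push_cast
    field_simp
  rw [he, abs_div, abs_of_pos (by positivity : (0 : ℝ) < (m : ℝ) * m')]
  have hmm : m * m' < 4 * M ^ 2 := by
    have h1 : m < 2 * M := hm.2
    have h2 : m' < 2 * M := hm'.2
    have : m * m' < 2 * M * (2 * M) := Nat.mul_lt_mul'' h1 h2
    nlinarith
  have hmmR : (m : ℝ) * m' < ((4 * M ^ 2 : ℕ) : ℝ) := by exact_mod_cast hmm
  have hpos : (0 : ℝ) < ((4 * M ^ 2 : ℕ) : ℝ) := lt_trans (by positivity) hmmR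
  rw [div_lt_div_iff₀ hpos (by positivity)]
  nlinarith [mul_pos hmR hmR']

/-- **Large sieve** (Lemma 2 of the blueprint), in the range `M ^ 2 ≤ X`. -/
theorem large_sieve : ∃ C₁ : ℝ, 0 < C₁ ∧ ∀ (S : Finset ℕ) (X M : ℕ), (∀ s ∈ S, s ≤ X) → 1 ≤ M → M ^ 2 ≤ X →
    ∑ m ∈ Ico M (2 * M), ∑ h ∈ (range m).filter (fun h => Nat.Coprime h m),
      ‖hat S ((h : ℝ) / (m : ℝ))‖ ^ 2 ≤ C₁ * (X : ℝ) * (S.card : ℝ) := by
  refine ⟨32, by norm_num, ?_⟩
  intro S X M hS hM hMX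
  rw [Finset.sum_sigma']
  set F := (Ico M (2 * M)).sigma (fun m => (range m).filter (fun h => Nat.Coprime h m)) with hF
  set x : (Σ _ : ℕ, ℕ) → ℝ := fun p => (p.2 : ℝ) / (p.1 : ℝ) with hx
  set Q : ℕ := 4 * M ^ 2 with hQ
  have hQpos : 0 < Q := by positivity
  have hsp : ∀ f ∈ F, ∀ g ∈ F, f ≠ g → ∀ n : ℤ, (1 : ℝ) / Q < |x f - x g - n| := by
    rintro ⟨m, h⟩ hf ⟨m', h'⟩ hg hne n
    rw [hF, Finset.mem_sigma] at hf hg
    refine fractions_spaced M m h m' h' hf.1 hf.2 hg.1 hg.2 ?_ n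
    rintro ⟨rfl, rfl⟩
    exact hne rfl
  have hX1 : 1 ≤ X := by
    have : 1 ≤ M ^ 2 := Nat.one_le_pow _ _ hM
    omega
  have hXR : (1 : ℝ) ≤ X := by exact_mod_cast hX1
  have hB : ∀ f ∈ F, ∑ g ∈ F, ‖GG (2 * X + 2) (x f - x g)‖ ^ 2 ≤ 32 * (X : ℝ) ^ 2 := by
    intro f hf
    refine (kernel_bound F x Q hQpos hsp (2 * X + 2) f hf).trans ?_
    have hQX : (Q : ℝ) ≤ 4 * X := by
      have : Q ≤ 4 * X := by omega
      exact_mod_cast this
    have h1 : (Q : ℝ) ^ 2 ≤ (4 * (X : ℝ)) ^ 2 := by gcongr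
    push_cast
    nlinarith
  have hmain := abstract_ls F x S X hS (32 * (X : ℝ) ^ 2) (by positivity) hB
  have hcard : (0 : ℝ) ≤ S.card := by positivity
  have hA0 : 0 ≤ ∑ f ∈ F, ‖hat S (x f)‖ ^ 2 := Finset.sum_nonneg fun _ _ => by positivity
  have h2 : (X : ℝ) * ∑ f ∈ F, ‖hat S (x f)‖ ^ 2 ≤ (X : ℝ) * (32 * (X : ℝ) * (S.card : ℝ)) := by
    have e : (X : ℝ) * (32 * (X : ℝ) * (S.card : ℝ)) = (S.card : ℝ) * (32 * (X : ℝ) ^ 2) := by ring
    rw [e]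
    nlinarith
  have hXpos : (0 : ℝ) < X := by linarith
  exact le_of_mul_le_mul_left h2 hXpos

end Vale.Agent.P012F

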