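import Mathlib

/-!
# P012F: numeric lemmas for the parameters.
-/

namespace Vale.Agent.P012F

/-- `K * ℓ ≤ 2 ^ (ℓ - 1)` eventually. -/
theorem mul_le_two_pow_pred (K ℓ : ℕ) (h : 2 * K + 4 ≤ ℓ) : K * ℓ ≤ 2 ^ (ℓ - 1) := by
  induction ℓ, h using Nat.le_induction with
  | base =>
    have h1 : K + 2 ≤ 2 ^ (K + 1) := by
      have := Nat.lt_two_pow_self (n := K + 1)
      omega
    have h2 : K ≤ 2 ^ K := (Nat.lt_two_pow_self (n := K)).le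
    have e : 2 * K + 4 - 1 = (K + 1) + (K + 2) := by omega
    rw [e, pow_add]
    have h3 : 2 ^ (K + 2) = 4 * 2 ^ K := by ring
    rw [h3]
    nlinarith [Nat.one_le_two_pow (n := K)]
  | succ ℓ hℓ ih =>
    have e : ℓ + 1 - 1 = (ℓ - 1) + 1 := by omega
    rw [e, pow_succ]
    have h2 : K ≤ 2 ^ K := (Nat.lt_two_pow_self (n := K)).le
    have h3 : 2 ^ K ≤ 2 ^ (ℓ - 1) := Nat.pow_le_pow_right (by norm_num) (by omega)
    nlinarith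

/-- For every `K`, eventually `K * (log₂ T + 1) ≤ T`. -/
theorem exists_log_le (K : ℕ) : ∃ T₀ : ℕ, ∀ T, T₀ ≤ T → K * (Nat.log 2 T + 1) ≤ T := by
  refine ⟨2 ^ (2 * K + 4), fun T hT => ?_⟩
  have hT1 : T ≠ 0 := by
    have : 0 < 2 ^ (2 * K + 4) := by positivity
    omega
  have h1 : 2 * K + 4 ≤ Nat.log 2 T := Nat.le_log_of_pow_le (by norm_num) hT
  have h2 := mul_le_two_pow_pred K (Nat.log 2 T + 1) (by omega)
  have h3 : 2 ^ (Nat.log 2 T + 1 - 1) ≤ T := by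
    simpa using Nat.pow_log_le_self 2 hT1
  exact h2.trans h3

/-- The central numeric inequality: two family terms plus the small terms are below the sieve bound.
`a = 2^t`, `Δ ≤ 64 τ⁴ a`, `z ≥ a τ^E`, `J ≥ z`, `E = Cs + 6`, `τ ≥ 1024 C₂ + 4`. -/
theorem num_generic {C τ a z J Δ₁ Δ₂ l₁ l₂ ω : ℝ} {Cs : ℕ} (hC : 0 ≤ C) (hτ : 1024 * C + 4 ≤ τ)
    (ha : 1 ≤ a) (hz : a * τ ^ (Cs + 6) ≤ z) (hJ : z ≤ J)
    (hΔ₁ : Δ₁ ≤ 64 * τ ^ 4 * a) (hΔ₂ : Δ₂ ≤ 64 * τ ^ 4 * a) (hΔ₁0 : 0 ≤ Δ₁) (hΔ₂0 : 0 ≤ Δ₂)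
    (hl₁ : l₁ ≤ 2 * τ) (hl₂ : l₂ ≤ 2 * τ) (hl₁0 : 0 ≤ l₁) (hl₂0 : 0 ≤ l₂)
    (hω : ω ≤ τ) (hω0 : 0 ≤ ω) :
    C * Δ₁ * (J / z + l₁ + 1) + C * Δ₂ * (J / z + l₂ + 1) + ω * (J / z + 1) + 1
      ≤ J / τ ^ Cs := by
  have hτ0 : 0 < τ := by linarith
  have hτ4 : (4 : ℝ) ≤ τ := by linarith
  have hτC : 0 < τ ^ Cs := by positivity
  have hτC6 : 0 < τ ^ (Cs + 6) := by positivity
  have hz0 : 0 < z := lt_of_lt_of_le (by positivity) hz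
  have hJ0 : 0 < J := lt_of_lt_of_le hz0 hJ
  set x := J / τ ^ (Cs + 6) with hx
  have hx0 : 0 < x := by positivity
  have hJx : J = x * τ ^ (Cs + 6) := by
    rw [hx]; field_simp
  have hax : a ≤ x := by
    rw [hx, le_div_iff₀ hτC6]
    exact hz.trans hJ
  have hx1 : 1 ≤ x := ha.trans hax
  have hJz : J / z ≤ x / a := by
    rw [div_le_div_iff₀ hz0 (by linarith)]
    rw [hJx]
    have : x * τ ^ (Cs + 6) * a = x * (a * τ ^ (Cs + 6)) := by ring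
    rw [this]
    exact mul_le_mul_of_nonneg_left hz hx0.le
  have hJz0 : 0 ≤ J / z := by positivity
  have hxa : x / a ≤ x := div_le_self hx0.le ha
  have hfin : J / τ ^ Cs = x * τ ^ 6 := by
    rw [hx, pow_add]
    field_simp
  rw [hfin]
  have key : ∀ Δ l : ℝ, 0 ≤ Δ → Δ ≤ 64 * τ ^ 4 * a → 0 ≤ l → l ≤ 2 * τ →
      Δ * (J / z + l + 1) ≤ 64 * τ ^ 4 * x + 64 * τ ^ 4 * x * (2 * τ + 1) := by
    intro Δ l h0 h1 h2 h3
    have h4 : Δ * (J / z) ≤ 64 * τ ^ 4 * a * (x / a) :=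
      mul_le_mul h1 hJz hJz0 (by positivity)
    have h5 : 64 * τ ^ 4 * a * (x / a) = 64 * τ ^ 4 * x := by
      field_simp
    have h6 : Δ * (l + 1) ≤ 64 * τ ^ 4 * a * (2 * τ + 1) :=
      mul_le_mul h1 (by linarith) (by linarith) (by positivity)
    have h7 : 64 * τ ^ 4 * a * (2 * τ + 1) ≤ 64 * τ ^ 4 * x * (2 * τ + 1) := by
      apply mul_le_mul_of_nonneg_right _ (by positivity)
      exact mul_le_mul_of_nonneg_left hax (by positivity)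
    nlinarith
  have k1 := mul_le_mul_of_nonneg_left (key Δ₁ l₁ hΔ₁0 hΔ₁ hl₁0 hl₁) hC
  have k2 := mul_le_mul_of_nonneg_left (key Δ₂ l₂ hΔ₂0 hΔ₂ hl₂0 hl₂) hC
  have k3 : ω * (J / z + 1) ≤ τ * (x + x) := by
    apply mul_le_mul hω (by linarith) (by positivity) hτ0.le
  -- final polynomial inequality in `τ, x, C`
  have hτ5 : 0 < τ ^ 5 := by positivity
  have e1 : C * (64 * τ ^ 4 * x + 64 * τ ^ 4 * x * (2 * τ + 1))
      = x * (C * (128 * τ ^ 4 + 128 * τ ^ 5)) := by ring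
  have h8 : C * (128 * τ ^ 4 + 128 * τ ^ 5) ≤ C * (256 * τ ^ 5) := by
    apply mul_le_mul_of_nonneg_left _ hC
    have : τ ^ 4 ≤ τ ^ 5 := pow_le_pow_right₀ (by linarith) (by norm_num)
    linarith
  have h9 : 1024 * C * τ ^ 5 ≤ τ * τ ^ 5 - 4 * τ ^ 5 := by
    have : (1024 * C + 4) * τ ^ 5 ≤ τ * τ ^ 5 := mul_le_mul_of_nonneg_right hτ hτ5.le
    linarith
  have h10 : 2 * (C * (256 * τ ^ 5)) + 2 * τ + 1 ≤ τ ^ 6 := by
    have e : τ ^ 6 = τ * τ ^ 5 := by ring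
    have h11 : 2 * τ + 1 ≤ 3 * τ ^ 5 := by
      have h12 : τ ≤ τ ^ 5 := by
        calc τ = τ ^ 1 := by ring
          _ ≤ τ ^ 5 := pow_le_pow_right₀ (by linarith) (by norm_num)
      have h13 : 1 ≤ τ ^ 5 := one_le_pow₀ (by linarith)
      linarith
    rw [e]
    nlinarith
  have h14 : x * (C * (128 * τ ^ 4 + 128 * τ ^ 5)) ≤ x * (C * (256 * τ ^ 5)) :=
    mul_le_mul_of_nonneg_left h8 hx0.le
  have h15 : x * (2 * (C * (256 * τ ^ 5)) + 2 * τ + 1) ≤ x * τ ^ 6 :=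
    mul_le_mul_of_nonneg_left h10 hx0.le
  nlinarith

end Vale.Agent.P012F
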