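import Vale.Agent.P012F.Steps
import Vale.Agent.P012F.Numeric

/-!
# P012F: the main step.
-/

namespace Vale.Agent.P012F

open Finset

theorem Rough.coprime {z n q : ℕ} (h : Rough z n) (hq : q.Prime) (hqz : q ≤ z) :
    Nat.Coprime q n :=
  (Nat.Prime.coprime_iff_not_dvd hq).mpr (h q hq hqz)

/-- The second half of the main step, after the choice of `m`. -/
theorem main_step_b
    (Cd : ℕ)
    (T B A u₀ v₀ : ℕ)
    (G : Finset ℕ)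
    (h7A : 7 * A ≤ 2 * T)
    (h7A' : 2 * T ≤ 7 * A + 1)
    (hBA : 100 * B ≤ A)
    (hu₀ : 0 < u₀)
    (hcop : u₀.Coprime v₀)
    (hu₀B : u₀ ≤ 2 ^ B)
    (hlow : 2 ^ A * u₀ ≤ v₀)
    (hup : v₀ < 2 ^ (A + 1) * u₀)
    (hG : ∀ n ∈ G, 2 ≤ n ∧ n * u₀ < v₀)
    (hT5 : 100000 ≤ T)
    (ℓ : ℕ)
    (hℓ1 : 1 ≤ ℓ)
    (hℓ2 : T < 2 ^ ℓ)
    (hℓT : 100000 * ℓ ≤ T)
    (T' : ℕ)
    (hT'le : T' + (21 + 18 * ℓ) = T)
    (t : ℕ)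
    (i : ℕ)
    (z : ℕ)
    (J : ℕ)
    (hJ : J = 2 ^ i)
    (hi500 : 500 * i ≤ T)
    (hz₀z : z₀ ≤ z)
    (hz2 : 2 ≤ z)
    (hv₀up : v₀ ≤ 2 ^ (A + 1 + B))
    (hv₀0 : 0 < v₀)
    (p r π₀ : ℕ)
    (hp : Nat.Prime p)
    (hr : Nat.Prime r)
    (hπ : Nat.Prime π₀)
    (hr2 : r ≠ 2)
    (hrp : r ≠ p)
    (hrp3 : r ∣ p ^ 3 + 1)
    (hpv : ¬p ∣ v₀)
    (hπv : ¬π₀ ∣ v₀)
    (hπp : π₀ ≠ p)
    (hπr : π₀ ≠ r)
    (hπG : ∀ n ∈ G, ¬π₀ ∣ n)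
    (hpT : p ≤ 4 * T ^ 2)
    (hrT : r ≤ 16 * T ^ 4)
    (hπT : π₀ ≤ 64 * T ^ 4)
    (hpz : p ≤ z)
    (hrz : r ≤ z)
    (hπz : π₀ ≤ z)
    (W₀ L : ℕ)
    (S : Finset ℕ)
    (hW₀low : 2 ^ (3 * T' / 4) ≤ W₀)
    (hW₀up : W₀ ≤ 2 ^ T')
    (hL7 : 7 * T' ≤ 8 * L)
    (hL2 : L ≤ 2 * T')
    (hSd : 2 ^ L ≤ (S).card * 2 ^ t)
    (K : ℕ)
    (hSrep : ∀ s ∈ S, Rep W₀ K s)
    (hK : K = Cd * Nat.log 2 T')
    (hW₀0 : 0 < W₀)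
    (hpW₀ : ¬p ∣ W₀)
    (hrW₀ : ¬r ∣ W₀)
    (hπW₀ : ¬π₀ ∣ W₀)
    (hqW₀v₀ : W₀.Coprime v₀)
    (hτ : 1024 * C₂ + 4 ≤ (T : ℝ))
    (hTpos : (0 : ℝ) < (T : ℝ))
    (ha1 : (1 : ℝ) ≤ (2 : ℝ) ^ t)
    (hzR : (2 : ℝ) ^ t * (T : ℝ) ^ (Cs + 6) ≤ (z : ℝ))
    (hJR : (z : ℝ) ≤ (J : ℝ))
    (hJT : (J : ℝ) / (T : ℝ) ^ Cs ≤ (J : ℝ) / ((Nat.log 2 z : ℝ) ^ Cs))
    (hSX : ∀ s ∈ S, s ≤ 2 ^ L)
    (hzJ' : z ^ s₀ ≤ J)
    (m : ℕ)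
    (hmv : m.Coprime v₀)
    (hmR : Rough z m)
    (hm2 : 2 ≤ m)
    (hmW₀ : m.Coprime W₀)
    (hm2A : 2 ^ A ≤ m)
    (hmle : m ≤ 2 ^ (A + 2))
    (u : ℕ)
    (huv : u + v₀ = u₀ * m)
    (hu1 : 1 ≤ u)
    (huJ : u ≤ u₀ * J)
    (S₂ : Finset ℕ)
    (hS₂c : m * (S).card ≤ 2 * (S₂).card)
    (hS₂ : ∀ x ∈ S₂, Rep (m * W₀) (2 * K) x ∧ 1 ≤ x ∧ x ≤ 2 * m * 2 ^ L)
    (c₁ : ℕ)
    (hc₁ : c₁ < r)
    (c₂ : ℕ)
    (S₁' : Finset ℕ)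
    (hS₁c : (S).card ≤ r * (S₁').card)
    (hS₁ne : S₁'.Nonempty)
    (hS₁' : S₁' = S.filter (fun x => x % r = c₁))
    (S₂' : Finset ℕ)
    (hS₂'c : (S₂).card ≤ r * (S₂').card)
    (hS₂'ne : S₂'.Nonempty)
    (hS₂' : S₂' = S₂.filter (fun x => x % r = c₂))
    :
    ∃ F : Finset ℕ, (∀ n ∈ F, 2 ≤ n) ∧ (∑ n ∈ F, (1 : ℚ) / n) = (u₀ : ℚ) / v₀ ∧
      F.card ≤ 6 * Cd * Nat.log 2 T + 3 ∧ Disjoint F G := by
  classical
  have hC₂ := C₂_pos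
  -- `W`
  obtain ⟨w₂, hw₂⟩ : ∃ w₂ : ℕ, w₂ = if 2 ∣ v₀ then 1 else 2 := ⟨_, rfl⟩
  have hw₂1 : 1 ≤ w₂ := by rw [hw₂]; split_ifs <;> omega
  have hw₂2 : w₂ ≤ 2 := by rw [hw₂]; split_ifs <;> omega
  obtain ⟨W, hW⟩ : ∃ W, W = w₂ * (p ^ 7 * (π₀ * W₀)) := ⟨_, rfl⟩
  have hWpos : 0 < W := by
    rw [hW]
    have := hp.pos
    have := hπ.pos
    positivity
  have hW₀W : W₀ ≤ W := by
    rw [hW]
    have h1 : 1 ≤ p ^ 7 := Nat.one_le_pow _ _ hp.pos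
    have h2 := hπ.pos
    calc W₀ = 1 * (1 * (1 * W₀)) := by ring
      _ ≤ w₂ * (p ^ 7 * (π₀ * W₀)) := by gcongr; omega
  have hWup : W ≤ 2 ^ T := by
    have h1 : p ^ 7 ≤ (4 * T ^ 2) ^ 7 := Nat.pow_le_pow_left hpT 7
    have h3 : T ^ 18 ≤ (2 ^ ℓ) ^ 18 := Nat.pow_le_pow_left hℓ2.le 18
    have h4 : w₂ * (p ^ 7 * (π₀ * W₀)) ≤ 2 * ((4 * T ^ 2) ^ 7 * ((64 * T ^ 4) * 2 ^ T')) := by
      gcongr
    have h5 : 2 * ((4 * T ^ 2) ^ 7 * ((64 * T ^ 4) * 2 ^ T')) = 2 ^ 21 * T ^ 18 * 2 ^ T' := by ring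
    have h6 : 2 ^ T = 2 ^ 21 * (2 ^ ℓ) ^ 18 * 2 ^ T' := by
      rw [← hT'le]
      rw [← pow_mul, ← pow_add, ← pow_add]
      congr 1
      ring_nf
    rw [hW]
    calc w₂ * (p ^ 7 * (π₀ * W₀)) ≤ 2 ^ 21 * T ^ 18 * 2 ^ T' := by rw [← h5]; exact h4
      _ ≤ 2 ^ 21 * (2 ^ ℓ) ^ 18 * 2 ^ T' := by gcongr
      _ = 2 ^ T := h6.symm
  have hmod2 : ¬ 2 ∣ m := hmR 2 Nat.prime_two hz2
  -- `v`
  obtain ⟨v, hv⟩ : ∃ v, v = v₀ * m := ⟨_, rfl⟩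
  have hvpos : 0 < v := by rw [hv]; positivity
  have hvlow : 2 ^ A * u₀ * 2 ^ A ≤ v := by rw [hv]; exact Nat.mul_le_mul hlow hm2A
  have hvup : v ≤ 2 ^ (2 * A + B + 3) := by
    have e : 2 ^ (2 * A + B + 3) = 2 ^ (A + 1 + B) * 2 ^ (A + 2) := by
      rw [← pow_add]; congr 1; ring
    rw [e, hv]
    exact Nat.mul_le_mul hv₀up hmle
  have hcopWv₀ : Nat.Coprime W v₀ := by
    rw [hW]
    apply Nat.Coprime.mul_left
    · rw [hw₂]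
      split_ifs with h
      · exact Nat.coprime_one_left _
      · exact (Nat.Prime.coprime_iff_not_dvd Nat.prime_two).mpr h
    · apply Nat.Coprime.mul_left
      · exact Nat.Coprime.pow_left 7 ((Nat.Prime.coprime_iff_not_dvd hp).mpr hpv)
      · apply Nat.Coprime.mul_left
        · exact (Nat.Prime.coprime_iff_not_dvd hπ).mpr hπv
        · exact hqW₀v₀
  have hcopWm : Nat.Coprime W m := by
    rw [hW]
    apply Nat.Coprime.mul_left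
    · rw [hw₂]
      split_ifs with h
      · exact Nat.coprime_one_left _
      · exact (Nat.Prime.coprime_iff_not_dvd Nat.prime_two).mpr hmod2
    · apply Nat.Coprime.mul_left
      · exact Nat.Coprime.pow_left 7 (hmR.coprime hp hpz)
      · apply Nat.Coprime.mul_left
        · exact hmR.coprime hπ hπz
        · exact hmW₀.symm
  have hcopWv : Nat.Coprime W v := by rw [hv]; exact Nat.Coprime.mul_right hcopWv₀ hcopWm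
  have hcopuv : Nat.Coprime u v := by
    apply Nat.coprime_of_dvd
    intro q hq h1 h2
    rw [hv] at h2
    rcases hq.dvd_mul.mp h2 with h3 | h3
    · -- `q ∣ v₀`
      have h4 : q ∣ u₀ * m := by rw [← huv]; exact dvd_add h1 h3
      rcases hq.dvd_mul.mp h4 with h5 | h5
      · exact hq.one_lt.ne' (Nat.eq_one_of_dvd_coprimes hcop h5 h3)
      · exact hq.one_lt.ne' (Nat.eq_one_of_dvd_coprimes hmv h5 h3)
    · have h4 : q ∣ v₀ := by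
        have h5 : q ∣ u + v₀ := by rw [huv]; exact h3.mul_left _
        exact (Nat.dvd_add_right h1).mp h5
      exact hq.one_lt.ne' (Nat.eq_one_of_dvd_coprimes hmv h3 h4)
  -- the split
  obtain ⟨Q, hQ⟩ : ∃ Q, Q = u * W / v := ⟨_, rfl⟩
  obtain ⟨r₀, hr₀⟩ : ∃ r₀, r₀ = u * W % v := ⟨_, rfl⟩
  have hdiv : v * Q + r₀ = u * W := by rw [hQ, hr₀]; exact Nat.div_add_mod _ _
  have hr₀lt : r₀ < v := by rw [hr₀]; exact Nat.mod_lt _ hvpos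
  have hcopr₀ : Nat.Coprime r₀ v := by
    have h1 : Nat.Coprime (u * W) v := Nat.Coprime.mul_left hcopuv hcopWv
    rw [hr₀]
    have h2 : Nat.gcd (u * W % v) v = Nat.gcd (u * W) v := by
      rw [← Nat.gcd_rec, Nat.gcd_comm]
    rw [Nat.Coprime, h2]
    exact h1
  have hJv : (J + 1) * v ≤ W := by
    have h1 : J + 1 ≤ 2 ^ (i + 1) := by
      have e : 2 ^ (i + 1) = 2 * J := by rw [hJ]; ring
      have : 1 ≤ J := by rw [hJ]; exact Nat.one_le_two_pow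
      omega
    have h2 : 3 * T' / 4 ≥ i + 1 + (2 * A + B + 3) := by omega
    calc (J + 1) * v ≤ 2 ^ (i + 1) * 2 ^ (2 * A + B + 3) := Nat.mul_le_mul h1 hvup
      _ = 2 ^ (i + 1 + (2 * A + B + 3)) := by rw [← pow_add]
      _ ≤ 2 ^ (3 * T' / 4) := Nat.pow_le_pow_right (by norm_num) h2
      _ ≤ W₀ := hW₀low
      _ ≤ W := hW₀W
  have hQJ : J < Q := by
    have h1 : W ≤ u * W := Nat.le_mul_of_pos_left _ (by omega)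
    by_contra hc
    push Not at hc
    have h2 : v * Q ≤ v * J := Nat.mul_le_mul_left _ hc
    have e : (J + 1) * v = v * J + v := by ring
    omega
  obtain ⟨N₁, hN₁⟩ : ∃ N₁, N₁ = 2 ^ (i + T - 2 * A) := ⟨_, rfl⟩
  obtain ⟨N₂, hN₂⟩ : ∃ N₂, N₂ = 2 ^ (2 * A + B + i + 4) := ⟨_, rfl⟩
  have hQN : Q ≤ N₁ := by
    have h1 : v * Q ≤ u * W := by omega
    have h2 : (2 ^ A * u₀ * 2 ^ A) * Q ≤ (u₀ * J) * 2 ^ T :=
      (Nat.mul_le_mul_right _ hvlow).trans (h1.trans (Nat.mul_le_mul huJ hWup))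
    have e1 : 2 ^ A * u₀ * 2 ^ A = u₀ * 2 ^ (2 * A) := by
      rw [two_mul, pow_add]; ring
    have e2 : u₀ * J * 2 ^ T = u₀ * (2 ^ (2 * A) * N₁) := by
      rw [hJ, hN₁, mul_assoc, ← pow_add, ← pow_add]
      congr 2
      omega
    rw [e1, e2, mul_assoc] at h2
    have h3 := Nat.le_of_mul_le_mul_left h2 hu₀
    exact Nat.le_of_mul_le_mul_left h3 (by positivity)
  have hN₂v : r₀ + J * v ≤ N₂ := by
    have h1 : J + 1 ≤ 2 ^ (i + 1) := by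
      have e : 2 ^ (i + 1) = 2 * J := by rw [hJ]; ring
      have : 1 ≤ J := by rw [hJ]; exact Nat.one_le_two_pow
      omega
    have e : N₂ = 2 ^ (i + 1) * 2 ^ (2 * A + B + 3) := by
      rw [hN₂, ← pow_add]; congr 1; ring
    rw [e]
    calc r₀ + J * v ≤ (J + 1) * v := by
          have e : (J + 1) * v = J * v + v := by ring
          omega
      _ ≤ _ := Nat.mul_le_mul h1 hvup
  have hN₁X : N₁ ^ 2 ≤ 2 ^ L := by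
    rw [hN₁, ← pow_mul]
    apply Nat.pow_le_pow_right (by norm_num)
    omega
  have hX₂ : 2 ^ (A + 1 + L) ≤ 2 * m * 2 ^ L := by
    have e : 2 ^ (A + 1 + L) = 2 * 2 ^ A * 2 ^ L := by
      rw [pow_add, pow_add]; ring
    rw [e]
    exact Nat.mul_le_mul_right _ (Nat.mul_le_mul_left _ hm2A)
  have hN₂X : N₂ ^ 2 ≤ 2 * m * 2 ^ L := by
    refine le_trans ?_ hX₂
    rw [hN₂, ← pow_mul]
    apply Nat.pow_le_pow_right (by norm_num)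
    omega
  have h2cond : 2 ∣ v ∨ (Q + r₀) % 2 = 0 := by
    by_cases h : 2 ∣ v₀
    · left; rw [hv]; exact h.mul_right _
    · right
      have h2W : 2 ∣ W := by
        rw [hW, hw₂, if_neg h]
        exact dvd_mul_right _ _
      have h3 : 2 ∣ v * Q + r₀ := by rw [hdiv]; exact h2W.mul_left _
      have hv2 : ¬ 2 ∣ v := by
        intro h4
        rw [hv] at h4
        rcases Nat.prime_two.dvd_mul.mp h4 with h5 | h5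
        · exact h h5
        · exact hmod2 h5
      have hvodd : v % 2 = 1 := by omega
      have h4 : (v * Q + r₀) % 2 = (Q + r₀) % 2 := by
        rw [Nat.add_mod, Nat.mul_mod, hvodd]
        simp [Nat.add_mod]
      omega
  -- densities
  have hS₁pos : (0 : ℝ) < (S₁'.card : ℝ) := by exact_mod_cast (card_pos.mpr hS₁ne)
  have hS₂pos : (0 : ℝ) < (S₂'.card : ℝ) := by exact_mod_cast (card_pos.mpr hS₂'ne)
  have hrR : (r : ℝ) ≤ 16 * (T : ℝ) ^ 4 := by exact_mod_cast hrT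
  have hSd' : (2 : ℝ) ^ L ≤ (S.card : ℝ) * (2 : ℝ) ^ t := by exact_mod_cast hSd
  have hS₁cR : (S.card : ℝ) ≤ (r : ℝ) * (S₁'.card : ℝ) := by exact_mod_cast hS₁c
  have hS₂cR : (m : ℝ) * (S.card : ℝ) ≤ 2 * (S₂.card : ℝ) := by exact_mod_cast hS₂c
  have hS₂'cR : (S₂.card : ℝ) ≤ (r : ℝ) * (S₂'.card : ℝ) := by exact_mod_cast hS₂'c
  have ht0 : (0 : ℝ) < (2 : ℝ) ^ t := by positivity
  have hΔ₁ : ((2 ^ L : ℕ) : ℝ) / (S₁'.card : ℝ) ≤ 64 * (T : ℝ) ^ 4 * (2 : ℝ) ^ t := by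
    rw [div_le_iff₀ hS₁pos]
    push_cast
    calc (2 : ℝ) ^ L ≤ (S.card : ℝ) * (2 : ℝ) ^ t := hSd'
      _ ≤ ((r : ℝ) * (S₁'.card : ℝ)) * (2 : ℝ) ^ t := mul_le_mul_of_nonneg_right hS₁cR ht0.le
      _ ≤ ((16 * (T : ℝ) ^ 4) * (S₁'.card : ℝ)) * (2 : ℝ) ^ t :=
        mul_le_mul_of_nonneg_right (mul_le_mul_of_nonneg_right hrR (Nat.cast_nonneg _)) ht0.le
      _ ≤ 64 * (T : ℝ) ^ 4 * (2 : ℝ) ^ t * (S₁'.card : ℝ) := by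
        have h0 : 0 ≤ (T : ℝ) ^ 4 * (S₁'.card : ℝ) * (2 : ℝ) ^ t :=
          mul_nonneg (mul_nonneg (by positivity) (Nat.cast_nonneg _)) ht0.le
        have e1 : ((16 * (T : ℝ) ^ 4) * (S₁'.card : ℝ)) * (2 : ℝ) ^ t
            = 16 * ((T : ℝ) ^ 4 * (S₁'.card : ℝ) * (2 : ℝ) ^ t) := by ring
        have e2 : 64 * (T : ℝ) ^ 4 * (2 : ℝ) ^ t * (S₁'.card : ℝ)
            = 64 * ((T : ℝ) ^ 4 * (S₁'.card : ℝ) * (2 : ℝ) ^ t) := by ring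
        rw [e1, e2]
        linarith
  have hmR0 : (0 : ℝ) < (m : ℝ) := by
    have : 0 < m := by omega
    exact_mod_cast this
  have hΔ₂ : ((2 * m * 2 ^ L : ℕ) : ℝ) / (S₂'.card : ℝ) ≤ 64 * (T : ℝ) ^ 4 * (2 : ℝ) ^ t := by
    rw [div_le_iff₀ hS₂pos]
    push_cast
    calc 2 * (m : ℝ) * (2 : ℝ) ^ L ≤ 2 * (m : ℝ) * ((S.card : ℝ) * (2 : ℝ) ^ t) :=
          mul_le_mul_of_nonneg_left hSd' (by positivity)
      _ = 2 * ((m : ℝ) * (S.card : ℝ)) * (2 : ℝ) ^ t := by ring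
      _ ≤ 2 * (2 * (S₂.card : ℝ)) * (2 : ℝ) ^ t :=
        mul_le_mul_of_nonneg_right (mul_le_mul_of_nonneg_left hS₂cR (by norm_num)) ht0.le
      _ ≤ 2 * (2 * ((r : ℝ) * (S₂'.card : ℝ))) * (2 : ℝ) ^ t :=
        mul_le_mul_of_nonneg_right
          (mul_le_mul_of_nonneg_left (mul_le_mul_of_nonneg_left hS₂'cR (by norm_num)) (by norm_num)) ht0.le
      _ ≤ 2 * (2 * ((16 * (T : ℝ) ^ 4) * (S₂'.card : ℝ))) * (2 : ℝ) ^ t :=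
        mul_le_mul_of_nonneg_right
          (mul_le_mul_of_nonneg_left (mul_le_mul_of_nonneg_left
            (mul_le_mul_of_nonneg_right hrR (Nat.cast_nonneg _)) (by norm_num)) (by norm_num)) ht0.le
      _ = 64 * (T : ℝ) ^ 4 * (2 : ℝ) ^ t * (S₂'.card : ℝ) := by ring
  have hnum_j : C₂ * (((2 ^ L : ℕ) : ℝ) / (S₁'.card : ℝ)) *
        ((J : ℝ) / (z : ℝ) + (Nat.log 2 N₁ : ℝ) + 1)
        + C₂ * (((2 * m * 2 ^ L : ℕ) : ℝ) / (S₂'.card : ℝ)) *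
        ((J : ℝ) / (z : ℝ) + (Nat.log 2 N₂ : ℝ) + 1) + 1 ≤ (J : ℝ) / ((Nat.log 2 z : ℝ) ^ Cs) := by
    refine le_trans ?_ hJT
    have hl₁ : ((Nat.log 2 N₁ : ℕ) : ℝ) ≤ 2 * (T : ℝ) := by
      rw [hN₁, Nat.log_pow (by norm_num)]
      have : i + T - 2 * A ≤ 2 * T := by omega
      exact_mod_cast this
    have hl₂ : ((Nat.log 2 N₂ : ℕ) : ℝ) ≤ 2 * (T : ℝ) := by
      rw [hN₂, Nat.log_pow (by norm_num)]
      have : 2 * A + B + i + 4 ≤ 2 * T := by omega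
      exact_mod_cast this
    have := num_generic (C := C₂) (τ := (T : ℝ)) (a := (2 : ℝ) ^ t) (z := (z : ℝ)) (J := (J : ℝ))
      (Δ₁ := ((2 ^ L : ℕ) : ℝ) / (S₁'.card : ℝ)) (Δ₂ := ((2 * m * 2 ^ L : ℕ) : ℝ) / (S₂'.card : ℝ))
      (l₁ := (Nat.log 2 N₁ : ℝ)) (l₂ := (Nat.log 2 N₂ : ℝ)) (ω := 0) (Cs := Cs) hC₂.le hτ ha1 hzR hJR
      hΔ₁ hΔ₂ (div_nonneg (Nat.cast_nonneg _) (Nat.cast_nonneg _))
      (div_nonneg (Nat.cast_nonneg _) (Nat.cast_nonneg _)) hl₁ hl₂ (Nat.cast_nonneg _) (Nat.cast_nonneg _)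
      hTpos.le le_rfl
    simpa using this
  have hS₁X : ∀ s ∈ S₁', s ≤ 2 ^ L := fun s hs => by
    rw [hS₁'] at hs
    exact hSX s (mem_filter.mp hs).1
  have hS₂X : ∀ s ∈ S₂', s ≤ 2 * m * 2 ^ L := fun s hs => by
    rw [hS₂'] at hs
    exact (hS₂ s (mem_filter.mp hs).1).2.2
  obtain ⟨j, hj, hn₁R, hn₂R, hV₁, hV₂⟩ := choose_j (S₁ := S₁') (S₂ := S₂') (X₁ := 2 ^ L)
    (X₂ := 2 * m * 2 ^ L) (z := z) (J := J) (Q := Q) (r₀ := r₀) (v := v) (N₁ := N₁) (N₂ := N₂)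
    hS₁ne hS₂'ne hS₁X hS₂X hN₁X hN₂X hz₀z hz2 hzJ' hQJ hQN hcopr₀ hvpos hN₂v h2cond hnum_j
  obtain ⟨hj1, hjJ⟩ := mem_Icc.mp hj
  have hn₁1 : 1 ≤ Q - j := by omega
  have hn₂1 : 1 ≤ r₀ + j * v := by
    have : 0 < j * v := Nat.mul_pos (by omega) hvpos
    omega
  have hsplit : v₀ * m * (Q - j) + (r₀ + j * v) = u * W := by
    rw [← hdiv, ← hv]
    have hjQ : j ≤ Q := by omega
    obtain ⟨k, hk⟩ := Nat.exists_eq_add_of_le hjQ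
    rw [hk]
    simp only [Nat.add_sub_cancel_left]
    ring
  have hpW7 : p ^ 7 * W₀ ∣ W := by
    rw [hW]
    apply Dvd.dvd.mul_left
    exact Nat.mul_dvd_mul_left _ (dvd_mul_left _ _)
  have hrW : ¬ r ∣ W := by
    intro h
    rw [hW] at h
    rcases hr.dvd_mul.mp h with h | h
    · have : w₂ = 1 ∨ w₂ = 2 := by omega
      rcases this with h1 | h1
      · rw [h1] at h
        exact hr.one_lt.ne' (Nat.dvd_one.mp h)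
      · rw [h1] at h
        exact hr2 ((Nat.prime_dvd_prime_iff_eq hr Nat.prime_two).mp h)
    · rcases hr.dvd_mul.mp h with h | h
      · exact hrp ((Nat.prime_dvd_prime_iff_eq hr hp).mp (hr.dvd_of_dvd_pow h))
      · rcases hr.dvd_mul.mp h with h | h
        · exact hπr ((Nat.prime_dvd_prime_iff_eq hr hπ).mp h).symm
        · exact hrW₀ h
  have hπW : π₀ ∣ W := by
    rw [hW]
    apply Dvd.dvd.mul_left
    apply Dvd.dvd.mul_left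
    exact dvd_mul_right _ _
  have hS₁rep : ∀ x ∈ S₁', Rep W₀ K x ∧ x % r = c₁ := fun x hx => by
    rw [hS₁'] at hx
    exact ⟨hSrep x (mem_filter.mp hx).1, (mem_filter.mp hx).2⟩
  have hS₂rep : ∀ x ∈ S₂', Rep (m * W₀) (2 * K) x ∧ 1 ≤ x ∧ x % r = c₂ := fun x hx => by
    rw [hS₂'] at hx
    exact ⟨(hS₂ x (mem_filter.mp hx).1).1, (hS₂ x (mem_filter.mp hx).1).2.1, (mem_filter.mp hx).2⟩
  have hG' : ∀ n ∈ G, n * u₀ < v₀ ∧ ¬ π₀ ∣ n := fun n hn => ⟨(hG n hn).2, hπG n hn⟩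
  have hπm : ¬ π₀ ∣ m := hmR π₀ hπ hπz
  have hpm : ¬ p ∣ m := hmR p hp hpz
  obtain ⟨F, hF1, hF2, hF3, hF4⟩ := final_assembly (W := W) (W₀ := W₀) (S₁ := S₁') (S₂ := S₂') (G := G)
    (u₀ := u₀) (v₀ := v₀) (m := m) (u := u) (n₁ := Q - j) (n₂ := r₀ + j * v) (p := p) (r := r)
    (π₀ := π₀) (K := K) (c₁ := c₁) (c₂ := c₂)
    hv₀0 hu₀ hm2 hπm huv hsplit hG' hWpos hS₁ne hS₂'ne hp hr hr2 hrp hrp3 hpW₀ hpm hW₀0
    hS₁rep hc₁ hS₂rep hn₁1 (hn₁R.coprime hp hpz) hV₁ hn₂1 (hn₂R.coprime hp hpz) (hn₂R r hr hrz) hV₂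
    hpW7 hrW hπ hπW hπp hπW₀
  refine ⟨F, hF1, hF2, ?_, hF4⟩
  have hlog : Nat.log 2 T' ≤ Nat.log 2 T := Nat.log_mono_right (by omega)
  have : K ≤ Cd * Nat.log 2 T := by rw [hK]; exact Nat.mul_le_mul_left _ hlog
  calc F.card ≤ 6 * K + 3 := hF3
    _ ≤ 6 * (Cd * Nat.log 2 T) + 3 := by omega
    _ = 6 * Cd * Nat.log 2 T + 3 := by ring


theorem main_step : ∃ C T₀ : ℕ, ∀ (T B A u₀ v₀ : ℕ) (G : Finset ℕ), T₀ ≤ T → 7 * A ≤ 2 * T →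
    2 * T ≤ 7 * A + 1 → 100 * B ≤ A →
    0 < u₀ → Nat.Coprime u₀ v₀ → u₀ ≤ 2 ^ B → 2 ^ A * u₀ ≤ v₀ → v₀ < 2 ^ (A + 1) * u₀ →
    (∀ n ∈ G, 2 ≤ n ∧ n * u₀ < v₀) → G.card ≤ T →
    ∃ F : Finset ℕ, (∀ n ∈ F, 2 ≤ n) ∧ (∑ n ∈ F, (1 : ℚ) / n) = (u₀ : ℚ) / v₀ ∧
      F.card ≤ C * Nat.log 2 T + 3 ∧ Disjoint F G := by
  classical
  have hs₀ := s₀_pos
  obtain ⟨D, hD⟩ : ∃ D, D = 1000 * s₀ := ⟨_, rfl⟩
  obtain ⟨Cd, Td, hdigit⟩ := digit_sets D (by omega)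
  obtain ⟨E, hE⟩ : ∃ E, E = Cs + 6 := ⟨_, rfl⟩
  obtain ⟨T₁, hT₁⟩ := exists_log_le (100000 * (s₀ * E + 1))
  refine ⟨6 * Cd, max (max T₁ (2 * Td)) (max z₀ (max (1024 * ⌈C₂⌉₊ + 4) 100000)), ?_⟩
  intro T B A u₀ v₀ G hT h7A h7A' hBA hu₀ hcop hu₀B hlow hup hG hGcard
  have hT1 : T₁ ≤ T := le_trans (le_trans (le_max_left _ _) (le_max_left _ _)) hT
  have hTd : 2 * Td ≤ T := le_trans (le_trans (le_max_right _ _) (le_max_left _ _)) hT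
  have hTz : z₀ ≤ T := le_trans (le_trans (le_max_left _ _) (le_max_right _ _)) hT
  have hTC : 1024 * ⌈C₂⌉₊ + 4 ≤ T :=
    le_trans (le_trans (le_trans (le_max_left _ _) (le_max_right _ _)) (le_max_right _ _)) hT
  have hT5 : 100000 ≤ T :=
    le_trans (le_trans (le_trans (le_max_right _ _) (le_max_right _ _)) (le_max_right _ _)) hT
  clear hT
  obtain ⟨ℓ, hℓ⟩ : ∃ ℓ, ℓ = Nat.log 2 T + 1 := ⟨_, rfl⟩
  have hℓ1 : 1 ≤ ℓ := by omega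
  have hKℓ := hT₁ T hT1
  rw [← hℓ] at hKℓ
  have hℓ2 : T < 2 ^ ℓ := by rw [hℓ]; exact Nat.lt_pow_succ_log_self (by norm_num) T
  obtain ⟨w, hw⟩ : ∃ w, w = s₀ * (E * ℓ) := ⟨_, rfl⟩
  have hsplitK : 100000 * (s₀ * E + 1) * ℓ = 100000 * w + 100000 * ℓ := by rw [hw]; ring
  have hℓT : 100000 * ℓ ≤ T := by omega
  have hEℓT : 100000 * w ≤ T := by omega
  obtain ⟨T', hT'⟩ : ∃ T', T' = T - (21 + 18 * ℓ) := ⟨_, rfl⟩
  have hT'le : T' + (21 + 18 * ℓ) = T := by omega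
  have hT'd : Td ≤ T' := by omega
  obtain ⟨t, ht⟩ : ∃ t, t = T' / D := ⟨_, rfl⟩
  obtain ⟨eℓ, heℓ⟩ : ∃ eℓ, eℓ = E * ℓ := ⟨_, rfl⟩
  obtain ⟨ζ, hζ⟩ : ∃ ζ, ζ = t + eℓ := ⟨_, rfl⟩
  obtain ⟨i, hi⟩ : ∃ i, i = s₀ * ζ := ⟨_, rfl⟩
  obtain ⟨z, hz⟩ : ∃ z, z = 2 ^ ζ := ⟨_, rfl⟩
  obtain ⟨J, hJ⟩ : ∃ J, J = 2 ^ i := ⟨_, rfl⟩
  have hJz : J = z ^ s₀ := by rw [hJ, hz, hi, ← pow_mul, mul_comm]
  have hDt : D * t ≤ T' := by rw [ht]; exact Nat.mul_div_le _ _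
  have hi500 : 500 * i ≤ T := by
    have e : i = s₀ * t + w := by rw [hi, hζ, hw, heℓ]; ring
    have e2 : D * t = 1000 * (s₀ * t) := by rw [hD]; ring
    omega
  have hζi : ζ ≤ i := by
    rw [hi]; exact Nat.le_mul_of_pos_left _ (by omega)
  have hzJ : z ≤ J := by rw [hz, hJ]; exact Nat.pow_le_pow_right (by norm_num) hζi
  have hE6 : 6 ≤ E := by omega
  have hEℓ : ℓ ≤ eℓ := by rw [heℓ]; exact Nat.le_mul_of_pos_left _ (by omega)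
  have hζℓ : 6 * ℓ ≤ ζ := by
    have : 6 * ℓ ≤ E * ℓ := Nat.mul_le_mul_right _ hE6
    rw [← heℓ] at this
    omega
  -- sizes of `z`
  have hzT6 : T ^ E * 2 ^ t ≤ z := by
    have h1 : T ^ E ≤ (2 ^ ℓ) ^ E := Nat.pow_le_pow_left hℓ2.le E
    have e : z = (2 ^ ℓ) ^ E * 2 ^ t := by
      rw [hz, hζ, heℓ, ← pow_mul, ← pow_add, mul_comm ℓ E, add_comm]
    rw [e]
    exact Nat.mul_le_mul_right _ h1
  have hzT : T ^ 6 ≤ z := by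
    have h1 : T ^ 6 ≤ T ^ E := Nat.pow_le_pow_right (by omega) hE6
    have h2 : 1 ≤ 2 ^ t := Nat.one_le_two_pow
    calc T ^ 6 ≤ T ^ E := h1
      _ = T ^ E * 1 := by ring
      _ ≤ T ^ E * 2 ^ t := Nat.mul_le_mul_left _ h2
      _ ≤ z := hzT6
  have hTzz : T ≤ z := by
    have : T ≤ T ^ 6 := Nat.le_self_pow (by norm_num) T
    omega
  have hz₀z : z₀ ≤ z := hTz.trans hTzz
  have hz2 : 2 ≤ z := by omega
  have hT4z : 64 * T ^ 4 ≤ z := by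
    refine le_trans ?_ hzT
    have e : T ^ 6 = T ^ 4 * (T * T) := by ring
    rw [e, mul_comm 64]
    apply Nat.mul_le_mul_left
    have h8 : 8 ≤ T := by omega
    calc 64 = 8 * 8 := by norm_num
      _ ≤ T * T := Nat.mul_le_mul h8 h8
  have h2tz : 2 ^ t ≤ z := by
    have h1 : 1 ≤ T ^ E := Nat.one_le_pow _ _ (by omega)
    calc 2 ^ t = 1 * 2 ^ t := by ring
      _ ≤ T ^ E * 2 ^ t := Nat.mul_le_mul_right _ h1
      _ ≤ z := hzT6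
  -- sizes of `v₀`
  have hu₀2 : u₀ * 1 ≤ 2 ^ B := by simpa using hu₀B
  have hv₀up : v₀ ≤ 2 ^ (A + 1 + B) := by
    rw [pow_add]
    calc v₀ ≤ 2 ^ (A + 1) * u₀ := hup.le
      _ ≤ 2 ^ (A + 1) * 2 ^ B := Nat.mul_le_mul_left _ hu₀B
  have hv₀0 : 0 < v₀ := lt_of_lt_of_le (Nat.mul_pos (by positivity) hu₀) hlow
  have hABT : A + 1 + B ≤ T := by omega
  have hv₀T : v₀ ≤ 2 ^ T := hv₀up.trans (Nat.pow_le_pow_right (by norm_num) hABT)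
  have hGn : ∀ n ∈ G, 0 < n ∧ n ≤ 2 ^ T := by
    intro n hn
    obtain ⟨h1, h2⟩ := hG n hn
    refine ⟨by omega, le_trans ?_ hv₀T⟩
    have : n ≤ n * u₀ := Nat.le_mul_of_pos_right _ hu₀
    omega
  -- small primes
  obtain ⟨p, r, π₀, hp, hr, hπ, hp2, hr2, hrp, hrp3, hpv, hπv, hπ2, hπp, hπr, hπG, hpT, hrT, hπT⟩ :=
    small_primes T v₀ G (by omega) hv₀0 hv₀T hGcard hGn
  have hT2 : 4 * T ^ 2 ≤ 64 * T ^ 4 := by
    have : T ^ 2 ≤ T ^ 4 := Nat.pow_le_pow_right (by omega) (by norm_num)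
    omega
  have hpz : p ≤ z := by omega
  have hrz : r ≤ z := by omega
  have hπz : π₀ ≤ z := by omega
  -- the digit set
  obtain ⟨Forb, hForb⟩ : ∃ Forb : Finset ℕ, Forb = v₀.primeFactors ∪ {2, p, r, π₀} := ⟨_, rfl⟩
  have hForbP : ∀ q ∈ Forb, q.Prime := by
    intro q hq
    rw [hForb] at hq
    rcases mem_union.mp hq with h | h
    · exact Nat.prime_of_mem_primeFactors h
    · simp only [mem_insert, mem_singleton] at h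
      rcases h with rfl | rfl | rfl | rfl
      · exact Nat.prime_two
      · exact hp
      · exact hr
      · exact hπ
  have hω : v₀.primeFactors.card ≤ T := by
    have h2 : 2 ^ v₀.primeFactors.card ≤ ∏ q ∈ v₀.primeFactors, q :=
      pow_card_le_prod _ _ _ (fun q hq => (Nat.prime_of_mem_primeFactors hq).two_le)
    have h3 : ∏ q ∈ v₀.primeFactors, q ≤ v₀ :=
      Nat.le_of_dvd hv₀0 (Nat.prod_primeFactors_dvd v₀)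
    exact (Nat.pow_le_pow_iff_right (by norm_num)).mp ((h2.trans h3).trans hv₀T)
  have hForbc : Forb.card ≤ 2 * T' := by
    rw [hForb]
    have h1 := card_union_le v₀.primeFactors ({2, p, r, π₀} : Finset ℕ)
    have h2 : ({2, p, r, π₀} : Finset ℕ).card ≤ 4 := card_le_four
    omega
  obtain ⟨W₀, L, S, hW₀F, hW₀p, hW₀low, hW₀up, hL7, hL2, hSb, hSd, hSrep⟩ := hdigit T' hT'd Forb hForbP hForbc
  rw [← ht] at hW₀p hSd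
  obtain ⟨K, hK⟩ : ∃ K, K = Cd * Nat.log 2 T' := ⟨_, rfl⟩
  rw [← hK] at hSrep
  have hW₀0 : 0 < W₀ := lt_of_lt_of_le (by positivity) hW₀low
  have hSne : S.Nonempty := by
    rw [← card_pos]
    rcases Nat.eq_zero_or_pos S.card with h | h
    · rw [h, zero_mul] at hSd
      have : 0 < 2 ^ L := by positivity
      omega
    · exact h
  have hScast : (0 : ℝ) < (S.card : ℝ) := by exact_mod_cast (card_pos.mpr hSne)
  have h2W₀ : ¬ 2 ∣ W₀ := hW₀F 2 (by simp [hForb])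
  have hpW₀ : ¬ p ∣ W₀ := hW₀F p (by simp [hForb])
  have hrW₀ : ¬ r ∣ W₀ := hW₀F r (by simp [hForb])
  have hπW₀ : ¬ π₀ ∣ W₀ := hW₀F π₀ (by simp [hForb])
  have hqW₀v₀ : Nat.Coprime W₀ v₀ := by
    apply Nat.coprime_of_dvd
    intro q hq h1 h2
    exact hW₀F q (by rw [hForb]; exact mem_union_left _ (Nat.mem_primeFactors.mpr ⟨hq, h2, hv₀0.ne'⟩)) h1
  -- real-number data
  have hC₂ := C₂_pos
  have hτ : 1024 * C₂ + 4 ≤ (T : ℝ) := by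
    have h1 : C₂ ≤ (⌈C₂⌉₊ : ℝ) := Nat.le_ceil _
    have h2 : ((1024 * ⌈C₂⌉₊ + 4 : ℕ) : ℝ) ≤ (T : ℝ) := by exact_mod_cast hTC
    push_cast at h2
    linarith
  have hTpos : (0 : ℝ) < (T : ℝ) := by
    have : 0 < T := by omega
    exact_mod_cast this
  have ha1 : (1 : ℝ) ≤ (2 : ℝ) ^ t := one_le_pow₀ (by norm_num)
  have hzR : (2 : ℝ) ^ t * (T : ℝ) ^ (Cs + 6) ≤ (z : ℝ) := by
    have : ((T ^ E * 2 ^ t : ℕ) : ℝ) ≤ (z : ℝ) := by exact_mod_cast hzT6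
    push_cast at this
    rw [hE] at this
    linarith
  have hJR : (z : ℝ) ≤ (J : ℝ) := by exact_mod_cast hzJ
  have hzpos : (0 : ℝ) < (z : ℝ) := by
    have : 0 < z := by omega
    exact_mod_cast this
  have hlogz : Nat.log 2 z = ζ := by
    rw [hz]; exact Nat.log_pow (by norm_num) ζ
  have hζT : ζ ≤ T := by omega
  have hJT : (J : ℝ) / (T : ℝ) ^ Cs ≤ (J : ℝ) / ((Nat.log 2 z : ℝ) ^ Cs) := by
    rw [hlogz]
    rcases Nat.eq_zero_or_pos Cs with h0 | h0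
    · simp [h0]
    · have hζ0 : 0 < ζ := by omega
      have hζR : (0 : ℝ) < (ζ : ℝ) := by exact_mod_cast hζ0
      apply div_le_div_of_nonneg_left (by positivity) (by positivity)
      exact pow_le_pow_left₀ hζR.le (by exact_mod_cast hζT) _
  -- choice of `m`
  obtain ⟨g₀, hg₀⟩ : ∃ g₀, g₀ = v₀ / u₀ := ⟨_, rfl⟩
  have hg₀low : 2 ^ A ≤ g₀ := by
    rw [hg₀, Nat.le_div_iff_mul_le hu₀]; exact hlow
  have hg₀up : g₀ < 2 ^ (A + 1) := by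
    rw [hg₀, Nat.div_lt_iff_lt_mul hu₀]; exact hup
  have hg₀1 : 1 ≤ g₀ := le_trans Nat.one_le_two_pow hg₀low
  have hJA : J ≤ 2 ^ A := by rw [hJ]; exact Nat.pow_le_pow_right (by norm_num) (by omega)
  have hgN : g₀ + J ≤ 2 ^ (A + 2) := by
    have e1 : 2 ^ (A + 1) = 2 * 2 ^ A := by ring
    have e2 : 2 ^ (A + 2) = 4 * 2 ^ A := by ring
    omega
  have hNX : (2 ^ (A + 2)) ^ 2 ≤ 2 ^ L := by
    rw [← pow_mul]
    apply Nat.pow_le_pow_right (by norm_num)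
    omega
  have hSX : ∀ s ∈ S, s ≤ 2 ^ L := fun s hs => (hSb s hs).2
  have hDens : ((2 ^ L : ℕ) : ℝ) / (S.card : ℝ) ≤ (2 : ℝ) ^ t := by
    rw [div_le_iff₀ hScast]
    have : ((2 ^ L : ℕ) : ℝ) ≤ ((S.card * 2 ^ t : ℕ) : ℝ) := by exact_mod_cast hSd
    push_cast at this ⊢
    linarith
  have hnum_m : C₂ * (((2 ^ L : ℕ) : ℝ) / (S.card : ℝ)) *
        ((J : ℝ) / (z : ℝ) + (Nat.log 2 (2 ^ (A + 2)) : ℝ) + 1)
        + (T : ℝ) * ((J : ℝ) / (z : ℝ) + 1) + 1 ≤ (J : ℝ) / ((Nat.log 2 z : ℝ) ^ Cs) := by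
    refine le_trans ?_ hJT
    have h64 : (2 : ℝ) ^ t ≤ 64 * (T : ℝ) ^ 4 * (2 : ℝ) ^ t := by
      have : (1 : ℝ) ≤ 64 * (T : ℝ) ^ 4 := by
        have : (1 : ℝ) ≤ (T : ℝ) := by
          have : 1 ≤ T := by omega
          exact_mod_cast this
        have : (1 : ℝ) ≤ (T : ℝ) ^ 4 := one_le_pow₀ this
        linarith
      exact le_mul_of_one_le_left (by positivity) this
    have hl : ((Nat.log 2 (2 ^ (A + 2)) : ℕ) : ℝ) ≤ 2 * (T : ℝ) := by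
      rw [Nat.log_pow (by norm_num)]
      have : A + 2 ≤ 2 * T := by omega
      exact_mod_cast this
    have := num_generic (C := C₂) (τ := (T : ℝ)) (a := (2 : ℝ) ^ t) (z := (z : ℝ)) (J := (J : ℝ))
      (Δ₁ := ((2 ^ L : ℕ) : ℝ) / (S.card : ℝ)) (Δ₂ := 0)
      (l₁ := (Nat.log 2 (2 ^ (A + 2)) : ℝ)) (l₂ := 0) (ω := (T : ℝ)) (Cs := Cs) hC₂.le hτ ha1 hzR hJR
      (hDens.trans h64) (by positivity) (div_nonneg (Nat.cast_nonneg _) (Nat.cast_nonneg _)) le_rfl hl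
      (by positivity) (Nat.cast_nonneg _) le_rfl le_rfl hTpos.le
    simpa using this
  have hzJ' : z ^ s₀ ≤ J := hJz.symm.le
  obtain ⟨j₀, hj₀, hmR, hmv, hmV⟩ := choose_m (S := S) (X := 2 ^ L) (z := z) (J := J) (g₀ := g₀)
    (v₀ := v₀) (N := 2 ^ (A + 2)) (ω := T) hSne hSX hNX hz₀z hz2 hzJ' hg₀1 hgN hv₀0.ne' hω hnum_m
  obtain ⟨hj₀1, hj₀J⟩ := mem_Icc.mp hj₀
  obtain ⟨m, hm⟩ : ∃ m, m = g₀ + j₀ := ⟨_, rfl⟩
  rw [← hm] at hmR hmv hmV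
  have hm2 : 2 ≤ m := by omega
  have hmW₀ : Nat.Coprime m W₀ := by
    apply Nat.coprime_of_dvd
    intro q hq h1 h2
    have := hW₀p q hq h2
    exact hmR q hq (by omega) h1
  have hmW₀' : ¬ m ∣ W₀ := by
    intro h
    have h1 : m ∣ Nat.gcd m W₀ := Nat.dvd_gcd (dvd_refl m) h
    rw [hmW₀] at h1
    have := Nat.le_of_dvd (by norm_num) h1
    omega
  have hm2A : 2 ^ A ≤ m := by omega
  have hmle : m ≤ 2 ^ (A + 2) := by omega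
  -- `u`
  have hu₀g₀ : u₀ * g₀ ≤ v₀ := by rw [hg₀]; exact Nat.mul_div_le _ _
  have hu₀g₀' : v₀ < u₀ * g₀ + u₀ := by
    have h1 := Nat.div_add_mod v₀ u₀
    have h2 := Nat.mod_lt v₀ hu₀
    rw [← hg₀] at h1
    omega
  have hmu : u₀ * m = u₀ * g₀ + u₀ * j₀ := by rw [hm]; ring
  have hu₀j₀ : u₀ ≤ u₀ * j₀ := Nat.le_mul_of_pos_right _ (by omega)
  obtain ⟨u, hu⟩ : ∃ u, u = u₀ * m - v₀ := ⟨_, rfl⟩
  have huv : u + v₀ = u₀ * m := by omega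
  have hu1 : 1 ≤ u := by omega
  have huj : u ≤ u₀ * j₀ := by omega
  have huJ : u ≤ u₀ * J := huj.trans (Nat.mul_le_mul_left _ hj₀J)
  -- pool doubling
  have hSrep2 : ∀ s ∈ S, Rep W₀ K s ∧ 1 ≤ s ∧ s ≤ 2 ^ L := fun s hs =>
    ⟨hSrep s hs, (hSb s hs).1, (hSb s hs).2⟩
  obtain ⟨S₂, hS₂ne, hS₂c, hS₂⟩ := pool_double hSne hmV hm2 hmW₀' hSrep2
  -- classes
  obtain ⟨c₁, hc₁, hS₁ne, hS₁c⟩ := exists_class S hSne r hr.pos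
  obtain ⟨c₂, hc₂, hS₂'ne, hS₂'c⟩ := exists_class S₂ hS₂ne r hr.pos
  obtain ⟨S₁', hS₁'⟩ : ∃ S₁', S₁' = S.filter (fun x => x % r = c₁) := ⟨_, rfl⟩
  rw [← hS₁'] at hS₁ne hS₁c
  obtain ⟨S₂', hS₂'⟩ : ∃ S₂', S₂' = S₂.filter (fun x => x % r = c₂) := ⟨_, rfl⟩
  rw [← hS₂'] at hS₂'ne hS₂'c
  exact main_step_b Cd T B A u₀ v₀ G h7A h7A' hBA hu₀ hcop hu₀B hlow hup hG hT5 ℓ hℓ1 hℓ2 hℓT T' hT'le t i z J hJ hi500 hz₀z hz2 hv₀up hv₀0 p r π₀ hp hr hπ hr2 hrp hrp3 hpv hπv hπp hπr hπG hpT hrT hπT hpz hrz hπz W₀ L S hW₀low hW₀up hL7 hL2 hSd K hSrep hK hW₀0 hpW₀ hrW₀ hπW₀ hqW₀v₀ hτ hTpos ha1 hzR hJR hJT hSX hzJ' m hmv hmR hm2 hmW₀ hm2A hmle u huv hu1 huJ S₂ hS₂c hS₂ c₁ hc₁ c₂ S₁' hS₁c hS₁ne hS₁' S₂' hS₂'c hS₂'ne hS₂'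

end Vale.Agent.P012F
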