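import Vale.Agent.P012F.Rep
import Vale.Agent.P012F.Family

/-!
# P012F: Part 1 and Part 2 of the final assembly.

-/

namespace Vale.Agent.P012F

open Finset

/-- Part 2: `n / Z` as a sum of at most `2 K` distinct unit fractions, all divisible by `r` and `π`. -/
theorem part2 {S : Finset ℕ} {W' K n Z p r c π₀ : ℕ} (hS : S.Nonempty)
    (hp : p.Prime) (hr : r.Prime) (hrp : r ∣ p ^ 3 + 1) (hpW : ¬ p ∣ W') (hW'0 : 0 < W')
    (hSrep : ∀ x ∈ S, Rep W' K x ∧ 1 ≤ x ∧ x % r = c)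
    (hn : 1 ≤ n) (hnp : Nat.Coprime p n) (hnr : ¬ r ∣ n) (hV : VV S n < 1)
    (hZ : p ^ 3 * W' ∣ Z) (hZ0 : 0 < Z) (hπ : π₀.Prime) (hπZ : π₀ ∣ Z) (hπp : π₀ ≠ p)
    (hπW : ¬ π₀ ∣ W') :
    ∃ A : Finset ℕ, (∑ d ∈ A, (1 : ℚ) / d) = (n : ℚ) / Z ∧ A.card ≤ 2 * K ∧
      ∀ d ∈ A, 0 < d ∧ r ∣ d ∧ π₀ ∣ d := by
  classical
  have hc3 : Nat.Coprime (p ^ 3) n := Nat.Coprime.pow_left 3 hnp
  obtain ⟨x, hx, y, hy, hdvd⟩ := exists_sum_dvd S hS n (p ^ 3) hn hc3 hV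
  obtain ⟨hxR, hx1, hxc⟩ := hSrep x hx
  obtain ⟨hyR, _, hyc⟩ := hSrep y hy
  have hp3 : ¬ p ^ 3 ∣ W' := fun h => hpW ((dvd_pow_self p (by norm_num)).trans h)
  have hrep : Rep (p ^ 3 * W') (K + K) (x + p ^ 3 * y) :=
    Rep.add_mul hxR hyR hp3 (pow_pos hp.pos 3)
  obtain ⟨E, hE1, hE2, hE3⟩ := hrep
  obtain ⟨F, hF⟩ := hdvd
  have hsum : ∑ e ∈ E, e = n * F := by rw [hE3, hF]
  have hF0 : 0 < F := by
    rcases Nat.eq_zero_or_pos F with h | h
    · rw [h] at hF; omega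
    · exact h
  -- modulo `r`
  have hmod : r ∣ x + p ^ 3 * y := by
    have hxy : x ≡ y [MOD r] := by
      unfold Nat.ModEq
      omega
    have h1 : x + p ^ 3 * y ≡ y + p ^ 3 * y [MOD r] := Nat.ModEq.add_right _ hxy
    have h2 : y + p ^ 3 * y = (p ^ 3 + 1) * y := by ring
    rw [h2] at h1
    exact (Nat.modEq_zero_iff_dvd.mp (h1.trans (Nat.modEq_zero_iff_dvd.mpr (hrp.mul_right y))))
  have hrF : r ∣ F := by
    rw [hF] at hmod
    exact (hr.dvd_mul.mp hmod).resolve_left hnr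
  refine ⟨E.image (fun e => (Z / e) * F), ?_, ?_, ?_⟩
  · exact zero_sum n Z F E hZ0 hF0 (fun e he => (hE1 e he).trans hZ) hsum
  · have := card_image_le (s := E) (f := fun e => (Z / e) * F)
    omega
  · intro d hd
    obtain ⟨e, he, rfl⟩ := mem_image.mp hd
    have heZ : e ∣ Z := (hE1 e he).trans hZ
    have hq : e * (Z / e) = Z := Nat.mul_div_cancel' heZ
    have hq0 : 0 < Z / e := by
      rcases Nat.eq_zero_or_pos (Z / e) with h | h
      · rw [h] at hq; omega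
      · exact h
    refine ⟨Nat.mul_pos hq0 hF0, hrF.mul_left _, ?_⟩
    apply Dvd.dvd.mul_right
    have hπe : ¬ π₀ ∣ e := by
      intro h
      have h1 := h.trans (hE1 e he)
      rcases (hπ.dvd_mul.mp h1) with h2 | h2
      · exact hπp ((Nat.prime_dvd_prime_iff_eq hπ hp).mp (hπ.dvd_of_dvd_pow h2))
      · exact hπW h2
    rw [← hq] at hπZ
    exact (hπ.dvd_mul.mp hπZ).resolve_left hπe

/-- Part 1: `n / W` as a sum of at most `2 K + 2` distinct unit fractions, all divisible by `π`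
and none by `r`. -/
theorem part1 {S : Finset ℕ} {W₀ K n W p r c π₀ : ℕ} (hS : S.Nonempty)
    (hp : p.Prime) (hr : r.Prime) (hr2 : r ≠ 2) (hrne : r ≠ p) (hrp : r ∣ p ^ 3 + 1)
    (hpW : ¬ p ∣ W₀) (hW₀ : 0 < W₀)
    (hSrep : ∀ x ∈ S, Rep W₀ K x ∧ x % r = c) (hcr : c < r)
    (hn : 1 ≤ n) (hnp : Nat.Coprime p n) (hV : VV S n < 1)
    (hW : p ^ 7 * W₀ ∣ W) (hW0 : 0 < W) (hrW : ¬ r ∣ W) (hπ : π₀.Prime) (hπZ : π₀ ∣ W)
    (hπp : π₀ ≠ p) (hπW : ¬ π₀ ∣ W₀) :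
    ∃ A : Finset ℕ, (∑ d ∈ A, (1 : ℚ) / d) = (n : ℚ) / W ∧ A.card ≤ 2 * K + 2 ∧
      ∀ d ∈ A, 0 < d ∧ ¬ r ∣ d ∧ π₀ ∣ d := by
  classical
  set τ : ℕ := if c = 0 then p else 0 with hτ
  have hτr : ¬ r ∣ c + τ := by
    by_cases hc : c = 0
    · simp only [hτ, hc, if_true, zero_add]
      intro h
      exact hrne ((Nat.prime_dvd_prime_iff_eq hr hp).mp h)
    · simp only [hτ, hc, if_false, add_zero]
      intro h
      have := Nat.le_of_dvd (Nat.pos_of_ne_zero hc) h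
      omega
  have hτrep : ∀ x, Rep W₀ K x → Rep (p * W₀) (K + 1) (x + τ) := by
    intro x hx
    by_cases hc : c = 0
    · simp only [hτ, hc, if_true]
      have := Rep.add_mul hx (Rep.one W₀) hpW hp.pos
      simpa using this
    · simp only [hτ, hc, if_false, add_zero]
      exact hx.mono (dvd_mul_left _ _) (by omega)
  set S' := S.image (· + τ) with hS'
  have hS'ne : S'.Nonempty := hS.image _
  have hV' : VV S' n < 1 := by rw [hS', VV_translate]; exact hV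
  have hc6 : Nat.Coprime (p ^ 6) n := Nat.Coprime.pow_left 6 hnp
  obtain ⟨x', hx', y', hy', hdvd⟩ := exists_sum_dvd S' hS'ne n (p ^ 6) hn hc6 hV'
  obtain ⟨x, hx, rfl⟩ := mem_image.mp hx'
  obtain ⟨y, hy, rfl⟩ := mem_image.mp hy'
  obtain ⟨hxR, hxc⟩ := hSrep x hx
  obtain ⟨hyR, hyc⟩ := hSrep y hy
  have hp6 : ¬ p ^ 6 ∣ p * W₀ := by
    intro h
    have e : p ^ 6 = p * p ^ 5 := by ring
    rw [e] at h
    have h2 := Nat.dvd_of_mul_dvd_mul_left hp.pos h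
    exact hpW ((dvd_pow_self p (by norm_num)).trans h2)
  have hrep := Rep.add_mul (hτrep x hxR) (hτrep y hyR) hp6 (pow_pos hp.pos 6)
  have hW7 : p ^ 6 * (p * W₀) ∣ W := by
    have e : p ^ 6 * (p * W₀) = p ^ 7 * W₀ := by ring
    rw [e]; exact hW
  obtain ⟨E, hE1, hE2, hE3⟩ := hrep
  obtain ⟨F, hF⟩ := hdvd
  have hsum : ∑ e ∈ E, e = n * F := by rw [hE3, hF]
  -- modulo `r`
  have hp6r : p ^ 6 ≡ 1 [MOD r] := by
    have h1 : (p ^ 3 + 1) ∣ p ^ 6 - 1 := by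
      have : p ^ 6 - 1 = (p ^ 3 + 1) * (p ^ 3 - 1) := by
        have h0 : 1 ≤ p ^ 3 := Nat.one_le_pow _ _ hp.pos
        zify [h0, (Nat.one_le_pow 6 p hp.pos)]
        ring
      rw [this]; exact dvd_mul_right _ _
    have h2 : r ∣ p ^ 6 - 1 := hrp.trans h1
    exact ((Nat.modEq_iff_dvd' (Nat.one_le_pow 6 p hp.pos)).mpr h2).symm
  have hmod : ¬ r ∣ (x + τ) + p ^ 6 * (y + τ) := by
    intro h
    have hxy : x + τ ≡ c + τ [MOD r] := by
      apply Nat.ModEq.add_right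
      unfold Nat.ModEq
      rw [hxc, Nat.mod_eq_of_lt hcr]
    have hyy : y + τ ≡ c + τ [MOD r] := by
      apply Nat.ModEq.add_right
      unfold Nat.ModEq
      rw [hyc, Nat.mod_eq_of_lt hcr]
    have h1 : (x + τ) + p ^ 6 * (y + τ) ≡ (c + τ) + 1 * (c + τ) [MOD r] :=
      Nat.ModEq.add hxy (Nat.ModEq.mul hp6r hyy)
    have h2 : r ∣ (c + τ) + 1 * (c + τ) := (h1.dvd_iff (dvd_refl r)).mp h
    have h3 : (c + τ) + 1 * (c + τ) = 2 * (c + τ) := by ring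
    rw [h3] at h2
    rcases hr.dvd_mul.mp h2 with h4 | h4
    · exact hr2 ((Nat.prime_dvd_prime_iff_eq hr Nat.prime_two).mp h4)
    · exact hτr h4
  have hrF : ¬ r ∣ F := by
    intro h
    apply hmod
    rw [hF]
    exact h.mul_left _
  have hF0 : 0 < F := by
    rcases Nat.eq_zero_or_pos F with h | h
    · rw [h] at hrF; exact absurd (dvd_zero r) hrF
    · exact h
  refine ⟨E.image (fun e => (W / e) * F), ?_, ?_, ?_⟩
  · exact zero_sum n W F E hW0 hF0 (fun e he => (hE1 e he).trans hW7) hsum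
  · have := card_image_le (s := E) (f := fun e => (W / e) * F)
    omega
  · intro d hd
    obtain ⟨e, he, rfl⟩ := mem_image.mp hd
    have heZ : e ∣ W := (hE1 e he).trans hW7
    have hq : e * (W / e) = W := Nat.mul_div_cancel' heZ
    have hq0 : 0 < W / e := by
      rcases Nat.eq_zero_or_pos (W / e) with h | h
      · rw [h] at hq; omega
      · exact h
    refine ⟨Nat.mul_pos hq0 hF0, ?_, ?_⟩
    · intro h
      rcases hr.dvd_mul.mp h with h2 | h2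
      · exact hrW (h2.trans ⟨e, by rw [mul_comm]; exact hq.symm⟩)
      · exact hrF h2
    · apply Dvd.dvd.mul_right
      have hπe : ¬ π₀ ∣ e := by
        intro h
        have h1 := h.trans (hE1 e he)
        rcases (hπ.dvd_mul.mp h1) with h2 | h2
        · exact hπp ((Nat.prime_dvd_prime_iff_eq hπ hp).mp (hπ.dvd_of_dvd_pow h2))
        · rcases (hπ.dvd_mul.mp h2) with h3 | h3
          · exact hπp ((Nat.prime_dvd_prime_iff_eq hπ hp).mp h3)
          · exact hπW h3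
      rw [← hq] at hπZ
      exact (hπ.dvd_mul.mp hπZ).resolve_left hπe

end Vale.Agent.P012F
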