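import Vale.Agent.P012F.Defs

/-!
# P012F: `Rep` and the zero-sum criterion.
-/

namespace Vale.Agent.P012F

open Finset

/-- `x` is a sum of at most `K` distinct divisors of `W`. -/
def Rep (W K x : ℕ) : Prop := ∃ E : Finset ℕ, (∀ e ∈ E, e ∣ W) ∧ E.card ≤ K ∧ ∑ e ∈ E, e = x

theorem Rep.mono {W W' K K' x : ℕ} (h : Rep W K x) (hW : W ∣ W') (hK : K ≤ K') : Rep W' K' x := by
  obtain ⟨E, h1, h2, h3⟩ := h
  exact ⟨E, fun e he => (h1 e he).trans hW, h2.trans hK, h3⟩

theorem Rep.one (W : ℕ) : Rep W 1 1 :=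
  ⟨{1}, by simp, by simp, by simp⟩

theorem Rep.add_mul {W K K' x y m : ℕ} (hx : Rep W K x) (hy : Rep W K' y) (hm : ¬ m ∣ W)
    (hm0 : 0 < m) : Rep (m * W) (K + K') (x + m * y) := by
  classical
  obtain ⟨E, h1, h2, h3⟩ := hx
  obtain ⟨E', h1', h2', h3'⟩ := hy
  have hinj : Set.InjOn (fun e => m * e) (E' : Set ℕ) := by
    intro a _ b _ hab
    exact Nat.eq_of_mul_eq_mul_left hm0 hab
  have hdisj : Disjoint E (E'.image (fun e => m * e)) := by
    rw [disjoint_left]
    intro e he he'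
    obtain ⟨e', _, rfl⟩ := mem_image.mp he'
    exact hm ((dvd_mul_right m e').trans (h1 _ he))
  refine ⟨E ∪ E'.image (fun e => m * e), ?_, ?_, ?_⟩
  · intro e he
    rcases mem_union.mp he with he | he
    · exact (h1 e he).trans (dvd_mul_left W m)
    · obtain ⟨e', he', rfl⟩ := mem_image.mp he
      exact Nat.mul_dvd_mul_left m (h1' e' he')
  · rw [card_union_of_disjoint hdisj, card_image_of_injOn hinj]
    omega
  · rw [sum_union hdisj, sum_image hinj, h3, ← mul_sum, h3']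

/-- Lemma 0: the zero-sum criterion. -/
theorem zero_sum (n W F : ℕ) (E : Finset ℕ) (hW : 0 < W) (hF0 : 0 < F) (hE : ∀ e ∈ E, e ∣ W)
    (hF : ∑ e ∈ E, e = n * F) :
    (∑ d ∈ E.image (fun e => (W / e) * F), (1 : ℚ) / d) = (n : ℚ) / W := by
  have hpos : ∀ e ∈ E, 0 < e := fun e he => Nat.pos_of_dvd_of_pos (hE e he) hW
  have hinj : Set.InjOn (fun e => (W / e) * F) (E : Set ℕ) := by
    intro a ha b hb hab
    have ha' := mem_coe.mp ha
    have hb' := mem_coe.mp hb
    have h1 : W / a = W / b := Nat.eq_of_mul_eq_mul_right hF0 hab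
    have e1 : a * (W / a) = W := Nat.mul_div_cancel' (hE a ha')
    have e2 : b * (W / b) = W := Nat.mul_div_cancel' (hE b hb')
    have hq : 0 < W / a := Nat.pos_of_ne_zero (by
      intro h0; rw [h0] at e1; omega)
    rw [← h1] at e2
    exact Nat.eq_of_mul_eq_mul_right hq (e1.trans e2.symm)
  rw [sum_image hinj]
  have hFq : (F : ℚ) ≠ 0 := by positivity
  have hWq : (W : ℚ) ≠ 0 := by positivity
  have h : ∀ e ∈ E, (1 : ℚ) / ((W / e * F : ℕ) : ℚ) = (e : ℚ) / (W * F) := by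
    intro e he
    have he0 : (e : ℚ) ≠ 0 := by have := hpos e he; positivity
    push_cast
    rw [Nat.cast_div (hE e he) he0]
    field_simp
  rw [sum_congr rfl h, ← sum_div]
  have : (∑ e ∈ E, (e : ℚ)) = (n : ℚ) * F := by
    have h2 : ((∑ e ∈ E, e : ℕ) : ℚ) = ((n * F : ℕ) : ℚ) := by rw [hF]
    push_cast at h2
    exact h2
  rw [this]
  field_simp

end Vale.Agent.P012F
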