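import Mathlib

/-!
# P012F M3: the Brun-Hooley lower bound sieve, crude form (`sieve_lower`).

Everything is proved from scratch:
* `bonferroni`: truncated alternating elementary symmetric sums bracket `∏ (1 - x p)`;
* `pointwise`: the Hooley inequality `∏ y_k ≥ ∏ U_k - ∑ e_i ∏_{k≠i} U_k`, in recursive form (`FF`, `GG`);
* `Good`: the multi-affine bookkeeping;  `count_class`: Chinese remainder count;
* the dyadic block estimate from the primorial bound.
-/

namespace Vale.Agent.P012F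

open Finset

namespace SieveAux

/-- Elementary symmetric sum. -/
noncomputable def esym (B : Finset ℕ) (x : ℕ → ℝ) (m : ℕ) : ℝ :=
  ∑ T ∈ B.powersetCard m, ∏ p ∈ T, x p

/-- Truncated alternating sum of elementary symmetric sums. -/
noncomputable def atr (B : Finset ℕ) (x : ℕ → ℝ) (m : ℕ) : ℝ :=
  ∑ i ∈ range (m + 1), (-1) ^ i * esym B x i

lemma esym_zero (B : Finset ℕ) (x : ℕ → ℝ) : esym B x 0 = 1 := by
  simp [esym]

lemma esym_empty_succ (x : ℕ → ℝ) (m : ℕ) : esym ∅ x (m + 1) = 0 := by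
  unfold esym
  rw [powersetCard_eq_empty.2 (by simp), sum_empty]

lemma esym_insert {p : ℕ} {B : Finset ℕ} (h : p ∉ B) (x : ℕ → ℝ) (m : ℕ) :
    esym (insert p B) x (m + 1) = esym B x (m + 1) + x p * esym B x m := by
  unfold esym
  rw [powersetCard_succ_insert h, sum_union, sum_image, mul_sum]
  · refine congrArg _ (sum_congr rfl ?_)
    intro T hT
    rw [prod_insert]
    intro hp
    exact h ((mem_powersetCard.1 hT).1 hp)
  · intro T hT T' hT' hTT
    have h1 : p ∉ T := fun hp => h ((mem_powersetCard.1 (mem_coe.1 hT)).1 hp)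
    have h2 : p ∉ T' := fun hp => h ((mem_powersetCard.1 (mem_coe.1 hT')).1 hp)
    have := congrArg (fun S => S.erase p) hTT
    simpa [erase_insert h1, erase_insert h2] using this
  · rw [disjoint_left]
    intro T hT hT'
    obtain ⟨T', _, rfl⟩ := mem_image.1 hT'
    exact h ((mem_powersetCard.1 hT).1 (mem_insert_self _ _))

lemma atr_zero (B : Finset ℕ) (x : ℕ → ℝ) : atr B x 0 = 1 := by
  simp [atr, esym_zero]

lemma atr_empty (x : ℕ → ℝ) (m : ℕ) : atr ∅ x m = 1 := by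
  unfold atr
  rw [sum_range_succ']
  simp [esym_zero, esym_empty_succ]

lemma atr_succ (B : Finset ℕ) (x : ℕ → ℝ) (m : ℕ) :
    atr B x (m + 1) = atr B x m + (-1) ^ (m + 1) * esym B x (m + 1) := by
  unfold atr
  rw [sum_range_succ]

lemma atr_insert {p : ℕ} {B : Finset ℕ} (h : p ∉ B) (x : ℕ → ℝ) (m : ℕ) :
    atr (insert p B) x (m + 1) = atr B x (m + 1) - x p * atr B x m := by
  unfold atr
  rw [sum_range_succ' _ (m + 1), sum_range_succ' _ (m + 1)]
  simp only [esym_zero, esym_insert h, mul_sum]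
  rw [add_sub_right_comm, ← sum_sub_distrib]
  refine congrArg (· + _) (sum_congr rfl ?_)
  intro i _
  ring

/-- Bonferroni for real weights in `[0,1]`. -/
lemma bonferroni (B : Finset ℕ) (x : ℕ → ℝ) (hx : ∀ p ∈ B, 0 ≤ x p ∧ x p ≤ 1) :
    ∀ m : ℕ, (Even m → ∏ p ∈ B, (1 - x p) ≤ atr B x m) ∧ (Odd m → atr B x m ≤ ∏ p ∈ B, (1 - x p)) := by
  induction B using Finset.induction_on with
  | empty =>
    intro m
    simp [atr_empty]
  | insert q B hq ih =>
    have hx' : ∀ p ∈ B, 0 ≤ x p ∧ x p ≤ 1 := fun p hp => hx p (mem_insert_of_mem hp)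
    have ih' := ih hx'
    have hq01 := hx q (mem_insert_self _ _)
    intro m
    rw [prod_insert hq]
    cases m with
    | zero =>
      constructor
      · intro _
        rw [atr_zero]
        have h1 : ∏ p ∈ B, (1 - x p) ≤ 1 := by
          apply prod_le_one
          · intro p hp; linarith [(hx' p hp).2]
          · intro p hp; linarith [(hx' p hp).1]
        have h2 : 0 ≤ ∏ p ∈ B, (1 - x p) := prod_nonneg (fun p hp => by linarith [(hx' p hp).2])
        nlinarith [hq01.1, hq01.2]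
      · intro h; simp at h
    | succ m =>
      rw [atr_insert hq]
      obtain ⟨h1, h2⟩ := ih' (m + 1)
      obtain ⟨h3, h4⟩ := ih' m
      constructor
      · intro he
        have hm : Odd m := by
          rcases Nat.even_or_odd m with h | h
          · exact absurd he (by simpa [Nat.even_add_one] using h)
          · exact h
        have := h1 he
        have := h4 hm
        nlinarith [hq01.1]
      · intro ho
        have hm : Even m := by
          rcases Nat.even_or_odd m with h | h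
          · exact h
          · exact absurd ho (by simpa [Nat.odd_add_one] using h)
        have := h2 ho
        have := h3 hm
        nlinarith [hq01.1]

lemma esym_nonneg (B : Finset ℕ) (x : ℕ → ℝ) (hx : ∀ p ∈ B, 0 ≤ x p) (m : ℕ) : 0 ≤ esym B x m := by
  apply sum_nonneg
  intro T hT
  exact prod_nonneg (fun p hp => hx p ((mem_powersetCard.1 hT).1 hp))

/-- Generating function bound: `r ^ m * e_m ≤ ∏ (1 + r x)`. -/
lemma esym_le_prod (B : Finset ℕ) (x : ℕ → ℝ) (hx : ∀ p ∈ B, 0 ≤ x p) (r : ℝ) (hr : 0 ≤ r) :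
    ∀ m : ℕ, r ^ m * esym B x m ≤ ∏ p ∈ B, (1 + r * x p) := by
  induction B using Finset.induction_on with
  | empty =>
    intro m
    cases m with
    | zero => simp [esym_zero]
    | succ m => simp [esym_empty_succ]
  | insert q B hq ih =>
    have hx' : ∀ p ∈ B, 0 ≤ x p := fun p hp => hx p (mem_insert_of_mem hp)
    have ih' := ih hx'
    have hq0 := hx q (mem_insert_self _ _)
    have hP : 1 ≤ ∏ p ∈ B, (1 + r * x p) := by
      have h := prod_le_prod (s := B) (f := fun _ => (1 : ℝ)) (g := fun p => 1 + r * x p)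
        (fun _ _ => zero_le_one) (fun p hp => by
          have := mul_nonneg hr (hx' p hp)
          linarith)
      simpa using h
    intro m
    rw [prod_insert hq]
    cases m with
    | zero =>
      rw [esym_zero]
      have := mul_nonneg hr hq0
      nlinarith
    | succ m =>
      rw [esym_insert hq, pow_succ]
      have h1 := ih' (m + 1)
      have h2 := ih' m
      rw [pow_succ] at h1
      have h3 : 0 ≤ r * x q := mul_nonneg hr hq0
      nlinarith [mul_le_mul_of_nonneg_left h2 h3]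

/-- Hooley recursion: product of the upper truncations. -/
noncomputable def FF (B : ℕ → Finset ℕ) (m : ℕ → ℕ) (x : ℕ → ℝ) : ℕ → ℝ
  | 0 => 1
  | n + 1 => FF B m x n * atr (B n) x (m n)

/-- Hooley recursion: the error. -/
noncomputable def GG (B : ℕ → Finset ℕ) (m : ℕ → ℕ) (x : ℕ → ℝ) : ℕ → ℝ
  | 0 => 0
  | n + 1 => GG B m x n * atr (B n) x (m n) + FF B m x n * esym (B n) x (m n)

/-- The pointwise Hooley inequality. -/
lemma pointwise (B : ℕ → Finset ℕ) (m : ℕ → ℕ) (x : ℕ → ℝ) (N : ℕ)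
    (hx : ∀ k < N, ∀ p ∈ B k, 0 ≤ x p ∧ x p ≤ 1)
    (hm : ∀ k < N, Even (m k) ∧ 1 ≤ m k) :
    ∀ n ≤ N, 0 ≤ ∏ k ∈ range n, ∏ p ∈ B k, (1 - x p) ∧
      ∏ k ∈ range n, ∏ p ∈ B k, (1 - x p) ≤ FF B m x n ∧
      FF B m x n - GG B m x n ≤ ∏ k ∈ range n, ∏ p ∈ B k, (1 - x p) ∧
      0 ≤ GG B m x n := by
  intro n
  induction n with
  | zero =>
    intro _
    simp [FF, GG]
  | succ n ih =>
    intro hn
    have hnN : n < N := hn
    obtain ⟨h1, h2, h3, h4⟩ := ih hnN.le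
    have hxn := hx n hnN
    obtain ⟨he, hm1⟩ := hm n hnN
    have hbon := bonferroni (B n) x hxn
    have hU := (hbon (m n)).1 he
    have hy0 : 0 ≤ ∏ p ∈ B n, (1 - x p) := prod_nonneg (fun p hp => by linarith [(hxn p hp).2])
    have hU0 : 0 ≤ atr (B n) x (m n) := le_trans hy0 hU
    have he0 : 0 ≤ esym (B n) x (m n) := esym_nonneg _ _ (fun p hp => (hxn p hp).1) _
    have hL : atr (B n) x (m n) - esym (B n) x (m n) ≤ ∏ p ∈ B n, (1 - x p) := by
      obtain ⟨m', hm'⟩ : ∃ m', m n = m' + 1 := ⟨m n - 1, by omega⟩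
      have hodd : Odd m' := by
        rcases Nat.even_or_odd m' with h | h
        · exact absurd (hm' ▸ he) (by simpa [Nat.even_add_one] using h)
        · exact h
      have := (hbon m').2 hodd
      have hs : (-1 : ℝ) ^ (m' + 1) = 1 := by
        rw [← hm']; exact he.neg_one_pow
      rw [hm', atr_succ, hs, one_mul]
      linarith
    rw [prod_range_succ]
    simp only [FF, GG]
    refine ⟨mul_nonneg h1 hy0, mul_le_mul h2 hU hy0 (le_trans h1 h2), ?_, ?_⟩
    · set Y := ∏ k ∈ range n, ∏ p ∈ B k, (1 - x p)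
      set y := ∏ p ∈ B n, (1 - x p)
      set U := atr (B n) x (m n)
      set e := esym (B n) x (m n)
      set F := FF B m x n
      set G := GG B m x n
      have a1 : Y * (U - e) ≤ Y * y := mul_le_mul_of_nonneg_left hL h1
      have a2 : (F - G) * U ≤ Y * U := mul_le_mul_of_nonneg_right h3 hU0
      have a3 : Y * e ≤ F * e := mul_le_mul_of_nonneg_right h2 he0
      nlinarith
    · exact add_nonneg (mul_nonneg h4 hU0) (mul_nonneg (le_trans h1 h2) he0)

/-! ### Chinese remainder count -/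

/-- Indicator of the forbidden class at `p`. -/
noncomputable def chi (C : ℕ → Finset ℕ) (j p : ℕ) : ℝ := if j % p ∈ C p then 1 else 0

/-- Density of the forbidden class at `p`. -/
noncomputable def dl (C : ℕ → Finset ℕ) (p : ℕ) : ℝ := ((C p).card : ℝ) / (p : ℝ)

/-- Residues modulo `∏ T` that are in all classes. -/
def Res (C : ℕ → Finset ℕ) (T : Finset ℕ) : Finset ℕ :=
  (range (∏ p ∈ T, p)).filter (fun a => ∀ p ∈ T, a % p ∈ C p)

lemma card_res (C : ℕ → Finset ℕ) (T : Finset ℕ) (hT : ∀ p ∈ T, p.Prime)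
    (hC : ∀ p ∈ T, C p ⊆ range p) : (Res C T).card = ∏ p ∈ T, (C p).card := by
  induction T using Finset.induction_on with
  | empty => simp [Res]
  | insert q T hq ih =>
    have hqp : q.Prime := hT q (mem_insert_self _ _)
    have hT' : ∀ p ∈ T, p.Prime := fun p hp => hT p (mem_insert_of_mem hp)
    have hC' : ∀ p ∈ T, C p ⊆ range p := fun p hp => hC p (mem_insert_of_mem hp)
    have hCq : C q ⊆ range q := hC q (mem_insert_self _ _)
    rw [prod_insert hq, ← ih hT' hC', ← card_product]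
    set d := ∏ p ∈ T, p with hd
    have hd0 : 0 < d := prod_pos (fun p hp => (hT' p hp).pos)
    have hcop : Nat.Coprime q d := by
      apply Nat.Coprime.prod_right
      intro p hp
      refine (Nat.coprime_primes hqp (hT' p hp)).2 ?_
      rintro rfl
      exact hq hp
    have hdvd : ∀ p ∈ T, p ∣ d := fun p hp => dvd_prod_of_mem _ hp
    refine Finset.card_nbij (fun a => (a % q, a % d)) ?_ ?_ ?_
    · intro a ha
      have ha' := mem_filter.1 (mem_coe.1 ha)
      have h2 := ha'.2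
      refine mem_coe.2 (mem_product.2 ⟨h2 q (mem_insert_self _ _), ?_⟩)
      refine mem_filter.2 ⟨mem_range.2 (Nat.mod_lt _ hd0), ?_⟩
      intro p hp
      rw [Nat.mod_mod_of_dvd _ (hdvd p hp)]
      exact h2 p (mem_insert_of_mem hp)
    · intro a ha b hb hab
      have ha' := mem_range.1 (mem_filter.1 (mem_coe.1 ha)).1
      have hb' := mem_range.1 (mem_filter.1 (mem_coe.1 hb)).1
      rw [prod_insert hq] at ha' hb'
      have h1 : a % q = b % q := (Prod.mk.inj hab).1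
      have h2 : a % d = b % d := (Prod.mk.inj hab).2
      have h3 : a ≡ b [MOD q * d] := (Nat.modEq_and_modEq_iff_modEq_mul hcop).1 ⟨h1, h2⟩
      exact Nat.ModEq.eq_of_lt_of_lt h3 ha' hb'
    · intro y hy
      obtain ⟨c, b⟩ := y
      have hy' := mem_product.1 (mem_coe.1 hy)
      have hc : c ∈ C q := hy'.1
      have hb := mem_filter.1 hy'.2
      have hcq : c < q := mem_range.1 (hCq hc)
      have hbd : b < d := mem_range.1 hb.1
      obtain ⟨k, hk3, hk4, hk5⟩ : ∃ k : ℕ, k < q * d ∧ k ≡ c [MOD q] ∧ k ≡ b [MOD d] :=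
        ⟨_, Nat.chineseRemainder_lt_mul hcop c b hqp.ne_zero hd0.ne',
          (Nat.chineseRemainder hcop c b).2.1, (Nat.chineseRemainder hcop c b).2.2⟩
      have hk1 : k % q = c := Eq.trans hk4 (Nat.mod_eq_of_lt hcq)
      have hk2 : k % d = b := Eq.trans hk5 (Nat.mod_eq_of_lt hbd)
      refine ⟨k, mem_coe.2 (mem_filter.2 ⟨?_, ?_⟩), ?_⟩
      · rw [prod_insert hq]; exact mem_range.2 hk3
      · intro p hp
        rcases mem_insert.1 hp with rfl | hp'
        · rw [hk1]; exact hc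
        · rw [← Nat.mod_mod_of_dvd _ (hdvd p hp'), hk2]
          exact hb.2 p hp'
      · simp only [hk1, hk2]

/-- Number of `j ∈ [1, J]` in a given residue class. -/
lemma count_fiber (d a J : ℕ) (hd : 0 < d) :
    |(((Icc 1 J).filter (fun j => j % d = a % d)).card : ℝ) - (J : ℝ) / d| ≤ 1 := by
  have h1 : ((Icc 1 J).filter (fun j => j % d = a % d)).card = J.count (· ≡ (a + d - 1) [MOD d]) := by
    rw [Nat.count_eq_card_filter_range]
    refine (Finset.card_nbij (fun i => i + 1) ?_ ?_ ?_).symm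
    · intro i hi
      have hi' := mem_filter.1 (mem_coe.1 hi)
      refine mem_coe.2 (mem_filter.2 ⟨?_, ?_⟩)
      · have := mem_range.1 hi'.1
        exact mem_Icc.2 ⟨Nat.succ_pos i, this⟩
      · have h := hi'.2
        have h2 : i + 1 ≡ a + d - 1 + 1 [MOD d] := h.add_right 1
        have h3 : a + d - 1 + 1 = a + d := by omega
        rw [h3] at h2
        have h4 : i + 1 ≡ a [MOD d] := h2.trans (by simp [Nat.ModEq])
        exact h4
    · intro i _ j _ hij
      exact Nat.succ.inj hij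
    · intro j hj
      have hj' := mem_filter.1 (mem_coe.1 hj)
      have hj1 := mem_Icc.1 hj'.1
      refine ⟨j - 1, mem_coe.2 (mem_filter.2 ⟨mem_range.2 (by omega), ?_⟩), by simp; omega⟩
      have h2 : j ≡ a [MOD d] := hj'.2
      have h3 : j - 1 + 1 ≡ a + d - 1 + 1 [MOD d] := by
        have e1 : j - 1 + 1 = j := by omega
        have e2 : a + d - 1 + 1 = a + d := by omega
        rw [e1, e2]
        exact h2.trans (by simp [Nat.ModEq])
      exact Nat.ModEq.add_right_cancel' 1 h3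
  rw [h1, Nat.count_modEq_card J hd]
  have hd' : (0 : ℝ) < d := by exact_mod_cast hd
  have h2 : ((J / d : ℕ) : ℝ) ≤ (J : ℝ) / d := Nat.cast_div_le
  have h3 : (J : ℝ) / d < ((J / d : ℕ) : ℝ) + 1 := by
    rw [div_lt_iff₀ hd']
    have := Nat.lt_div_mul_add (a := J) hd
    have h4 : (J : ℝ) < ((J / d * d + d : ℕ) : ℝ) := by exact_mod_cast this
    push_cast at h4
    nlinarith
  split_ifs
  · push_cast
    rw [abs_le]; constructor <;> linarith
  · push_cast
    rw [abs_le]; constructor <;> linarith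

lemma count_class (C : ℕ → Finset ℕ) (T : Finset ℕ) (hT : ∀ p ∈ T, p.Prime)
    (hC : ∀ p ∈ T, C p ⊆ range p) (J : ℕ) :
    |(∑ j ∈ Icc 1 J, ∏ p ∈ T, chi C j p) - (J : ℝ) * ∏ p ∈ T, dl C p| ≤ ∏ p ∈ T, ((C p).card : ℝ) := by
  classical
  set d := ∏ p ∈ T, p with hd
  have hd0 : 0 < d := prod_pos (fun p hp => (hT p hp).pos)
  have hdvd : ∀ p ∈ T, p ∣ d := fun p hp => dvd_prod_of_mem _ hp
  have hind : ∀ j, ∏ p ∈ T, chi C j p = ∑ a ∈ Res C T, if j % d = a then (1 : ℝ) else 0 := by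
    intro j
    unfold chi
    rw [prod_boole, sum_ite_eq]
    by_cases h : ∀ p ∈ T, j % p ∈ C p
    · rw [if_pos h, if_pos]
      refine mem_filter.2 ⟨mem_range.2 (Nat.mod_lt _ hd0), ?_⟩
      intro p hp
      rw [Nat.mod_mod_of_dvd _ (hdvd p hp)]
      exact h p hp
    · rw [if_neg h, if_neg]
      intro hm
      apply h
      intro p hp
      have := (mem_filter.1 hm).2 p hp
      rwa [Nat.mod_mod_of_dvd _ (hdvd p hp)] at this
  have h1 : ∑ j ∈ Icc 1 J, ∏ p ∈ T, chi C j p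
      = ∑ a ∈ Res C T, (((Icc 1 J).filter (fun j => j % d = a)).card : ℝ) := by
    simp_rw [hind]
    rw [sum_comm]
    refine sum_congr rfl ?_
    intro a _
    rw [sum_boole]
  have hcard := card_res C T hT hC
  have h2 : (J : ℝ) * ∏ p ∈ T, dl C p = ∑ a ∈ Res C T, (J : ℝ) / d := by
    rw [sum_const, nsmul_eq_mul, hcard]
    unfold dl
    rw [prod_div_distrib]
    push_cast
    rw [hd]
    push_cast
    ring
  rw [h1, h2, ← sum_sub_distrib]
  refine le_trans (abs_sum_le_sum_abs _ _) ?_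
  have h3 : ∀ a ∈ Res C T, |(((Icc 1 J).filter (fun j => j % d = a)).card : ℝ) - (J : ℝ) / d| ≤ 1 := by
    intro a ha
    have hlt := mem_range.1 (mem_filter.1 ha).1
    have := count_fiber d a J hd0
    rwa [Nat.mod_eq_of_lt hlt] at this
  refine le_trans (sum_le_sum h3) ?_
  rw [sum_const, nsmul_eq_mul, mul_one, hcard]
  push_cast
  exact le_refl _

/-! ### Multi-affine bookkeeping -/

/-- `f` is a multi-affine polynomial in the `chi`, with value `v` at the densities and weight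
at most `R`. -/
def Good (C : ℕ → Finset ℕ) (P : Finset ℕ) (f : ℕ → ℝ) (v R : ℝ) : Prop :=
  ∃ (ι : Type) (s : Finset ι) (T : ι → Finset ℕ) (c : ι → ℝ),
    (∀ i ∈ s, T i ⊆ P) ∧ (∀ j, f j = ∑ i ∈ s, c i * ∏ p ∈ T i, chi C j p) ∧
    v = ∑ i ∈ s, c i * ∏ p ∈ T i, dl C p ∧
    ∑ i ∈ s, |c i| * (2 : ℝ) ^ (T i).card ≤ R

namespace Good

variable {C : ℕ → Finset ℕ} {P P' : Finset ℕ} {f g : ℕ → ℝ} {v w R R' : ℝ}

lemma weaken (h : Good C P f v R) (hR : R ≤ R') : Good C P f v R' := by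
  obtain ⟨ι, s, T, c, h1, h2, h3, h4⟩ := h
  exact ⟨ι, s, T, c, h1, h2, h3, h4.trans hR⟩

lemma mono (h : Good C P f v R) (hP : P ⊆ P') : Good C P' f v R := by
  obtain ⟨ι, s, T, c, h1, h2, h3, h4⟩ := h
  exact ⟨ι, s, T, c, fun i hi => (h1 i hi).trans hP, h2, h3, h4⟩

lemma R_nonneg (h : Good C P f v R) : 0 ≤ R := by
  obtain ⟨ι, s, T, c, h1, h2, h3, h4⟩ := h
  refine le_trans ?_ h4
  exact sum_nonneg (fun i _ => mul_nonneg (abs_nonneg _) (by positivity))

lemma single (T : Finset ℕ) (hT : T ⊆ P) :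
    Good C P (fun j => ∏ p ∈ T, chi C j p) (∏ p ∈ T, dl C p) ((2 : ℝ) ^ T.card) := by
  refine ⟨Unit, {()}, fun _ => T, fun _ => 1, fun _ _ => hT, fun j => ?_, ?_, ?_⟩ <;> simp

lemma zero : Good C P (fun _ => 0) 0 0 := by
  refine ⟨Empty, ∅, fun _ => ∅, fun _ => 0, fun i hi => ?_, fun j => ?_, ?_, ?_⟩ <;> simp at *

lemma add (h : Good C P f v R) (h' : Good C P g w R') :
    Good C P (fun j => f j + g j) (v + w) (R + R') := by
  obtain ⟨ι, s, T, c, h1, h2, h3, h4⟩ := h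
  obtain ⟨ι', s', T', c', h1', h2', h3', h4'⟩ := h'
  refine ⟨ι ⊕ ι', s.disjSum s', Sum.elim T T', Sum.elim c c', ?_, ?_, ?_, ?_⟩
  · intro i hi
    rcases i with i | i
    · exact h1 i (by simpa using hi)
    · exact h1' i (by simpa using hi)
  · intro j
    rw [sum_disjSum]
    simp only [Sum.elim_inl, Sum.elim_inr]
    rw [h2, h2']
  · rw [sum_disjSum]
    simp only [Sum.elim_inl, Sum.elim_inr]
    rw [h3, h3']
  · rw [sum_disjSum]
    simp only [Sum.elim_inl, Sum.elim_inr]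
    exact add_le_add h4 h4'

lemma smul (a : ℝ) (h : Good C P f v R) :
    Good C P (fun j => a * f j) (a * v) (|a| * R) := by
  obtain ⟨ι, s, T, c, h1, h2, h3, h4⟩ := h
  refine ⟨ι, s, T, fun i => a * c i, h1, ?_, ?_, ?_⟩
  · intro j
    beta_reduce
    rw [h2, mul_sum]
    exact sum_congr rfl (fun i _ => by ring)
  · rw [h3, mul_sum]
    exact sum_congr rfl (fun i _ => by ring)
  · have : ∑ i ∈ s, |a * c i| * (2 : ℝ) ^ (T i).card = |a| * ∑ i ∈ s, |c i| * (2 : ℝ) ^ (T i).card := by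
      rw [mul_sum]
      refine sum_congr rfl (fun i _ => ?_)
      rw [abs_mul]
      ring
    rw [this]
    exact mul_le_mul_of_nonneg_left h4 (abs_nonneg _)

lemma mul (h : Good C P f v R) (h' : Good C P' g w R') (hd : Disjoint P P') :
    Good C (P ∪ P') (fun j => f j * g j) (v * w) (R * R') := by
  classical
  have hR := h.R_nonneg
  have hR' := h'.R_nonneg
  obtain ⟨ι, s, T, c, h1, h2, h3, h4⟩ := h
  obtain ⟨ι', s', T', c', h1', h2', h3', h4'⟩ := h'
  have hdT : ∀ i ∈ s, ∀ i' ∈ s', Disjoint (T i) (T' i') :=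
    fun i hi i' hi' => disjoint_of_subset_left (h1 i hi) (disjoint_of_subset_right (h1' i' hi') hd)
  refine ⟨ι × ι', s ×ˢ s', fun i => T i.1 ∪ T' i.2, fun i => c i.1 * c' i.2, ?_, ?_, ?_, ?_⟩
  · intro i hi
    obtain ⟨hi1, hi2⟩ := mem_product.1 hi
    exact union_subset_union (h1 _ hi1) (h1' _ hi2)
  · intro j
    beta_reduce
    rw [h2, h2', sum_mul_sum, sum_product]
    refine sum_congr rfl (fun i hi => sum_congr rfl (fun i' hi' => ?_))
    rw [prod_union (hdT i hi i' hi')]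
    ring
  · rw [h3, h3', sum_mul_sum, sum_product]
    refine sum_congr rfl (fun i hi => sum_congr rfl (fun i' hi' => ?_))
    rw [prod_union (hdT i hi i' hi')]
    ring
  · have : ∑ i ∈ s ×ˢ s', |c i.1 * c' i.2| * (2 : ℝ) ^ (T i.1 ∪ T' i.2).card
        = (∑ i ∈ s, |c i| * (2 : ℝ) ^ (T i).card) * (∑ i ∈ s', |c' i| * (2 : ℝ) ^ (T' i).card) := by
      rw [sum_mul_sum, sum_product]
      refine sum_congr rfl (fun i hi => sum_congr rfl (fun i' hi' => ?_))
      rw [card_union_of_disjoint (hdT i hi i' hi'), pow_add, abs_mul]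
      ring
    rw [this]
    refine mul_le_mul h4 h4' (sum_nonneg (fun i _ => mul_nonneg (abs_nonneg _) (by positivity))) hR

lemma sum {α : Type} (A : Finset α) (F : α → ℕ → ℝ) (V RR : α → ℝ)
    (h : ∀ a ∈ A, Good C P (F a) (V a) (RR a)) :
    Good C P (fun j => ∑ a ∈ A, F a j) (∑ a ∈ A, V a) (∑ a ∈ A, RR a) := by
  classical
  induction A using Finset.induction_on with
  | empty => simpa using (zero : Good C P (fun _ => 0) 0 0)
  | insert a A ha ih =>
    simp_rw [sum_insert ha]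
    exact (h a (mem_insert_self _ _)).add (ih (fun b hb => h b (mem_insert_of_mem hb)))

/-- The evaluation principle: the sum over `j ∈ [1, J]` is `J v` up to `R`. -/
lemma eval (h : Good C P f v R) (hP : ∀ p ∈ P, p.Prime ∧ C p ⊆ range p ∧ (C p).card ≤ 2) (J : ℕ) :
    |(∑ j ∈ Icc 1 J, f j) - (J : ℝ) * v| ≤ R := by
  obtain ⟨ι, s, T, c, h1, h2, h3, h4⟩ := h
  have e : (∑ j ∈ Icc 1 J, f j) - (J : ℝ) * v
      = ∑ i ∈ s, c i * ((∑ j ∈ Icc 1 J, ∏ p ∈ T i, chi C j p) - (J : ℝ) * ∏ p ∈ T i, dl C p) := by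
    simp_rw [h2]
    rw [sum_comm, h3, mul_sum, ← sum_sub_distrib]
    refine sum_congr rfl (fun i _ => ?_)
    rw [← mul_sum]
    ring
  rw [e]
  refine le_trans (abs_sum_le_sum_abs _ _) (le_trans (sum_le_sum (fun i hi => ?_)) h4)
  rw [abs_mul]
  refine mul_le_mul_of_nonneg_left ?_ (abs_nonneg _)
  have hTi := h1 i hi
  refine le_trans (count_class C (T i) (fun p hp => (hP p (hTi hp)).1)
    (fun p hp => (hP p (hTi hp)).2.1) J) ?_
  have : ∏ p ∈ T i, ((C p).card : ℝ) ≤ ∏ _p ∈ T i, (2 : ℝ) :=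
    prod_le_prod (fun _ _ => by positivity)
      (fun p hp => by exact_mod_cast (hP p (hTi hp)).2.2)
  simpa using this

end Good

/-- The weight bound for a block. -/
noncomputable def wB (B : Finset ℕ) (m : ℕ) : ℝ := (1 + 2 * (B.card : ℝ)) ^ m

lemma geom_le_one_add_pow (y : ℝ) (hy : 0 ≤ y) (m : ℕ) :
    ∑ i ∈ range (m + 1), y ^ i ≤ (1 + y) ^ m := by
  induction m with
  | zero => simp
  | succ m ih =>
    rw [sum_range_succ, pow_succ (1 + y), pow_succ y]
    have h1 : y ^ m ≤ (1 + y) ^ m := pow_le_pow_left₀ hy (by linarith) m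
    nlinarith [mul_le_mul_of_nonneg_right h1 hy]

lemma sum_two_pow_le (B : Finset ℕ) (i : ℕ) :
    ∑ T ∈ B.powersetCard i, (2 : ℝ) ^ T.card ≤ (2 * (B.card : ℝ)) ^ i := by
  have h1 : ∑ T ∈ B.powersetCard i, (2 : ℝ) ^ T.card = (B.card.choose i : ℝ) * 2 ^ i := by
    rw [sum_congr rfl (fun T hT => by rw [(mem_powersetCard.1 hT).2]), sum_const, card_powersetCard,
      nsmul_eq_mul]
  rw [h1, mul_pow, mul_comm]
  have h2 : ((B.card.choose i : ℕ) : ℝ) ≤ (B.card : ℝ) ^ i := by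
    exact_mod_cast Nat.choose_le_pow _ _
  exact mul_le_mul_of_nonneg_left h2 (by positivity)

lemma good_esym' (C : ℕ → Finset ℕ) (B : Finset ℕ) (m : ℕ) :
    Good C B (fun j => esym B (chi C j) m) (esym B (dl C) m) ((2 * (B.card : ℝ)) ^ m) := by
  have h := Good.sum (C := C) (P := B) (B.powersetCard m) (fun T j => ∏ p ∈ T, chi C j p)
    (fun T => ∏ p ∈ T, dl C p) (fun T => (2 : ℝ) ^ T.card)
    (fun T hT => Good.single T (mem_powersetCard.1 hT).1)
  exact h.weaken (sum_two_pow_le B m)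

lemma good_esym (C : ℕ → Finset ℕ) (B : Finset ℕ) (m : ℕ) :
    Good C B (fun j => esym B (chi C j) m) (esym B (dl C) m) (wB B m) :=
  (good_esym' C B m).weaken (pow_le_pow_left₀ (by positivity) (by linarith) m)

lemma good_atr (C : ℕ → Finset ℕ) (B : Finset ℕ) (m : ℕ) :
    Good C B (fun j => atr B (chi C j) m) (atr B (dl C) m) (wB B m) := by
  have h := Good.sum (C := C) (P := B) (range (m + 1))
    (fun i j => (-1) ^ i * esym B (chi C j) i) (fun i => (-1) ^ i * esym B (dl C) i)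
    (fun i => |(-1 : ℝ) ^ i| * (2 * (B.card : ℝ)) ^ i)
    (fun i _ => (good_esym' C B i).smul _)
  refine h.weaken ?_
  have e1 : ∀ i ∈ range (m + 1), |(-1 : ℝ) ^ i| * (2 * (B.card : ℝ)) ^ i = (2 * (B.card : ℝ)) ^ i := by
    intro i _
    simp
  rw [sum_congr rfl e1]
  exact geom_le_one_add_pow _ (by positivity) m

/-- The total weight. -/
noncomputable def Wp (B : ℕ → Finset ℕ) (m : ℕ → ℕ) (n : ℕ) : ℝ := ∏ k ∈ range n, wB (B k) (m k)

lemma Wp_nonneg (B : ℕ → Finset ℕ) (m : ℕ → ℕ) (n : ℕ) : 0 ≤ Wp B m n :=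
  prod_nonneg (fun k _ => by unfold wB; positivity)

lemma good_FF_GG (C : ℕ → Finset ℕ) (B : ℕ → Finset ℕ) (m : ℕ → ℕ) (N : ℕ)
    (hdisj : ∀ k n, k < n → n < N → Disjoint (B k) (B n)) :
    ∀ n ≤ N, Good C ((range n).biUnion B) (fun j => FF B m (chi C j) n) (FF B m (dl C) n) (Wp B m n) ∧
      Good C ((range n).biUnion B) (fun j => GG B m (chi C j) n) (GG B m (dl C) n)
        ((n : ℝ) * Wp B m n) := by
  intro n
  induction n with
  | zero =>
    intro _
    constructor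
    · have := Good.single (C := C) (P := ∅) ∅ (subset_refl _)
      simpa [FF, Wp] using this
    · have := Good.zero (C := C) (P := ∅)
      simpa [GG, Wp] using this
  | succ n ih =>
    intro hn
    have hnN : n < N := hn
    obtain ⟨h1, h2⟩ := ih hnN.le
    have hd : Disjoint ((range n).biUnion B) (B n) := by
      rw [disjoint_biUnion_left]
      intro k hk
      exact hdisj k n (mem_range.1 hk) hnN
    have hsub : (range n).biUnion B ∪ B n ⊆ (range (n + 1)).biUnion B := by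
      intro p hp
      rcases mem_union.1 hp with hp | hp
      · obtain ⟨k, hk, hpk⟩ := mem_biUnion.1 hp
        exact mem_biUnion.2 ⟨k, mem_range.2 (by have := mem_range.1 hk; omega), hpk⟩
      · exact mem_biUnion.2 ⟨n, mem_range.2 (by omega), hp⟩
    have hW : Wp B m (n + 1) = Wp B m n * wB (B n) (m n) := prod_range_succ _ _
    have a1 := (h1.mul (good_atr C (B n) (m n)) hd).mono hsub
    have a2 := (h2.mul (good_atr C (B n) (m n)) hd).mono hsub
    have a3 := (h1.mul (good_esym C (B n) (m n)) hd).mono hsub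
    constructor
    · rw [hW]
      exact a1
    · have a4 := a2.add a3
      have e : ((n + 1 : ℕ) : ℝ) * Wp B m (n + 1)
          = (n : ℝ) * Wp B m n * wB (B n) (m n) + Wp B m n * wB (B n) (m n) := by
        rw [hW]; push_cast; ring
      rw [e]
      exact a4

/-- The sieve inequality in abstract form. -/
lemma sieve_abstract (C : ℕ → Finset ℕ) (B : ℕ → Finset ℕ) (m : ℕ → ℕ) (N J : ℕ)
    (hdisj : ∀ k n, k < n → n < N → Disjoint (B k) (B n))
    (hB : ∀ k < N, ∀ p ∈ B k, p.Prime ∧ C p ⊆ range p ∧ (C p).card ≤ 2)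
    (hm : ∀ k < N, Even (m k) ∧ 1 ≤ m k) :
    (J : ℝ) * (FF B m (dl C) N - GG B m (dl C) N) - ((N : ℝ) + 1) * Wp B m N
      ≤ (((Icc 1 J).filter (fun j => ∀ k ∈ range N, ∀ p ∈ B k, j % p ∉ C p)).card : ℝ) := by
  classical
  obtain ⟨h1, h2⟩ := good_FF_GG C B m N hdisj N le_rfl
  have h3 := h1.add (h2.smul (-1))
  have hP : ∀ p ∈ (range N).biUnion B, p.Prime ∧ C p ⊆ range p ∧ (C p).card ≤ 2 := by
    intro p hp
    obtain ⟨k, hk, hpk⟩ := mem_biUnion.1 hp
    exact hB k (mem_range.1 hk) p hpk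
  have h4 := h3.eval hP J
  have h5 := (abs_le.1 h4).1
  have hpt : ∀ j ∈ Icc 1 J, FF B m (chi C j) N + -1 * GG B m (chi C j) N
      ≤ if (∀ k ∈ range N, ∀ p ∈ B k, j % p ∉ C p) then (1 : ℝ) else 0 := by
    intro j _
    have hx : ∀ k < N, ∀ p ∈ B k, 0 ≤ chi C j p ∧ chi C j p ≤ 1 := by
      intro k _ p _
      unfold chi
      split_ifs <;> norm_num
    obtain ⟨a1, a2, a3, a4⟩ := pointwise B m (chi C j) N hx hm N le_rfl
    split_ifs with hj
    · have hone : ∏ k ∈ range N, ∏ p ∈ B k, (1 - chi C j p) = 1 := by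
        refine prod_eq_one (fun k hk => prod_eq_one (fun p hp => ?_))
        have := hj k hk p hp
        simp [chi, this]
      rw [hone] at a3
      linarith
    · have hzero : ∏ k ∈ range N, ∏ p ∈ B k, (1 - chi C j p) = 0 := by
        push Not at hj
        obtain ⟨k, hk, p, hp, hjp⟩ := hj
        refine prod_eq_zero hk (prod_eq_zero hp ?_)
        simp [chi, hjp]
      rw [hzero] at a3
      linarith
  have h6 := sum_le_sum hpt
  rw [sum_boole] at h6
  have e : (J : ℝ) * (FF B m (dl C) N - GG B m (dl C) N) - ((N : ℝ) + 1) * Wp B m N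
      = (J : ℝ) * (FF B m (dl C) N + -1 * GG B m (dl C) N)
        - (Wp B m N + |(-1 : ℝ)| * ((N : ℝ) * Wp B m N)) := by
    simp only [abs_neg, abs_one]
    ring
  rw [e]
  linarith

/-! ### The analytic bounds -/

lemma prod_one_sub_ge (B : Finset ℕ) (x : ℕ → ℝ) (L : ℝ) (hx : ∀ p ∈ B, 0 ≤ x p ∧ x p ≤ 2 / 3)
    (hL : ∑ p ∈ B, x p ≤ L) : Real.exp (-(3 * L)) ≤ ∏ p ∈ B, (1 - x p) := by
  have h1 : ∀ p ∈ B, Real.exp (-(3 * x p)) ≤ 1 - x p := by
    intro p hp
    obtain ⟨h0, h2⟩ := hx p hp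
    have h3 : 1 + 3 * x p ≤ Real.exp (3 * x p) := by linarith [Real.add_one_le_exp (3 * x p)]
    have h4 : 0 < 1 - x p := by linarith
    have h5 : 1 ≤ Real.exp (3 * x p) * (1 - x p) := by
      have : 1 ≤ (1 + 3 * x p) * (1 - x p) := by nlinarith
      exact this.trans (mul_le_mul_of_nonneg_right h3 h4.le)
    rw [Real.exp_neg]
    have h6 := Real.exp_pos (3 * x p)
    rw [inv_eq_one_div, div_le_iff₀ h6]
    linarith
  have h2 : ∏ p ∈ B, Real.exp (-(3 * x p)) ≤ ∏ p ∈ B, (1 - x p) :=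
    prod_le_prod (fun _ _ => (Real.exp_pos _).le) h1
  refine le_trans ?_ h2
  rw [← Real.exp_sum]
  apply Real.exp_le_exp.2
  rw [sum_neg_distrib, ← mul_sum]
  linarith

lemma prod_one_add_le (B : Finset ℕ) (x : ℕ → ℝ) (L : ℝ) (hx : ∀ p ∈ B, 0 ≤ x p)
    (hL : ∑ p ∈ B, x p ≤ L) : ∏ p ∈ B, (1 + 2 * x p) ≤ Real.exp (2 * L) := by
  have h1 : ∏ p ∈ B, (1 + 2 * x p) ≤ ∏ p ∈ B, Real.exp (2 * x p) :=
    prod_le_prod (fun p hp => by linarith [hx p hp])
      (fun p _ => by linarith [Real.add_one_le_exp (2 * x p)])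
  refine h1.trans ?_
  rw [← Real.exp_sum, ← mul_sum]
  exact Real.exp_le_exp.2 (by linarith)

lemma FG_bound (B : ℕ → Finset ℕ) (m : ℕ → ℕ) (x : ℕ → ℝ) (N : ℕ) (c : ℝ) (ε : ℕ → ℝ) (hc : 0 ≤ c)
    (h1 : ∀ k < N, c ≤ atr (B k) x (m k))
    (h2 : ∀ k < N, esym (B k) x (m k) ≤ ε k * atr (B k) x (m k)) :
    ∀ n ≤ N, c ^ n ≤ FF B m x n ∧ GG B m x n ≤ FF B m x n * ∑ k ∈ range n, ε k := by
  intro n
  induction n with
  | zero =>
    intro _
    simp [FF, GG]
  | succ n ih =>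
    intro hn
    have hnN : n < N := hn
    obtain ⟨a1, a2⟩ := ih hnN.le
    have hF0 : 0 ≤ FF B m x n := le_trans (pow_nonneg hc n) a1
    have hU := h1 n hnN
    have hU0 : 0 ≤ atr (B n) x (m n) := le_trans hc hU
    simp only [FF, GG]
    refine ⟨?_, ?_⟩
    · rw [pow_succ]
      exact mul_le_mul a1 hU hc hF0
    · rw [sum_range_succ]
      have a3 := mul_le_mul_of_nonneg_right a2 hU0
      have a4 := mul_le_mul_of_nonneg_left (h2 n hnN) hF0
      nlinarith

/-! ### Dyadic counts of primes -/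

lemma prime_dyadic (i : ℕ) (D : Finset ℕ) (hD : ∀ p ∈ D, p.Prime ∧ Nat.log 2 p = i) :
    i * D.card ≤ 2 ^ (i + 2) := by
  have h1 : ∀ p ∈ D, 2 ^ i ≤ p ∧ p < 2 ^ (i + 1) := by
    intro p hp
    obtain ⟨hp1, hp2⟩ := hD p hp
    have hp0 : p ≠ 0 := hp1.ne_zero
    constructor
    · rw [← hp2]; exact Nat.pow_log_le_self 2 hp0
    · rw [← hp2]; exact Nat.lt_pow_succ_log_self (by norm_num) p
  have h2 : (2 ^ i) ^ D.card ≤ ∏ p ∈ D, p := by
    have := prod_le_prod' (s := D) (f := fun _ => 2 ^ i) (g := fun p => p) (fun p hp => (h1 p hp).1)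
    simpa using this
  have hsub : D ⊆ (range (2 ^ (i + 1) + 1)).filter Nat.Prime := by
    intro p hp
    exact mem_filter.2 ⟨mem_range.2 (by have := (h1 p hp).2; omega), (hD p hp).1⟩
  have h3 : ∏ p ∈ D, p ≤ primorial (2 ^ (i + 1)) := by
    unfold primorial
    exact prod_le_prod_of_subset_of_one_le' hsub (fun p hp _ => (mem_filter.1 hp).2.one_le)
  have h4 := primorial_le_four_pow (2 ^ (i + 1))
  have h5 : (2 : ℕ) ^ (i * D.card) ≤ 2 ^ (2 ^ (i + 2)) := by
    calc (2 : ℕ) ^ (i * D.card) = (2 ^ i) ^ D.card := by rw [pow_mul]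
      _ ≤ 4 ^ (2 ^ (i + 1)) := h2.trans (h3.trans h4)
      _ = 2 ^ (2 ^ (i + 2)) := by
        rw [show (4 : ℕ) = 2 ^ 2 by norm_num, ← pow_mul]
        congr 1
        ring
  exact (Nat.pow_le_pow_iff_right (by norm_num)).1 h5

lemma block_sum (t : ℕ) (B : Finset ℕ) (hB : ∀ p ∈ B, p.Prime ∧ Nat.log 2 (Nat.log 2 p) = t) :
    ∑ p ∈ B, (1 : ℝ) / (p : ℝ) ≤ 4 := by
  classical
  have hmaps : ∀ p ∈ B, Nat.log 2 p ∈ Ico (2 ^ t) (2 ^ (t + 1)) := by
    intro p hp
    obtain ⟨hp1, hp2⟩ := hB p hp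
    have hlog : Nat.log 2 p ≠ 0 := by
      have : 1 ≤ Nat.log 2 p := Nat.le_log_of_pow_le (by norm_num) (by simpa using hp1.two_le)
      omega
    refine mem_Ico.2 ⟨?_, ?_⟩
    · rw [← hp2]; exact Nat.pow_log_le_self 2 hlog
    · rw [← hp2]; exact Nat.lt_pow_succ_log_self (by norm_num) _
  rw [← sum_fiberwise_of_maps_to hmaps]
  have h2 : ∀ i ∈ Ico (2 ^ t) (2 ^ (t + 1)),
      ∑ p ∈ B.filter (fun p => Nat.log 2 p = i), (1 : ℝ) / (p : ℝ) ≤ 4 / (2 : ℝ) ^ t := by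
    intro i hi
    obtain ⟨hi1, hi2⟩ := mem_Ico.1 hi
    set D := B.filter (fun p => Nat.log 2 p = i) with hDdef
    have hD : ∀ p ∈ D, p.Prime ∧ Nat.log 2 p = i := by
      intro p hp
      obtain ⟨h1, h2⟩ := mem_filter.1 hp
      exact ⟨(hB p h1).1, h2⟩
    have hcard := prime_dyadic i D hD
    have h3 : ∑ p ∈ D, (1 : ℝ) / (p : ℝ) ≤ ∑ _p ∈ D, (1 : ℝ) / (2 : ℝ) ^ i := by
      refine sum_le_sum (fun p hp => ?_)
      obtain ⟨hp1, hp2⟩ := hD p hp
      have h4 : 2 ^ i ≤ p := by rw [← hp2]; exact Nat.pow_log_le_self 2 hp1.ne_zero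
      have h5 : (2 : ℝ) ^ i ≤ (p : ℝ) := by exact_mod_cast h4
      exact one_div_le_one_div_of_le (by positivity) h5
    refine h3.trans ?_
    rw [sum_const, nsmul_eq_mul]
    have ht : (0 : ℝ) < (2 : ℝ) ^ t := by positivity
    have hi0 : (0 : ℝ) < (2 : ℝ) ^ i := by positivity
    have h6 : ((i * D.card : ℕ) : ℝ) ≤ ((2 ^ (i + 2) : ℕ) : ℝ) := by exact_mod_cast hcard
    push_cast at h6
    have h7 : (2 : ℝ) ^ t ≤ (i : ℝ) := by exact_mod_cast hi1
    rw [mul_one_div, div_le_div_iff₀ hi0 ht]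
    have h8 : (D.card : ℝ) * (2 : ℝ) ^ t ≤ (i : ℝ) * (D.card : ℝ) := by
      rw [mul_comm (i : ℝ)]
      exact mul_le_mul_of_nonneg_left h7 (by positivity)
    have h9 : (2 : ℝ) ^ (i + 2) = 4 * (2 : ℝ) ^ i := by rw [pow_add]; norm_num; ring
    linarith
  refine (sum_le_sum h2).trans ?_
  rw [sum_const, nsmul_eq_mul, Nat.card_Ico]
  have ht : (0 : ℝ) < (2 : ℝ) ^ t := by positivity
  have e : ((2 ^ (t + 1) - 2 ^ t : ℕ) : ℝ) = (2 : ℝ) ^ t := by
    have : 2 ^ (t + 1) - 2 ^ t = 2 ^ t := by rw [pow_succ]; omega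
    rw [this]; push_cast; rfl
  rw [e]
  field_simp
  exact le_refl _

lemma weight_sum (K : ℕ) : ∑ k ∈ range (K + 1), (k + 1) * 2 ^ (K - k) + (K + 3) ≤ 4 * 2 ^ K := by
  induction K with
  | zero => simp
  | succ K ih =>
    rw [sum_range_succ]
    have e : ∑ k ∈ range (K + 1), (k + 1) * 2 ^ (K + 1 - k)
        = 2 * ∑ k ∈ range (K + 1), (k + 1) * 2 ^ (K - k) := by
      rw [mul_sum]
      refine sum_congr rfl (fun k hk => ?_)
      have hk' : k ≤ K := by have := mem_range.1 hk; omega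
      rw [Nat.succ_sub hk', pow_succ]
      ring
    rw [e]
    simp only [Nat.sub_self, pow_zero, mul_one]
    rw [pow_succ]
    omega

/-- The concrete blocks. -/
def blk (z K k : ℕ) : Finset ℕ :=
  ((range (z + 1)).filter Nat.Prime).filter (fun p => Nat.log 2 (Nat.log 2 p) = K - k)

lemma blk_card_le (z K k : ℕ) : (blk z K k).card ≤ 2 ^ (2 ^ (K - k + 1)) := by
  have hsub : blk z K k ⊆ range (2 ^ (2 ^ (K - k + 1))) := by
    intro p hp
    obtain ⟨_, hp2⟩ := mem_filter.1 hp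
    refine mem_range.2 ?_
    have h1 : p < 2 ^ (Nat.log 2 p + 1) := Nat.lt_pow_succ_log_self (by norm_num) p
    have h2 : Nat.log 2 p < 2 ^ (Nat.log 2 (Nat.log 2 p) + 1) :=
      Nat.lt_pow_succ_log_self (by norm_num) _
    rw [hp2] at h2
    exact lt_of_lt_of_le h1 (Nat.pow_le_pow_right (by norm_num) h2)
  simpa using card_le_card hsub

lemma wB_blk_le (z K k M : ℕ) :
    wB (blk z K k) M ≤ (2 : ℝ) ^ (4 * 2 ^ (K - k) * M) := by
  unfold wB
  rw [pow_mul]
  refine pow_le_pow_left₀ (by positivity) ?_ M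
  set t := K - k
  have h1 : ((blk z K k).card : ℝ) ≤ (2 : ℝ) ^ (2 ^ (t + 1)) := by
    exact_mod_cast blk_card_le z K k
  have h2 : (1 : ℝ) ≤ (2 : ℝ) ^ (2 ^ (t + 1)) := one_le_pow₀ (by norm_num)
  have h3 : (2 : ℝ) ^ (2 ^ (t + 1) + 2) ≤ (2 : ℝ) ^ (4 * 2 ^ t) := by
    apply pow_le_pow_right₀ (by norm_num)
    have : 2 ≤ 2 ^ (t + 1) := by
      calc 2 = 2 ^ 1 := by norm_num
        _ ≤ 2 ^ (t + 1) := Nat.pow_le_pow_right (by norm_num) (by omega)
    have e : 2 ^ (t + 1) = 2 * 2 ^ t := by rw [pow_succ]; ring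
    omega
  have h4 : (2 : ℝ) ^ (2 ^ (t + 1) + 2) = 4 * (2 : ℝ) ^ (2 ^ (t + 1)) := by
    rw [pow_add]; norm_num; ring
  linarith

lemma Wp_blk_le (z K M : ℕ) :
    Wp (blk z K) (fun k => M * (k + 1)) (K + 1) ≤ (2 : ℝ) ^ (16 * M * 2 ^ K) := by
  unfold Wp
  have h1 : ∏ k ∈ range (K + 1), wB (blk z K k) (M * (k + 1))
      ≤ ∏ k ∈ range (K + 1), (2 : ℝ) ^ (4 * 2 ^ (K - k) * (M * (k + 1))) :=
    prod_le_prod (fun k _ => by unfold wB; positivity) (fun k _ => wB_blk_le z K k _)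
  refine h1.trans ?_
  rw [prod_pow_eq_pow_sum]
  apply pow_le_pow_right₀ (by norm_num)
  have h2 := weight_sum K
  have e : ∑ k ∈ range (K + 1), 4 * 2 ^ (K - k) * (M * (k + 1))
      = 4 * M * ∑ k ∈ range (K + 1), (k + 1) * 2 ^ (K - k) := by
    rw [mul_sum]
    exact sum_congr rfl (fun k _ => by ring)
  rw [e]
  have h3 : ∑ k ∈ range (K + 1), (k + 1) * 2 ^ (K - k) ≤ 4 * 2 ^ K := by omega
  calc 4 * M * ∑ k ∈ range (K + 1), (k + 1) * 2 ^ (K - k) ≤ 4 * M * (4 * 2 ^ K) :=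
        Nat.mul_le_mul_left _ h3
    _ = 16 * M * 2 ^ K := by ring

lemma exp_40_le : Real.exp 40 ≤ (2 : ℝ) ^ 64 := by
  have h : Real.exp 40 = (Real.exp 1) ^ 40 := by
    rw [← Real.exp_nat_mul]; norm_num
  rw [h]
  have h1 : Real.exp 1 ≤ 3 := by linarith [Real.exp_one_lt_d9]
  calc (Real.exp 1) ^ 40 ≤ 3 ^ 40 := pow_le_pow_left₀ (Real.exp_pos 1).le h1 40
    _ ≤ (2 : ℝ) ^ 64 := by norm_num

lemma exp_24_le : Real.exp 24 ≤ (2 : ℝ) ^ 39 := by
  have h : Real.exp 24 = (Real.exp 1) ^ 24 := by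
    rw [← Real.exp_nat_mul]; norm_num
  rw [h]
  have h1 : Real.exp 1 ≤ 3 := by linarith [Real.exp_one_lt_d9]
  calc (Real.exp 1) ^ 24 ≤ 3 ^ 24 := pow_le_pow_left₀ (Real.exp_pos 1).le h1 24
    _ ≤ (2 : ℝ) ^ 39 := by norm_num

/-- Main inequality for the concrete blocks. -/
lemma main_count (z J : ℕ) (hz : 2 ≤ z) (C : ℕ → Finset ℕ)
    (hC : ∀ p : ℕ, p.Prime → p ≤ z → C p ⊆ range p ∧ (C p).card ≤ min 2 (p - 1)) :
    let n := Nat.log 2 z
    (J : ℝ) / ((2 : ℝ) ^ 40 * (n : ℝ) ^ 39) - ((Nat.log 2 n : ℝ) + 2) * (2 : ℝ) ^ (1056 * n)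
      ≤ (((Icc 1 J).filter (fun j => ∀ p ∈ (range (z + 1)).filter Nat.Prime, j % p ∉ C p)).card : ℝ) := by
  classical
  intro n
  set K := Nat.log 2 n with hK
  have hn1 : 1 ≤ n := Nat.le_log_of_pow_le (by norm_num) (by simpa using hz)
  have hKn : 2 ^ K ≤ n := Nat.pow_log_le_self 2 (by omega)
  set B := blk z K with hB
  set m : ℕ → ℕ := fun k => 66 * (k + 1) with hm
  have hBp : ∀ k, ∀ p ∈ B k, p.Prime ∧ p ≤ z ∧ Nat.log 2 (Nat.log 2 p) = K - k := by
    intro k p hp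
    obtain ⟨h1, h2⟩ := mem_filter.1 hp
    obtain ⟨h3, h4⟩ := mem_filter.1 h1
    exact ⟨h4, by have := mem_range.1 h3; omega, h2⟩
  have hdisj : ∀ k n', k < n' → n' < K + 1 → Disjoint (B k) (B n') := by
    intro k n' hk hn'
    rw [disjoint_left]
    intro p hp hp'
    have h1 := (hBp k p hp).2.2
    have h2 := (hBp n' p hp').2.2
    omega
  have hB3 : ∀ k < K + 1, ∀ p ∈ B k, p.Prime ∧ C p ⊆ range p ∧ (C p).card ≤ 2 := by
    intro k _ p hp
    obtain ⟨h1, h2, _⟩ := hBp k p hp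
    obtain ⟨h3, h4⟩ := hC p h1 h2
    exact ⟨h1, h3, h4.trans (min_le_left _ _)⟩
  have hm2 : ∀ k < K + 1, Even (m k) ∧ 1 ≤ m k := by
    intro k _
    refine ⟨?_, by simp only [hm]; omega⟩
    simp only [hm]
    exact Even.mul_right (by decide) _
  have habs := sieve_abstract C B m (K + 1) J hdisj hB3 hm2
  set x := dl C with hx
  have hx0 : ∀ p, 0 ≤ x p := fun p => div_nonneg (by positivity) (by positivity)
  have hx1 : ∀ k, ∀ p ∈ B k, x p ≤ 2 / 3 := by
    intro k p hp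
    obtain ⟨h1, h2, _⟩ := hBp k p hp
    obtain ⟨_, h4⟩ := hC p h1 h2
    have hp0 : (0 : ℝ) < p := by exact_mod_cast h1.pos
    simp only [hx, dl]
    rw [div_le_div_iff₀ hp0 (by norm_num)]
    rcases Nat.lt_or_ge p 3 with h5 | h5
    · have h6 : p = 2 := by have := h1.two_le; omega
      subst h6
      have h7 : (C 2).card ≤ 1 := h4.trans (min_le_right _ _)
      have h8 : ((C 2).card : ℝ) ≤ 1 := by exact_mod_cast h7
      push_cast
      linarith
    · have h7 : (C p).card ≤ 2 := h4.trans (min_le_left _ _)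
      have h8 : ((C p).card : ℝ) ≤ 2 := by exact_mod_cast h7
      have h9 : (3 : ℝ) ≤ p := by exact_mod_cast h5
      linarith
  have hx2 : ∀ k, ∑ p ∈ B k, x p ≤ 8 := by
    intro k
    have h1 : ∑ p ∈ B k, x p ≤ ∑ p ∈ B k, 2 * ((1 : ℝ) / (p : ℝ)) := by
      refine sum_le_sum (fun p hp => ?_)
      obtain ⟨h1, h2, _⟩ := hBp k p hp
      obtain ⟨_, h4⟩ := hC p h1 h2
      have h7 : (C p).card ≤ 2 := h4.trans (min_le_left _ _)
      have h8 : ((C p).card : ℝ) ≤ 2 := by exact_mod_cast h7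
      simp only [hx, dl]
      rw [mul_one_div]
      exact div_le_div_of_nonneg_right h8 (by positivity)
    rw [← mul_sum] at h1
    have h2 := block_sum (K - k) (B k) (fun p hp => ⟨(hBp k p hp).1, (hBp k p hp).2.2⟩)
    linarith
  set c := Real.exp (-24) with hc
  have hc0 : 0 < c := Real.exp_pos _
  have hU : ∀ k < K + 1, c ≤ atr (B k) x (m k) := by
    intro k _
    have h1 := prod_one_sub_ge (B k) x 8 (fun p hp => ⟨hx0 p, hx1 k p hp⟩) (hx2 k)
    have h2 := (bonferroni (B k) x (fun p hp => ⟨hx0 p, by linarith [hx1 k p hp]⟩) (m k)).1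
      (Even.mul_right (by decide) _)
    have e : Real.exp (-(3 * 8)) = c := by rw [hc]; norm_num
    rw [e] at h1
    linarith
  set ε : ℕ → ℝ := fun k => Real.exp 40 / (2 : ℝ) ^ m k with hε
  have hE : ∀ k < K + 1, esym (B k) x (m k) ≤ ε k * atr (B k) x (m k) := by
    intro k hk
    have h1 := esym_le_prod (B k) x (fun p _ => hx0 p) 2 (by norm_num) (m k)
    have h2 := prod_one_add_le (B k) x 8 (fun p _ => hx0 p) (hx2 k)
    have h3 := hU k hk
    have h4 : (0 : ℝ) < (2 : ℝ) ^ m k := by positivity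
    have h5 : esym (B k) x (m k) ≤ Real.exp 16 / (2 : ℝ) ^ m k := by
      rw [le_div_iff₀ h4, mul_comm]
      have e : Real.exp (2 * 8) = Real.exp 16 := by norm_num
      rw [e] at h2
      linarith
    refine h5.trans ?_
    have h6 : Real.exp 16 = Real.exp 40 * c := by
      rw [hc, ← Real.exp_add]; norm_num
    simp only [hε]
    rw [h6, mul_div_right_comm]
    exact mul_le_mul_of_nonneg_left h3 (div_nonneg (Real.exp_pos _).le h4.le)
  obtain ⟨hF, hG⟩ := FG_bound B m x (K + 1) c ε hc0.le hU hE (K + 1) le_rfl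
  have hsum : ∑ k ∈ range (K + 1), ε k ≤ 1 / 2 := by
    have h1 : ∀ k ∈ range (K + 1), ε k ≤ (1 / 4) * (1 / 2 : ℝ) ^ k := by
      intro k _
      simp only [hε, hm]
      have h2 : (2 : ℝ) ^ 66 * (2 : ℝ) ^ k ≤ (2 : ℝ) ^ (66 * (k + 1)) := by
        rw [← pow_add]
        exact pow_le_pow_right₀ (by norm_num) (by nlinarith)
      rw [div_le_iff₀ (by positivity)]
      have h3 : (1 / 4) * (1 / 2 : ℝ) ^ k * ((2 : ℝ) ^ 66 * (2 : ℝ) ^ k) = (2 : ℝ) ^ 64 := by
        have : (1 / 2 : ℝ) ^ k * (2 : ℝ) ^ k = 1 := by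
          rw [← mul_pow]; norm_num
        calc (1 / 4) * (1 / 2 : ℝ) ^ k * ((2 : ℝ) ^ 66 * (2 : ℝ) ^ k)
            = (1 / 4) * (2 : ℝ) ^ 66 * ((1 / 2 : ℝ) ^ k * (2 : ℝ) ^ k) := by ring
          _ = (2 : ℝ) ^ 64 := by rw [this]; norm_num
      have h4 : (1 / 4) * (1 / 2 : ℝ) ^ k * ((2 : ℝ) ^ 66 * (2 : ℝ) ^ k)
          ≤ (1 / 4) * (1 / 2 : ℝ) ^ k * (2 : ℝ) ^ (66 * (k + 1)) :=
        mul_le_mul_of_nonneg_left h2 (by positivity)
      linarith [exp_40_le]
    refine (sum_le_sum h1).trans ?_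
    rw [← mul_sum]
    have := sum_geometric_two_le (K + 1)
    linarith
  have hF0 : 0 ≤ FF B m x (K + 1) := le_trans (pow_nonneg hc0.le _) hF
  have hFG : FF B m x (K + 1) / 2 ≤ FF B m x (K + 1) - GG B m x (K + 1) := by
    have := mul_le_mul_of_nonneg_left hsum hF0
    linarith
  -- the main term
  have hnR : (1 : ℝ) ≤ (n : ℝ) := by exact_mod_cast hn1
  have hmain : 1 / ((2 : ℝ) ^ 40 * (n : ℝ) ^ 39) ≤ FF B m x (K + 1) - GG B m x (K + 1) := by
    refine le_trans ?_ hFG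
    have hcb : (1 / (2 : ℝ) ^ 39) ≤ c := by
      rw [hc, Real.exp_neg, inv_eq_one_div]
      exact one_div_le_one_div_of_le (Real.exp_pos _) exp_24_le
    have h1 : (1 / (2 : ℝ) ^ 39) ^ (K + 1) ≤ c ^ (K + 1) := pow_le_pow_left₀ (by positivity) hcb _
    have h2 : ((2 : ℝ) ^ K) ^ 39 ≤ (n : ℝ) ^ 39 := by
      apply pow_le_pow_left₀ (by positivity)
      exact_mod_cast hKn
    have h3 : (1 / (2 : ℝ) ^ 39) ^ (K + 1) = 1 / ((2 : ℝ) ^ 39 * ((2 : ℝ) ^ K) ^ 39) := by
      rw [one_div_pow, pow_succ, ← pow_mul, ← pow_mul, mul_comm K 39, mul_comm]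
    have h4 : 1 / ((2 : ℝ) ^ 39 * (n : ℝ) ^ 39) ≤ (1 / (2 : ℝ) ^ 39) ^ (K + 1) := by
      rw [h3]
      exact one_div_le_one_div_of_le (by positivity)
        (mul_le_mul_of_nonneg_left h2 (by positivity))
    have h5 : 1 / ((2 : ℝ) ^ 40 * (n : ℝ) ^ 39) = (1 / ((2 : ℝ) ^ 39 * (n : ℝ) ^ 39)) / 2 := by
      field_simp
    rw [h5]
    linarith
  -- the remainder
  have hW := Wp_blk_le z K 66
  have hW' : Wp B m (K + 1) ≤ (2 : ℝ) ^ (1056 * n) := by
    refine hW.trans ?_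
    apply pow_le_pow_right₀ (by norm_num)
    calc 16 * 66 * 2 ^ K ≤ 16 * 66 * n := Nat.mul_le_mul_left _ hKn
      _ = 1056 * n := by norm_num
  have hJ0 : (0 : ℝ) ≤ (J : ℝ) := by positivity
  have hfin : (J : ℝ) / ((2 : ℝ) ^ 40 * (n : ℝ) ^ 39) ≤ (J : ℝ) * (FF B m x (K + 1) - GG B m x (K + 1)) := by
    have := mul_le_mul_of_nonneg_left hmain hJ0
    rwa [mul_one_div] at this
  have hrem : (((K + 1 : ℕ) : ℝ) + 1) * Wp B m (K + 1) ≤ ((K : ℝ) + 2) * (2 : ℝ) ^ (1056 * n) := by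
    have : (((K + 1 : ℕ) : ℝ) + 1) = (K : ℝ) + 2 := by push_cast; ring
    rw [this]
    exact mul_le_mul_of_nonneg_left hW' (by positivity)
  have hsurv : (((Icc 1 J).filter (fun j => ∀ k ∈ range (K + 1), ∀ p ∈ B k, j % p ∉ C p)).card : ℝ)
      ≤ (((Icc 1 J).filter (fun j => ∀ p ∈ (range (z + 1)).filter Nat.Prime, j % p ∉ C p)).card : ℝ) := by
    have hsub : (Icc 1 J).filter (fun j => ∀ k ∈ range (K + 1), ∀ p ∈ B k, j % p ∉ C p)
        ⊆ (Icc 1 J).filter (fun j => ∀ p ∈ (range (z + 1)).filter Nat.Prime, j % p ∉ C p) := by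
      intro j hj
      obtain ⟨hj1, hj2⟩ := mem_filter.1 hj
      refine mem_filter.2 ⟨hj1, fun p hp => ?_⟩
      obtain ⟨hp1, hp2⟩ := mem_filter.1 hp
      have hpz : p ≤ z := by have := mem_range.1 hp1; omega
      have ht : Nat.log 2 (Nat.log 2 p) ≤ K :=
        Nat.log_mono_right (Nat.log_mono_right hpz)
      refine hj2 (K - Nat.log 2 (Nat.log 2 p)) (mem_range.2 (by omega)) p ?_
      refine mem_filter.2 ⟨hp, ?_⟩
      omega
    exact_mod_cast card_le_card hsub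
  rw [show ((Nat.log 2 n : ℕ) : ℝ) = (K : ℝ) from rfl]
  linarith

end SieveAux

open SieveAux in
/-- **Lemma 4 (M3)**: the Brun-Hooley lower bound sieve, crude form. -/
theorem sieve_lower : ∃ s₀ Cs z₀ : ℕ, 1 ≤ s₀ ∧ ∀ z, z₀ ≤ z → ∀ J, z ^ s₀ ≤ J → ∀ C : ℕ → Finset ℕ,
    (∀ p : ℕ, p.Prime → p ≤ z → C p ⊆ range p ∧ (C p).card ≤ min 2 (p - 1)) →
    J ≤ (Nat.log 2 z) ^ Cs *
      ((Icc 1 J).filter (fun j => ∀ p ∈ (range (z + 1)).filter Nat.Prime, j % p ∉ C p)).card := by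
  -- the threshold
  have htend := tendsto_pow_const_div_const_pow_of_one_lt 39 (r := (2 : ℝ)) (by norm_num)
  have hev : ∀ᶠ n : ℕ in Filter.atTop, (n : ℝ) ^ 39 / (2 : ℝ) ^ n < 1 / (2 : ℝ) ^ 41 :=
    htend.eventually (gt_mem_nhds (by positivity))
  obtain ⟨n₀, hn₀⟩ := Filter.eventually_atTop.1 hev
  refine ⟨1058, 80, max 4 (2 ^ n₀), by norm_num, ?_⟩
  intro z hz J hJ C hC
  have hz4 : 4 ≤ z := le_trans (le_max_left _ _) hz
  have hz2 : 2 ^ n₀ ≤ z := le_trans (le_max_right _ _) hz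
  set n := Nat.log 2 z with hn
  have hn2 : 2 ≤ n := Nat.le_log_of_pow_le (by norm_num) (by simpa using hz4)
  have hnn₀ : n₀ ≤ n := Nat.le_log_of_pow_le (by norm_num) hz2
  have h2n : 2 ^ n ≤ z := Nat.pow_log_le_self 2 (by omega)
  have hmain := main_count z J (by omega) C hC
  simp only at hmain
  rw [← hn] at hmain
  set S := (((Icc 1 J).filter (fun j => ∀ p ∈ (range (z + 1)).filter Nat.Prime, j % p ∉ C p)).card) with hS
  have hnR : (2 : ℝ) ≤ (n : ℝ) := by exact_mod_cast hn2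
  have hn0 : (0 : ℝ) < (n : ℝ) := by linarith
  have hzR : (0 : ℝ) < (z : ℝ) := by
    have : 0 < z := by omega
    exact_mod_cast this
  have h2nR : (2 : ℝ) ^ n ≤ (z : ℝ) := by exact_mod_cast h2n
  -- threshold inequality
  have h1 : (2 : ℝ) ^ 41 * (n : ℝ) ^ 39 ≤ (z : ℝ) := by
    have h3 := hn₀ n hnn₀
    have h4 : (0 : ℝ) < (2 : ℝ) ^ n := by positivity
    rw [div_lt_div_iff₀ h4 (by positivity)] at h3
    have h5 : (n : ℝ) ^ 39 * (2 : ℝ) ^ 41 ≤ (2 : ℝ) ^ n := by linarith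
    linarith
  -- the remainder is at most J / z
  have hrem : ((Nat.log 2 n : ℝ) + 2) * (2 : ℝ) ^ (1056 * n) ≤ (J : ℝ) / (z : ℝ) := by
    rw [le_div_iff₀ hzR]
    have hK : Nat.log 2 n + 2 ≤ z := by
      have h3 : Nat.log 2 n < n := Nat.log_lt_self 2 (by omega)
      have h4 : n + 1 ≤ 2 ^ n := Nat.lt_two_pow_self
      omega
    have hKR : ((Nat.log 2 n : ℝ) + 2) ≤ (z : ℝ) := by exact_mod_cast hK
    have h3 : (2 : ℝ) ^ (1056 * n) ≤ (z : ℝ) ^ 1056 := by
      rw [mul_comm, pow_mul]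
      exact pow_le_pow_left₀ (by positivity) h2nR _
    have h4 : (z : ℝ) ^ 1058 ≤ (J : ℝ) := by exact_mod_cast hJ
    calc ((Nat.log 2 n : ℝ) + 2) * (2 : ℝ) ^ (1056 * n) * (z : ℝ)
        ≤ (z : ℝ) * (z : ℝ) ^ 1056 * (z : ℝ) := by
          refine mul_le_mul_of_nonneg_right ?_ hzR.le
          exact mul_le_mul hKR h3 (by positivity) hzR.le
      _ = (z : ℝ) ^ 1058 := by ring
      _ ≤ (J : ℝ) := h4
  have hJ0 : (0 : ℝ) ≤ (J : ℝ) := by positivity
  have hD : (0 : ℝ) < (2 : ℝ) ^ 41 * (n : ℝ) ^ 39 := by positivity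
  have h5 : (J : ℝ) / (z : ℝ) ≤ (J : ℝ) / ((2 : ℝ) ^ 41 * (n : ℝ) ^ 39) :=
    div_le_div_of_nonneg_left hJ0 hD h1
  have h6 : (J : ℝ) / ((2 : ℝ) ^ 40 * (n : ℝ) ^ 39)
      = 2 * ((J : ℝ) / ((2 : ℝ) ^ 41 * (n : ℝ) ^ 39)) := by
    field_simp
  have h7 : (J : ℝ) / ((2 : ℝ) ^ 41 * (n : ℝ) ^ 39) ≤ (S : ℝ) := by
    linarith
  have h8 : (J : ℝ) ≤ (2 : ℝ) ^ 41 * (n : ℝ) ^ 39 * (S : ℝ) := by
    rw [div_le_iff₀ hD] at h7
    linarith
  have h9 : (2 : ℝ) ^ 41 ≤ (n : ℝ) ^ 41 := pow_le_pow_left₀ (by norm_num) hnR _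
  have h10 : (J : ℝ) ≤ (n : ℝ) ^ 80 * (S : ℝ) := by
    have hS0 : (0 : ℝ) ≤ (S : ℝ) := by positivity
    calc (J : ℝ) ≤ (2 : ℝ) ^ 41 * (n : ℝ) ^ 39 * (S : ℝ) := h8
      _ ≤ (n : ℝ) ^ 41 * (n : ℝ) ^ 39 * (S : ℝ) := by
        apply mul_le_mul_of_nonneg_right _ hS0
        exact mul_le_mul_of_nonneg_right h9 (by positivity)
      _ = (n : ℝ) ^ 80 * (S : ℝ) := by ring
  exact_mod_cast h10

end Vale.Agent.P012F
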