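import Vale.Agent.P012F.Rep
import Vale.Agent.Lib.P012.Params
import Vale.Agent.Lib.P012.Image

namespace Vale.Agent.P012F

open Finset

/-- Pigeonhole for residue classes. -/
theorem exists_class (S : Finset ℕ) (hS : S.Nonempty) (r : ℕ) (hr : 0 < r) :
    ∃ c < r, (S.filter (fun x => x % r = c)).Nonempty ∧
      S.card ≤ r * (S.filter (fun x => x % r = c)).card := by
  classical
  have hcard : S.card = ∑ c ∈ range r, (S.filter (fun s => s % r = c)).card :=
    Finset.card_eq_sum_card_fiberwise (fun s _ => by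
      simpa using Nat.mod_lt s hr)
  by_contra hcon
  push Not at hcon
  have hkey : ∀ c ∈ range r, r * (S.filter (fun x => x % r = c)).card < S.card := by
    intro c hc
    by_contra hle
    push Not at hle
    have hc' := mem_range.mp hc
    have hne : (S.filter (fun x => x % r = c)).Nonempty := by
      rw [Finset.nonempty_iff_ne_empty]
      intro h0
      rw [h0] at hle
      simp only [card_empty, mul_zero] at hle
      have := hS.card_pos
      omega
    have := hcon c hc' hne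
    omega
  have hsum : ∑ c ∈ range r, r * (S.filter (fun x => x % r = c)).card < ∑ c ∈ range r, S.card :=
    Finset.sum_lt_sum_of_nonempty (by simpa using hr.ne') hkey
  rw [← Finset.mul_sum, ← hcard, Finset.sum_const, card_range, smul_eq_mul] at hsum
  omega

/-- Cauchy-Schwarz: `VV S m < 1` makes the image mod `m` larger than `m / 2`. -/
lemma image_mod_large (S : Finset ℕ) (hS : S.Nonempty) (m : ℕ) (hV : VV S m < 1) :
    m < 2 * (S.image (fun s => s % m)).card := by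
  classical
  have hcs := Vale.Agent.P012.card_sq_le_image_mul S (fun s => s % m)
  have hcoll : ((S ×ˢ S).filter (fun x => x.1 % m = x.2 % m)).card = coll S m := by
    unfold coll
    congr 1
  rw [hcoll] at hcs
  have hcpos : (0 : ℝ) < (S.card : ℝ) := by exact_mod_cast hS.card_pos
  unfold VV at hV
  have h1 : (m : ℝ) * (coll S m : ℝ) < 2 * (S.card : ℝ) ^ 2 := by
    have h2 : (m : ℝ) * (coll S m : ℝ) / (S.card : ℝ) ^ 2 < 2 := by linarith
    rwa [div_lt_iff₀ (by positivity)] at h2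
  have h3 : ((S.card : ℝ)) ^ 2 ≤ ((S.image (fun s => s % m)).card : ℝ) * (coll S m : ℝ) := by
    exact_mod_cast hcs
  have hcollpos : (0 : ℝ) < (coll S m : ℝ) := by
    by_contra hc
    have hc0 : (coll S m : ℝ) ≤ 0 := not_lt.mp hc
    have : ((S.image (fun s => s % m)).card : ℝ) * (coll S m : ℝ) ≤ 0 :=
      mul_nonpos_of_nonneg_of_nonpos (by positivity) hc0
    have h4 : (0 : ℝ) < (S.card : ℝ) ^ 2 := by positivity
    linarith
  have h5 : (m : ℝ) * (coll S m : ℝ) < 2 * ((S.image (fun s => s % m)).card : ℝ) * (coll S m : ℝ) := by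
    nlinarith
  have h6 : (m : ℝ) < 2 * ((S.image (fun s => s % m)).card : ℝ) :=
    lt_of_mul_lt_mul_right h5 hcollpos.le
  exact_mod_cast h6

/-- Pool doubling. -/
theorem pool_double {S : Finset ℕ} {W₀ K X m : ℕ} (hS : S.Nonempty) (hV : VV S m < 1) (hm : 2 ≤ m)
    (hmW : ¬ m ∣ W₀) (hrep : ∀ s ∈ S, Rep W₀ K s ∧ 1 ≤ s ∧ s ≤ X) :
    ∃ S₂ : Finset ℕ, S₂.Nonempty ∧ m * S.card ≤ 2 * S₂.card ∧
      ∀ x ∈ S₂, Rep (m * W₀) (2 * K) x ∧ 1 ≤ x ∧ x ≤ 2 * m * X := by
  classical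
  have hm0 : 0 < m := by omega
  have himg := image_mod_large S hS m hV
  -- representatives
  set I := S.image (fun s => s % m) with hI
  have hex : ∀ c ∈ I, ∃ s, s ∈ S ∧ s % m = c := by
    intro c hc
    obtain ⟨s, hs, rfl⟩ := mem_image.mp hc
    exact ⟨s, hs, rfl⟩
  choose! rep hrep1 hrep2 using hex
  have hmod : ∀ s t : ℕ, (s + m * t) % m = s % m := fun s t => Nat.add_mul_mod_self_left s m t
  set f : ℕ × ℕ → ℕ := fun p => rep p.1 + m * p.2 with hf
  have hfinj : Set.InjOn f ((I ×ˢ S : Finset (ℕ × ℕ)) : Set (ℕ × ℕ)) := by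
    rintro ⟨c, t⟩ h1 ⟨c', t'⟩ h2 h
    rw [Finset.mem_coe, mem_product] at h1 h2
    simp only [hf] at h
    have h3 : rep c % m = rep c' % m := by
      have := congrArg (· % m) h
      simpa only [hmod] using this
    rw [hrep2 c h1.1, hrep2 c' h2.1] at h3
    subst h3
    have h4 : m * t = m * t' := Nat.add_left_cancel h
    have h5 : t = t' := Nat.eq_of_mul_eq_mul_left hm0 h4
    rw [h5]
  refine ⟨(I ×ˢ S).image f, ?_, ?_, ?_⟩
  · apply Finset.Nonempty.image
    exact Finset.Nonempty.product (hS.image _) hS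
  · rw [Finset.card_image_of_injOn hfinj, card_product]
    have : m * S.card ≤ (2 * I.card) * S.card := Nat.mul_le_mul_right _ himg.le
    calc m * S.card ≤ (2 * I.card) * S.card := this
      _ = 2 * (I.card * S.card) := by ring
  · intro x hx
    obtain ⟨⟨c, t⟩, hp, rfl⟩ := mem_image.mp hx
    obtain ⟨hc, ht⟩ := mem_product.mp hp
    have hc' : c ∈ I := hc
    have ht' : t ∈ S := ht
    have hs := hrep _ (hrep1 c hc')
    have ht2 := hrep t ht'
    simp only [hf]
    refine ⟨?_, ?_, ?_⟩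
    · have := Rep.add_mul hs.1 ht2.1 hmW hm0
      rwa [← two_mul] at this
    · have := hs.2.1
      omega
    · have h1 := hs.2.2
      have h2 := ht2.2.2
      have h3 : m * t ≤ m * X := Nat.mul_le_mul_left _ h2
      have h4 : X ≤ m * X := Nat.le_mul_of_pos_left _ hm0
      have e : 2 * m * X = m * X + m * X := by ring
      omega

/-- At most `T` primes of a family divide a nonzero number below `2 ^ T`. -/
lemma exists_avoid (pool Bad : Finset ℕ) (h : Bad.card < pool.card) : ∃ p ∈ pool, p ∉ Bad := by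
  classical
  by_contra hc
  push Not at hc
  have : pool ⊆ Bad := fun p hp => hc p hp
  have := Finset.card_le_card this
  omega

/-- The small primes `p`, `r`, `π₀` of the construction. -/
theorem small_primes (T v : ℕ) (G : Finset ℕ) (hT : 4 ≤ T) (hv : 0 < v) (hvT : v ≤ 2 ^ T)
    (hG : G.card ≤ T) (hGn : ∀ n ∈ G, 0 < n ∧ n ≤ 2 ^ T) :
    ∃ p r π₀ : ℕ, p.Prime ∧ r.Prime ∧ π₀.Prime ∧ p ≠ 2 ∧ r ≠ 2 ∧ r ≠ p ∧ r ∣ p ^ 3 + 1 ∧
      ¬ p ∣ v ∧ ¬ π₀ ∣ v ∧ π₀ ≠ 2 ∧ π₀ ≠ p ∧ π₀ ≠ r ∧ (∀ n ∈ G, ¬ π₀ ∣ n) ∧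
      p ≤ 4 * T ^ 2 ∧ r ≤ 16 * T ^ 4 ∧ π₀ ≤ 64 * T ^ 4 := by
  classical
  -- the first pool
  have hpool1 : ∃ pool : Finset ℕ, T < pool.card ∧ ∀ p ∈ pool, p.Prime ∧ p ≠ 2 ∧ p ≤ 4 * T ^ 2 := by
    by_cases hT8 : T < 8
    · refine ⟨{3, 5, 7, 11, 13, 17, 19, 23}, ?_, ?_⟩
      · have : ({3, 5, 7, 11, 13, 17, 19, 23} : Finset ℕ).card = 8 := by decide
        omega
      · intro p hp
        simp only [mem_insert, mem_singleton] at hp
        have h1 : 16 ≤ T ^ 2 := by nlinarith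
        rcases hp with rfl | rfl | rfl | rfl | rfl | rfl | rfl | rfl <;>
          refine ⟨by norm_num, by norm_num, by omega⟩
    · push Not at hT8
      set I := Nat.log 2 T + 1 with hI
      have hI4 : 4 ≤ I := by
        have : 3 ≤ Nat.log 2 T := by
          apply Nat.le_log_of_pow_le (by norm_num)
          simpa using hT8
        omega
      obtain ⟨pool, hc, hp⟩ := Vale.Agent.P012.exists_pool I hI4
      have h1 : T < 2 ^ I := Nat.lt_pow_succ_log_self (by norm_num) T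
      have h2 : 2 ^ Nat.log 2 T ≤ T := Nat.pow_log_le_self 2 (by omega)
      have h3 : 2 ^ I ≤ 2 * T := by
        rw [hI, pow_succ]; omega
      refine ⟨pool, by omega, fun p hpp => ?_⟩
      obtain ⟨h4, h5, h6⟩ := hp p hpp
      refine ⟨h4, h5, h6.trans ?_⟩
      have e : 2 ^ (2 * I) = (2 ^ I) ^ 2 := by rw [← pow_mul, mul_comm]
      rw [e]
      calc (2 ^ I) ^ 2 ≤ (2 * T) ^ 2 := Nat.pow_le_pow_left h3 2
        _ = 4 * T ^ 2 := by ring
  obtain ⟨pool, hpc, hpp⟩ := hpool1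
  -- `p`
  have hbad1 : (pool.filter (fun q => q ∣ v)).card ≤ T :=
    Vale.Agent.P012.card_prime_dvd_le pool (fun q hq => (hpp q hq).1) v T hv.ne' hvT
  obtain ⟨p, hp, hpv⟩ : ∃ p ∈ pool, p ∉ pool.filter (fun q => q ∣ v) :=
    exists_avoid _ _ (by omega)
  have hpv' : ¬ p ∣ v := fun h => hpv (mem_filter.mpr ⟨hp, h⟩)
  obtain ⟨hp1, hp2, hp3⟩ := hpp p hp
  -- `r`
  have hp3le : 3 ≤ p := by
    have := hp1.two_le
    omega
  have hpodd : p % 2 = 1 := by
    rcases hp1.eq_two_or_odd with h | h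
    · exact absurd h hp2
    · exact h
  obtain ⟨w, hw⟩ : ∃ w, p ^ 2 - p + 1 = w := ⟨_, rfl⟩
  have hw1 : w + p = p ^ 2 + 1 := by
    have : p ≤ p ^ 2 := Nat.le_self_pow (by norm_num) p
    omega
  have hwne : w ≠ 1 := by
    have h1 : 3 * p ≤ p ^ 2 := by nlinarith
    omega
  set r := Nat.minFac w with hr
  have hrp : r.Prime := Nat.minFac_prime hwne
  have hrw : r ∣ w := Nat.minFac_dvd w
  have hwfac : p ^ 3 + 1 = (p + 1) * w := by
    have : (p + 1) * (w + p) = (p + 1) * (p ^ 2 + 1) := by rw [hw1]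
    nlinarith
  have hr3 : r ∣ p ^ 3 + 1 := by
    rw [hwfac]; exact hrw.mul_left _
  have hr2 : r ≠ 2 := by
    intro h
    rw [h] at hrw
    have h1 : (p ^ 2) % 2 = 1 := by
      rw [Nat.pow_mod, hpodd]
    omega
  have hrne : r ≠ p := by
    intro h
    rw [h] at hrw
    have h1 : p ∣ w + p := hrw.add (dvd_refl p)
    rw [hw1] at h1
    have h2 : p ∣ p ^ 2 := dvd_pow_self p (by norm_num)
    have h3 : p ∣ 1 := (Nat.dvd_add_right h2).mp h1
    exact hp1.one_lt.ne' (Nat.dvd_one.mp h3)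
  have hwpos : 0 < w := by omega
  have hrle : r ≤ p ^ 2 := by
    have := Nat.le_of_dvd hwpos hrw
    omega
  have hrle2 : r ≤ 16 * T ^ 4 := by
    calc r ≤ p ^ 2 := hrle
      _ ≤ (4 * T ^ 2) ^ 2 := Nat.pow_le_pow_left hp3 2
      _ = 16 * T ^ 4 := by ring
  -- the second pool
  set Y := T ^ 2 + T + 3 with hY
  set I' := Nat.log 2 Y + 1 with hI'
  have hY16 : 16 ≤ Y := by nlinarith
  have hI'4 : 4 ≤ I' := by
    have : 4 ≤ Nat.log 2 Y := by
      apply Nat.le_log_of_pow_le (by norm_num)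
      simpa using hY16
    omega
  obtain ⟨pool', hc', hp'⟩ := Vale.Agent.P012.exists_pool I' hI'4
  have h1 : Y < 2 ^ I' := Nat.lt_pow_succ_log_self (by norm_num) Y
  have h2 : 2 ^ Nat.log 2 Y ≤ Y := Nat.pow_log_le_self 2 (by omega)
  have h3 : 2 ^ I' ≤ 2 * Y := by
    rw [hI', pow_succ]; omega
  have hbig : 2 ^ (2 * I') ≤ 64 * T ^ 4 := by
    have e : 2 ^ (2 * I') = (2 ^ I') ^ 2 := by rw [← pow_mul, mul_comm]
    rw [e]
    have hY4 : Y ≤ 4 * T ^ 2 := by
      rw [hY]
      nlinarith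
    calc (2 ^ I') ^ 2 ≤ (2 * Y) ^ 2 := Nat.pow_le_pow_left h3 2
      _ ≤ (2 * (4 * T ^ 2)) ^ 2 := Nat.pow_le_pow_left (by omega) 2
      _ = 64 * T ^ 4 := by ring
  -- the bad set
  set Bad := (pool'.filter (fun q => q ∣ v)) ∪ (G.biUnion (fun n => pool'.filter (fun q => q ∣ n))) ∪ {p, r}
    with hBad
  have hBadcard : Bad.card < pool'.card := by
    have b1 : (pool'.filter (fun q => q ∣ v)).card ≤ T :=
      Vale.Agent.P012.card_prime_dvd_le pool' (fun q hq => (hp' q hq).1) v T hv.ne' hvT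
    have b2 : (G.biUnion (fun n => pool'.filter (fun q => q ∣ n))).card ≤ T * T := by
      calc (G.biUnion (fun n => pool'.filter (fun q => q ∣ n))).card
          ≤ ∑ n ∈ G, (pool'.filter (fun q => q ∣ n)).card := Finset.card_biUnion_le
        _ ≤ ∑ _n ∈ G, T := Finset.sum_le_sum fun n hn =>
            Vale.Agent.P012.card_prime_dvd_le pool' (fun q hq => (hp' q hq).1) n T
              (hGn n hn).1.ne' (hGn n hn).2
        _ = G.card * T := by rw [Finset.sum_const, smul_eq_mul]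
        _ ≤ T * T := Nat.mul_le_mul_right _ hG
    have b3 : ({p, r} : Finset ℕ).card ≤ 2 := Finset.card_le_two
    have b4 := Finset.card_union_le ((pool'.filter (fun q => q ∣ v)) ∪ (G.biUnion (fun n => pool'.filter (fun q => q ∣ n)))) {p, r}
    have b5 := Finset.card_union_le (pool'.filter (fun q => q ∣ v)) (G.biUnion (fun n => pool'.filter (fun q => q ∣ n)))
    have e : Y = T * T + T + 3 := by rw [hY]; ring
    have b6 : Bad.card ≤ T + T * T + 2 := by
      rw [hBad]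
      omega
    rw [hc']
    omega
  obtain ⟨π₀, hπ, hπB⟩ := exists_avoid pool' Bad hBadcard
  obtain ⟨hπ1, hπ2, hπ3⟩ := hp' π₀ hπ
  simp only [hBad, mem_union, mem_filter, mem_biUnion, mem_insert, mem_singleton, not_or, not_and,
    not_exists] at hπB
  obtain ⟨⟨hπv, hπG⟩, hπp, hπr⟩ := hπB
  refine ⟨p, r, π₀, hp1, hrp, hπ1, hp2, hr2, hrne, hr3, hpv', hπv hπ, hπ2, hπp, hπr, ?_, hp3, hrle2,
    hπ3.trans hbig⟩
  intro n hn
  exact hπG n hn hπ

end Vale.Agent.P012F
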