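import Vale.Agent.P012F.Assembly
import Vale.Agent.P012F.StepsT12
import Vale.Agent.P012F.Greedy
import Vale.Agent.P012F.Sieve
import Vale.Agent.P012F.Digits

/-!
# P012F: the constants of the sieve and of the family bound, and the steps in their final form.
-/

namespace Vale.Agent.P012F

open Finset

/-- The constant of the family bound. -/
noncomputable def C₂ : ℝ := family_bound.choose

theorem C₂_pos : 0 < C₂ := family_bound.choose_spec.1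

/-- The exponent of the sieve. -/
noncomputable def s₀ : ℕ := sieve_lower.choose
/-- The loss exponent of the sieve. -/
noncomputable def Cs : ℕ := sieve_lower.choose_spec.choose
/-- The threshold of the sieve. -/
noncomputable def z₀ : ℕ := sieve_lower.choose_spec.choose_spec.choose

theorem s₀_pos : 1 ≤ s₀ := sieve_lower.choose_spec.choose_spec.choose_spec.1

/-- Choice of the last greedy denominator. -/
theorem choose_m {S : Finset ℕ} {X z J g₀ v₀ N ω : ℕ} (hS : S.Nonempty) (hSX : ∀ s ∈ S, s ≤ X)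
    (hNX : N ^ 2 ≤ X) (hz : z₀ ≤ z) (hz2 : 2 ≤ z) (hJ : z ^ s₀ ≤ J) (hg₀ : 1 ≤ g₀) (hg : g₀ + J ≤ N)
    (hv₀ : v₀ ≠ 0) (hω : v₀.primeFactors.card ≤ ω)
    (hnum : C₂ * ((X : ℝ) / (S.card : ℝ)) * ((J : ℝ) / (z : ℝ) + (Nat.log 2 N : ℝ) + 1)
        + (ω : ℝ) * ((J : ℝ) / (z : ℝ) + 1) + 1 ≤ (J : ℝ) / ((Nat.log 2 z : ℝ) ^ Cs)) :
    ∃ j ∈ Icc 1 J, Rough z (g₀ + j) ∧ Nat.Coprime (g₀ + j) v₀ ∧ VV S (g₀ + j) < 1 :=
  choose_m_core (C₂ := C₂) (s₀ := s₀) (Cs := Cs) (z₀ := z₀) family_bound.choose_spec.2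
    sieve_lower.choose_spec.choose_spec.choose_spec.2 hS hSX hNX hz hz2 hJ hg₀ hg hv₀ hω hnum

/-- Choice of `j`: both parts rough and with small `V`. -/
theorem choose_j {S₁ S₂ : Finset ℕ} {X₁ X₂ z J Q r₀ v N₁ N₂ : ℕ} (hS₁ : S₁.Nonempty)
    (hS₂ : S₂.Nonempty) (hS₁X : ∀ s ∈ S₁, s ≤ X₁) (hS₂X : ∀ s ∈ S₂, s ≤ X₂)
    (hN₁ : N₁ ^ 2 ≤ X₁) (hN₂ : N₂ ^ 2 ≤ X₂) (hz : z₀ ≤ z) (hz2 : 2 ≤ z) (hJ : z ^ s₀ ≤ J)
    (hQ : J < Q) (hQN : Q ≤ N₁) (hr₀ : Nat.Coprime r₀ v) (hv : 0 < v)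
    (hN₂v : r₀ + J * v ≤ N₂)
    (h2 : 2 ∣ v ∨ (Q + r₀) % 2 = 0)
    (hnum : C₂ * ((X₁ : ℝ) / (S₁.card : ℝ)) * ((J : ℝ) / (z : ℝ) + (Nat.log 2 N₁ : ℝ) + 1)
        + C₂ * ((X₂ : ℝ) / (S₂.card : ℝ)) * ((J : ℝ) / (z : ℝ) + (Nat.log 2 N₂ : ℝ) + 1) + 1
        ≤ (J : ℝ) / ((Nat.log 2 z : ℝ) ^ Cs)) :
    ∃ j ∈ Icc 1 J, Rough z (Q - j) ∧ Rough z (r₀ + j * v) ∧ VV S₁ (Q - j) < 1 ∧
      VV S₂ (r₀ + j * v) < 1 :=
  choose_j_core (C₂ := C₂) (s₀ := s₀) (Cs := Cs) (z₀ := z₀) family_bound.choose_spec.2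
    sieve_lower.choose_spec.choose_spec.choose_spec.2 hS₁ hS₂ hS₁X hS₂X hN₁ hN₂ hz hz2 hJ hQ hQN hr₀ hv hN₂v h2 hnum

end Vale.Agent.P012F
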